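
/-!
# P181, `a = 6`: the kernel program

Rows: `F x y z` is the coefficient of `z₄ ^ x z₅ ^ y z₆ ^ z` of a polynomial in six variables,
antisymmetric in the last three, with `x₁ = 1`, `x₂ = X = 2 ^ w`, `x₃ = Y = X ^ S`, modulo
`2 ^ K`. Only recursors and `Nat` functions with fast kernel reduction are used.
-/

set_option autoImplicit false

noncomputable section

namespace Vale.Agent.P181.H788

/-- a table of rows -/
abbrev Tb : Type := Nat → Nat → Nat → Nat

/-- `k n`, with `n` in a canonical form -/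
def fc (n : Nat) (k : Nat → Nat) : Nat :=
  @Nat.rec (fun _ => Nat) (k 0) (fun m _ => k (Nat.succ m)) n

/-- `∑ i < n, f i` -/
def sm (f : Nat → Nat) (n : Nat) : Nat :=
  @Nat.rec (fun _ => Nat) 0 (fun i ih => Nat.add ih (f i)) n

/-- `if b then t else e` -/
def bt (b : Bool) (t e : Nat) : Nat := @Bool.rec (fun _ => Nat) e t b

/-- minimum -/
def mn (a b : Nat) : Nat := bt (Nat.ble a b) a b

/-- `h_r (1, X ^ k, Y ^ k)` modulo `2 ^ K` -/
def hv (w S K k r : Nat) : Nat :=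
  Nat.mod (sm (fun i => sm (fun j =>
    Nat.pow 2 (Nat.mul w (Nat.mul k (Nat.add i (Nat.mul S j)))))
    (Nat.succ (Nat.sub r i))) (Nat.succ r)) (Nat.pow 2 K)

/-- lookup at an unsorted place; `F` is antisymmetric modulo `2 ^ K` -/
def sg (K : Nat) (F : Tb) (x y z : Nat) : Nat :=
  bt (Nat.ble (Nat.succ y) x)
    (bt (Nat.ble (Nat.succ z) y) (F x y z)
      (bt (Nat.ble (Nat.succ y) z)
        (bt (Nat.ble (Nat.succ z) x) (Nat.sub (Nat.pow 2 K) (F x z y))
          (bt (Nat.ble (Nat.succ x) z) (F z x y) 0)) 0))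
    (bt (Nat.ble (Nat.succ x) y)
      (bt (Nat.ble (Nat.succ z) x) (Nat.sub (Nat.pow 2 K) (F y x z))
        (bt (Nat.ble (Nat.succ x) z)
          (bt (Nat.ble (Nat.succ z) y) (F y z x)
            (bt (Nat.ble (Nat.succ y) z) (Nat.sub (Nat.pow 2 K) (F z y x)) 0)) 0)) 0)

/-- the contribution of one `k`:
`∑ h_(d-a-b-c) (1, X ^ k, Y ^ k) F (x - k a) (y - k b) (z - k c)` -/
def ctr (w S K k d : Nat) (F : Tb) (x y z : Nat) : Nat :=
  sm (fun a => fc (Nat.sub x (Nat.mul k a)) fun x' => fc (Nat.sub d a) fun d' =>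
    sm (fun b => fc (Nat.sub y (Nat.mul k b)) fun y' => fc (Nat.sub d' b) fun d'' =>
      sm (fun c => fc (Nat.sub z (Nat.mul k c)) fun z' => fc (Nat.sub d'' c) fun r =>
        Nat.mul (hv w S K k r) (sg K F x' y' z'))
      (Nat.succ (mn (Nat.div z k) d'')))
      (Nat.succ (mn (Nat.div y k) d')))
      (Nat.succ (mn (Nat.div x k) d))

/-- the same for `k = 1`, `x > y > z`: horizontal strips (`x - a > y`, `y - b > z`) -/
def pie (w S K d : Nat) (F : Tb) (x y z : Nat) : Nat :=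
  sm (fun a => fc (Nat.sub x a) fun x' => fc (Nat.sub d a) fun d' =>
    sm (fun b => fc (Nat.sub y b) fun y' => fc (Nat.sub d' b) fun d'' =>
      sm (fun c => fc (Nat.sub z c) fun z' => fc (Nat.sub d'' c) fun r =>
        Nat.mul (hv w S K 1 r) (F x' y' z'))
      (Nat.succ (mn z d'')))
      (mn (Nat.sub y z) (Nat.succ d')))
      (mn (Nat.sub x y) (Nat.succ d))

/-- the comparison `a > b` as `0` or `1` (number of inversions) -/
def iv (a b : Nat) : Nat := bt (Nat.ble (Nat.succ b) a) 1 0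

/-- `± X ^ f2 Y ^ f3` modulo `2 ^ K` (the sign is the parity of `s`) -/
def tm (w S K s f2 f3 : Nat) : Nat :=
  bt (Nat.beq (Nat.mod s 2) 0)
    (Nat.mod (Nat.pow 2 (Nat.mul w (Nat.add f2 (Nat.mul S f3)))) (Nat.pow 2 K))
    (Nat.sub (Nat.pow 2 K)
      (Nat.mod (Nat.pow 2 (Nat.mul w (Nat.add f2 (Nat.mul S f3)))) (Nat.pow 2 K)))

/-- the number of pairs `i < j` with `e i < e j` in `(e1, e2, e3, x, y, z)` -/
def inv6 (e1 e2 e3 x y z : Nat) : Nat :=
  iv e2 e1 + iv e3 e1 + iv x e1 + iv y e1 + iv z e1 + (iv e3 e2 + iv x e2 + iv y e2 + iv z e2) +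
    (iv x e3 + iv y e3 + iv z e3) + (iv y x + iv z x) + iv z y

/-- level `0`: the Vandermonde product; `∑ ± X ^ e2 Y ^ e3` over the permutations
`(e1, e2, e3, x, y, z)` of `0, ..., 5` -/
def row0 (w S K x y z : Nat) : Nat :=
  bt (Nat.ble x 5)
    (Nat.mod (sm (fun e2 => sm (fun e3 => fc (Nat.sub 15 (x + y + z + e2 + e3)) fun e1 =>
      bt (Nat.beq (2 ^ e1 + 2 ^ e2 + 2 ^ e3 + 2 ^ x + 2 ^ y + 2 ^ z) 63)
        (tm w S K (inv6 e1 e2 e3 x y z) e2 e3) 0) 6) 6) (Nat.pow 2 K)) 0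

/-- conjunction -/
def bc (b c : Bool) : Bool := @Bool.rec (fun _ => Bool) false c b

/-- `f i` for all `i < n` -/
def allB (f : Nat → Bool) (n : Nat) : Bool :=
  @Nat.rec (fun _ => Bool) true (fun i ih => bc (f i) ih) n

/-- `k n`, with `n` in a canonical form -/
def fb (n : Nat) (k : Nat → Bool) : Bool :=
  @Nat.rec (fun _ => Bool) (k 0) (fun m _ => k (Nat.succ m)) n

/-- `2 ^ (w - 1)` in each of the `L` digits -/
def off (w L : Nat) : Nat :=
  Nat.mul (Nat.pow 2 (Nat.sub w 1))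
    (Nat.div (Nat.sub (Nat.pow 2 (Nat.mul w L)) 1) (Nat.sub (Nat.pow 2 w) 1))

/-- the signs of the digits `e1 > e2 > e3 > x`, `e1 + e2 + e3 = T`, `e3 < R` -/
def chkRow (w S R u T x : Nat) : Bool :=
  allB (fun j3 => fb (Nat.add (Nat.succ x) j3) fun e3 =>
    allB (fun j2 => Nat.beq (Nat.mod (Nat.shiftRight u
      (Nat.add (Nat.mul w (Nat.add (Nat.add (Nat.succ e3) j2) (Nat.mul S e3))) (Nat.sub w 1))) 2) 1)
      (Nat.sub (Nat.div (Nat.sub (Nat.sub T e3) 1) 2) e3)) (Nat.sub R (Nat.succ x))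

/-- `f F A - f G B ≥ 0` in all digits; `D` is the degree, `X1` bounds the first entry -/
def chk (w S R D f g : Nat) (A B : Tb) (X1 : Nat) : Bool :=
  allB (fun x => allB (fun y => allB (fun z =>
    fb x fun x => fb y fun y => fb z fun z =>
      chkRow w S R (Nat.mod (Nat.add (Nat.add (Nat.mul f (A x y z))
        (Nat.mul g (Nat.sub (Nat.pow 2 (Nat.mul w (Nat.mul S R))) (B x y z))))
        (off w (Nat.mul S R))) (Nat.pow 2 (Nat.mul w (Nat.mul S R))))
        (Nat.sub D (Nat.add (Nat.add x y) z)) x) y) x) X1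

end Vale.Agent.P181.H788
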