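import Vale.Agent.P181.H788.ProgZ

/-!
# P181, `a = 6`: division by the level, digit tests, loops over the rows
-/

set_option autoImplicit false

noncomputable section

namespace Vale.Agent.P181.H788

/-- `1` in each of the `L` digits -/
def onz (w L : Nat) : Nat :=
  Nat.div (Nat.sub (Nat.pow 2 (Nat.mul w L)) 1) (Nat.sub (Nat.pow 2 w) 1)

/-- exact division of all (signed) digits by `N` -/
def dvz (w L N v u : Nat) : Nat :=
  Nat.mod (Nat.add
    (Nat.div (Nat.mod (Nat.add u (Nat.mul N (Nat.mul (Nat.pow 2 v) (onz w L))))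
      (Nat.pow 2 (Nat.mul w L))) N)
    (Nat.sub (Nat.pow 2 (Nat.mul w L)) (Nat.mul (Nat.pow 2 v) (onz w L))))
    (Nat.pow 2 (Nat.mul w L))

/-- the digit test -/
def dtz (w L v u : Nat) : Bool :=
  Nat.beq (Nat.land (Nat.mod (Nat.add u (Nat.mul (Nat.pow 2 v) (onz w L)))
    (Nat.pow 2 (Nat.mul w L))) (Nat.mul (Nat.sub (Nat.pow 2 w) (Nat.pow 2 (Nat.succ v)))
      (onz w L))) 0

/-- all rows `z < y < x < X1`, `z < Z1`, `4 x + y + z ≤ C` -/
def allR (X1 C Z1 : Nat) (f : Nat → Nat → Nat → Bool) : Bool :=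
  allB (fun x => allB (fun y => allB (fun z => fb x fun x => fb y fun y => fb z fun z =>
    @Bool.rec (fun _ => Bool) true (f x y z)
      (Nat.ble (Nat.add (Nat.add (Nat.mul 4 x) y) z) C)) (mn y Z1)) x) X1

end Vale.Agent.P181.H788
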