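import Vale.Agent.P181.H788.FLevel
import Vale.Agent.P181.H788.ProgE

set_option autoImplicit false

/-!
# P181, `a = 6`: the levels of the kernel program with division, one lemma for each level
-/

namespace Vale.Agent.P181.H788.FL

open Finset Vale.Agent.P181.H605 Vale.Agent.P181.H51

theorem dvz_eq (w L N v u : ℕ) : dvz w L N v u = dvs w L N v u := rfl

theorem dtz_eq (w L v u : ℕ) : dtz w L v u = dtest w L v u := rfl

theorem dvz_le (w L N v u : ℕ) : dvz w L N v u ≤ 2 ^ (w * L) := by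
  rw [dvz_eq]
  exact (dvs_lt w L N v u).le

/-- A table of level `N`: sound, with digits less than or equal to `B`, rows at most `2 ^ K`. -/
structure Lv (w S R N a : ℕ) (Rg : ℕ → ℕ → ℕ → Prop) (F : Tb) (B : ℕ) : Prop where
  son : SOn w S R N a Rg F
  bf : BF S (S * R) N a Rg B
  le : ∀ x y z, F x y z ≤ 2 ^ (w * (S * R))

theorem lv0 {w S R a K : ℕ} {Rg : ℕ → ℕ → ℕ → Prop} (hS : 15 < S) (hK : K = w * (S * R))
    {F : Tb} (hF : ∀ x y z, F x y z = row0 w S K x y z) : Lv w S R 0 a Rg F 1 := by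
  subst hK
  refine ⟨?_, BF_zero hS _ a Rg, fun x y z => ?_⟩
  · intro x y z h1 h2 h3
    rw [hF]
    exact level0 w S R a Rg x y z h1 h2 h3
  · rw [hF]
    exact row0_lt w S _ x y z

/-- The digit tests over the rows. -/
theorem allR_iff {X1 C Z1 : ℕ} {f : ℕ → ℕ → ℕ → Bool} (h : allR X1 C Z1 f = true) {x y z : ℕ}
    (hzy : z < y) (hyx : y < x) (hx : x < X1) (hz : z < Z1) (hC : 4 * x + y + z ≤ C) :
    f x y z = true := by
  unfold allR at h
  have h1 := (allB_iff _ X1).1 h x hx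
  have h2 := (allB_iff _ x).1 h1 y hyx
  rw [H605.mn_eq] at h2
  have h3 := (allB_iff _ _).1 h2 z (lt_min hzy hz)
  rw [fb_eq, fb_eq, fb_eq] at h3
  have h4 : Nat.ble (Nat.add (Nat.add (Nat.mul 4 x) y) z) C = true := Nat.ble_eq_true_of_le hC
  rw [h4] at h3
  exact h3

/-- The rows `z < Z1`, `x < X1`, `4 x + y + z ≤ C`. -/
def Rr (X1 C Z1 : ℕ) (x y z : ℕ) : Prop := x < X1 ∧ z < Z1 ∧ 4 * x + y + z ≤ C

theorem Rr_down (X1 C Z1 : ℕ) : Down (Rr X1 C Z1) := by
  intro x y z x' y' z' h hx hy hz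
  unfold Rr at h ⊢
  omega

/-- A level from its a priori bound and its digit test. -/
theorem Lv.test {w S R N a L v B' X1 C Z1 : ℕ} {F : Tb} (hS : 0 < S)
    (h : Lv w S R N a (Rr X1 C Z1) F B') (hL : L = S * R) (hB' : B' < 2 ^ (w - 1))
    (hv : v + 1 ≤ w) (ht : allR X1 C Z1 (fun x y z => dtz w L v (F x y z)) = true) :
    Lv w S R N a (Rr X1 C Z1) F (2 ^ v) := by
  subst hL
  refine ⟨h.son, btestF hS h.son h.bf hB' hv fun x y z h1 h2 h3 => ?_, h.le⟩
  exact allR_iff ht h1 h2 h3.1 h3.2.1 h3.2.2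

variable {w S R K L a v B' : ℕ} {Rg : ℕ → ℕ → ℕ → Prop}

theorem flev1 {F0 F1 : Tb} {B0 : ℕ} (hS : 0 < S) (hd : Down Rg) (hL : L = S * R)
    (hK : K = w * L) (h0 : Lv w S R 0 a Rg F0 B0)
    (hB : (a + 5).choose a * (B0) ≤ 1 * B' + 0) (hv : B' < 2 ^ v)
    (hw : 1 * 2 ^ (v + 1) ≤ 2 ^ w)
    (hF : ∀ x y z, F1 x y z = dvz w L 1 v (pie w S K a F0 x y z)) :
    Lv w S R 1 a Rg F1 B' := by
  subst hL hK
  have hb : BF S (S * R) 1 a Rg B' := by
    refine aprioriF hS hd (by decide) (fun j => B0) ?_ ?_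
    · intro j hj
      interval_cases j
      · exact h0.bf
    · simpa [Finset.sum_range_succ] using hB
  refine ⟨levelF hS hd (by decide) (fun j => F0) ?_ ?_ hb hv hw ?_, hb, fun x y z => ?_⟩
  · intro j hj
    interval_cases j
    · exact h0.son
  · intro x y z
    exact h0.le x y z
  · intro x y z _ _ _
    rw [hF, dvz_eq]
    congr 1
  · rw [hF]
    exact dvz_le w (S * R) 1 v _

theorem flev2 {F0 F1 F2 : Tb} {B0 B1 : ℕ} (hS : 0 < S) (hd : Down Rg) (hL : L = S * R)
    (hK : K = w * L) (h0 : Lv w S R 0 a Rg F0 B0) (h1 : Lv w S R 1 a Rg F1 B1)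
    (hB : (a + 5).choose a * (B0 + B1) ≤ 2 * B' + 1) (hv : B' < 2 ^ v)
    (hw : 2 * 2 ^ (v + 1) ≤ 2 ^ w)
    (hF : ∀ x y z, F2 x y z = dvz w L 2 v (Nat.add (pie w S K a F1 x y z) (ctr w S K 2 a F0 x y z))) :
    Lv w S R 2 a Rg F2 B' := by
  subst hL hK
  have hb : BF S (S * R) 2 a Rg B' := by
    refine aprioriF hS hd (by decide) (fun j => if j = 0 then B0 else B1) ?_ ?_
    · intro j hj
      interval_cases j
      · exact h0.bf
      · exact h1.bf
    · simpa [Finset.sum_range_succ] using hB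
  refine ⟨levelF hS hd (by decide) (fun j => if j = 0 then F0 else F1) ?_ ?_ hb hv hw ?_, hb, fun x y z => ?_⟩
  · intro j hj
    interval_cases j
    · exact h0.son
    · exact h1.son
  · intro x y z
    exact h1.le x y z
  · intro x y z _ _ _
    rw [hF, dvz_eq]
    congr 1 <;> simp [Finset.sum_range_succ]
  · rw [hF]
    exact dvz_le w (S * R) 2 v _

theorem flev3 {F0 F1 F2 F3 : Tb} {B0 B1 B2 : ℕ} (hS : 0 < S) (hd : Down Rg) (hL : L = S * R)
    (hK : K = w * L) (h0 : Lv w S R 0 a Rg F0 B0) (h1 : Lv w S R 1 a Rg F1 B1) (h2 : Lv w S R 2 a Rg F2 B2)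
    (hB : (a + 5).choose a * (B0 + B1 + B2) ≤ 3 * B' + 2) (hv : B' < 2 ^ v)
    (hw : 3 * 2 ^ (v + 1) ≤ 2 ^ w)
    (hF : ∀ x y z, F3 x y z = dvz w L 3 v (Nat.add (pie w S K a F2 x y z) (Nat.add (ctr w S K 2 a F1 x y z) (ctr w S K 3 a F0 x y z)))) :
    Lv w S R 3 a Rg F3 B' := by
  subst hL hK
  have hb : BF S (S * R) 3 a Rg B' := by
    refine aprioriF hS hd (by decide) (fun j => if j = 0 then B0 else if j = 1 then B1 else B2) ?_ ?_
    · intro j hj
      interval_cases j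
      · exact h0.bf
      · exact h1.bf
      · exact h2.bf
    · simpa [Finset.sum_range_succ] using hB
  refine ⟨levelF hS hd (by decide) (fun j => if j = 0 then F0 else if j = 1 then F1 else F2) ?_ ?_ hb hv hw ?_, hb, fun x y z => ?_⟩
  · intro j hj
    interval_cases j
    · exact h0.son
    · exact h1.son
    · exact h2.son
  · intro x y z
    exact h2.le x y z
  · intro x y z _ _ _
    rw [hF, dvz_eq]
    congr 1 <;> simp [Finset.sum_range_succ]
  · rw [hF]
    exact dvz_le w (S * R) 3 v _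

theorem flev4 {F0 F1 F2 F3 F4 : Tb} {B0 B1 B2 B3 : ℕ} (hS : 0 < S) (hd : Down Rg) (hL : L = S * R)
    (hK : K = w * L) (h0 : Lv w S R 0 a Rg F0 B0) (h1 : Lv w S R 1 a Rg F1 B1) (h2 : Lv w S R 2 a Rg F2 B2) (h3 : Lv w S R 3 a Rg F3 B3)
    (hB : (a + 5).choose a * (B0 + B1 + B2 + B3) ≤ 4 * B' + 3) (hv : B' < 2 ^ v)
    (hw : 4 * 2 ^ (v + 1) ≤ 2 ^ w)
    (hF : ∀ x y z, F4 x y z = dvz w L 4 v (Nat.add (pie w S K a F3 x y z) (Nat.add (Nat.add (ctr w S K 2 a F2 x y z) (ctr w S K 3 a F1 x y z)) (ctr w S K 4 a F0 x y z)))) :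
    Lv w S R 4 a Rg F4 B' := by
  subst hL hK
  have hb : BF S (S * R) 4 a Rg B' := by
    refine aprioriF hS hd (by decide) (fun j => if j = 0 then B0 else if j = 1 then B1 else if j = 2 then B2 else B3) ?_ ?_
    · intro j hj
      interval_cases j
      · exact h0.bf
      · exact h1.bf
      · exact h2.bf
      · exact h3.bf
    · simpa [Finset.sum_range_succ] using hB
  refine ⟨levelF hS hd (by decide) (fun j => if j = 0 then F0 else if j = 1 then F1 else if j = 2 then F2 else F3) ?_ ?_ hb hv hw ?_, hb, fun x y z => ?_⟩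
  · intro j hj
    interval_cases j
    · exact h0.son
    · exact h1.son
    · exact h2.son
    · exact h3.son
  · intro x y z
    exact h3.le x y z
  · intro x y z _ _ _
    rw [hF, dvz_eq]
    congr 1 <;> simp [Finset.sum_range_succ]
  · rw [hF]
    exact dvz_le w (S * R) 4 v _

theorem flev5 {F0 F1 F2 F3 F4 F5 : Tb} {B0 B1 B2 B3 B4 : ℕ} (hS : 0 < S) (hd : Down Rg) (hL : L = S * R)
    (hK : K = w * L) (h0 : Lv w S R 0 a Rg F0 B0) (h1 : Lv w S R 1 a Rg F1 B1) (h2 : Lv w S R 2 a Rg F2 B2) (h3 : Lv w S R 3 a Rg F3 B3) (h4 : Lv w S R 4 a Rg F4 B4)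
    (hB : (a + 5).choose a * (B0 + B1 + B2 + B3 + B4) ≤ 5 * B' + 4) (hv : B' < 2 ^ v)
    (hw : 5 * 2 ^ (v + 1) ≤ 2 ^ w)
    (hF : ∀ x y z, F5 x y z = dvz w L 5 v (Nat.add (pie w S K a F4 x y z) (Nat.add (Nat.add (Nat.add (ctr w S K 2 a F3 x y z) (ctr w S K 3 a F2 x y z)) (ctr w S K 4 a F1 x y z)) (ctr w S K 5 a F0 x y z)))) :
    Lv w S R 5 a Rg F5 B' := by
  subst hL hK
  have hb : BF S (S * R) 5 a Rg B' := by
    refine aprioriF hS hd (by decide) (fun j => if j = 0 then B0 else if j = 1 then B1 else if j = 2 then B2 else if j = 3 then B3 else B4) ?_ ?_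
    · intro j hj
      interval_cases j
      · exact h0.bf
      · exact h1.bf
      · exact h2.bf
      · exact h3.bf
      · exact h4.bf
    · simpa [Finset.sum_range_succ] using hB
  refine ⟨levelF hS hd (by decide) (fun j => if j = 0 then F0 else if j = 1 then F1 else if j = 2 then F2 else if j = 3 then F3 else F4) ?_ ?_ hb hv hw ?_, hb, fun x y z => ?_⟩
  · intro j hj
    interval_cases j
    · exact h0.son
    · exact h1.son
    · exact h2.son
    · exact h3.son
    · exact h4.son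
  · intro x y z
    exact h4.le x y z
  · intro x y z _ _ _
    rw [hF, dvz_eq]
    congr 1 <;> simp [Finset.sum_range_succ]
  · rw [hF]
    exact dvz_le w (S * R) 5 v _

theorem flev6 {F0 F1 F2 F3 F4 F5 F6 : Tb} {B0 B1 B2 B3 B4 B5 : ℕ} (hS : 0 < S) (hd : Down Rg) (hL : L = S * R)
    (hK : K = w * L) (h0 : Lv w S R 0 a Rg F0 B0) (h1 : Lv w S R 1 a Rg F1 B1) (h2 : Lv w S R 2 a Rg F2 B2) (h3 : Lv w S R 3 a Rg F3 B3) (h4 : Lv w S R 4 a Rg F4 B4) (h5 : Lv w S R 5 a Rg F5 B5)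
    (hB : (a + 5).choose a * (B0 + B1 + B2 + B3 + B4 + B5) ≤ 6 * B' + 5) (hv : B' < 2 ^ v)
    (hw : 6 * 2 ^ (v + 1) ≤ 2 ^ w)
    (hF : ∀ x y z, F6 x y z = dvz w L 6 v (Nat.add (pie w S K a F5 x y z) (Nat.add (Nat.add (Nat.add (Nat.add (ctr w S K 2 a F4 x y z) (ctr w S K 3 a F3 x y z)) (ctr w S K 4 a F2 x y z)) (ctr w S K 5 a F1 x y z)) (ctr w S K 6 a F0 x y z)))) :
    Lv w S R 6 a Rg F6 B' := by
  subst hL hK
  have hb : BF S (S * R) 6 a Rg B' := by
    refine aprioriF hS hd (by decide) (fun j => if j = 0 then B0 else if j = 1 then B1 else if j = 2 then B2 else if j = 3 then B3 else if j = 4 then B4 else B5) ?_ ?_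
    · intro j hj
      interval_cases j
      · exact h0.bf
      · exact h1.bf
      · exact h2.bf
      · exact h3.bf
      · exact h4.bf
      · exact h5.bf
    · simpa [Finset.sum_range_succ] using hB
  refine ⟨levelF hS hd (by decide) (fun j => if j = 0 then F0 else if j = 1 then F1 else if j = 2 then F2 else if j = 3 then F3 else if j = 4 then F4 else F5) ?_ ?_ hb hv hw ?_, hb, fun x y z => ?_⟩
  · intro j hj
    interval_cases j
    · exact h0.son
    · exact h1.son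
    · exact h2.son
    · exact h3.son
    · exact h4.son
    · exact h5.son
  · intro x y z
    exact h5.le x y z
  · intro x y z _ _ _
    rw [hF, dvz_eq]
    congr 1 <;> simp [Finset.sum_range_succ]
  · rw [hF]
    exact dvz_le w (S * R) 6 v _

theorem flev7 {F0 F1 F2 F3 F4 F5 F6 F7 : Tb} {B0 B1 B2 B3 B4 B5 B6 : ℕ} (hS : 0 < S) (hd : Down Rg) (hL : L = S * R)
    (hK : K = w * L) (h0 : Lv w S R 0 a Rg F0 B0) (h1 : Lv w S R 1 a Rg F1 B1) (h2 : Lv w S R 2 a Rg F2 B2) (h3 : Lv w S R 3 a Rg F3 B3) (h4 : Lv w S R 4 a Rg F4 B4) (h5 : Lv w S R 5 a Rg F5 B5) (h6 : Lv w S R 6 a Rg F6 B6)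
    (hB : (a + 5).choose a * (B0 + B1 + B2 + B3 + B4 + B5 + B6) ≤ 7 * B' + 6) (hv : B' < 2 ^ v)
    (hw : 7 * 2 ^ (v + 1) ≤ 2 ^ w)
    (hF : ∀ x y z, F7 x y z = dvz w L 7 v (Nat.add (pie w S K a F6 x y z) (Nat.add (Nat.add (Nat.add (Nat.add (Nat.add (ctr w S K 2 a F5 x y z) (ctr w S K 3 a F4 x y z)) (ctr w S K 4 a F3 x y z)) (ctr w S K 5 a F2 x y z)) (ctr w S K 6 a F1 x y z)) (ctr w S K 7 a F0 x y z)))) :
    Lv w S R 7 a Rg F7 B' := by
  subst hL hK
  have hb : BF S (S * R) 7 a Rg B' := by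
    refine aprioriF hS hd (by decide) (fun j => if j = 0 then B0 else if j = 1 then B1 else if j = 2 then B2 else if j = 3 then B3 else if j = 4 then B4 else if j = 5 then B5 else B6) ?_ ?_
    · intro j hj
      interval_cases j
      · exact h0.bf
      · exact h1.bf
      · exact h2.bf
      · exact h3.bf
      · exact h4.bf
      · exact h5.bf
      · exact h6.bf
    · simpa [Finset.sum_range_succ] using hB
  refine ⟨levelF hS hd (by decide) (fun j => if j = 0 then F0 else if j = 1 then F1 else if j = 2 then F2 else if j = 3 then F3 else if j = 4 then F4 else if j = 5 then F5 else F6) ?_ ?_ hb hv hw ?_, hb, fun x y z => ?_⟩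
  · intro j hj
    interval_cases j
    · exact h0.son
    · exact h1.son
    · exact h2.son
    · exact h3.son
    · exact h4.son
    · exact h5.son
    · exact h6.son
  · intro x y z
    exact h6.le x y z
  · intro x y z _ _ _
    rw [hF, dvz_eq]
    congr 1 <;> simp [Finset.sum_range_succ]
  · rw [hF]
    exact dvz_le w (S * R) 7 v _

theorem flev8 {F0 F1 F2 F3 F4 F5 F6 F7 F8 : Tb} {B0 B1 B2 B3 B4 B5 B6 B7 : ℕ} (hS : 0 < S) (hd : Down Rg) (hL : L = S * R)
    (hK : K = w * L) (h0 : Lv w S R 0 a Rg F0 B0) (h1 : Lv w S R 1 a Rg F1 B1) (h2 : Lv w S R 2 a Rg F2 B2) (h3 : Lv w S R 3 a Rg F3 B3) (h4 : Lv w S R 4 a Rg F4 B4) (h5 : Lv w S R 5 a Rg F5 B5) (h6 : Lv w S R 6 a Rg F6 B6) (h7 : Lv w S R 7 a Rg F7 B7)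
    (hB : (a + 5).choose a * (B0 + B1 + B2 + B3 + B4 + B5 + B6 + B7) ≤ 8 * B' + 7) (hv : B' < 2 ^ v)
    (hw : 8 * 2 ^ (v + 1) ≤ 2 ^ w)
    (hF : ∀ x y z, F8 x y z = dvz w L 8 v (Nat.add (pie w S K a F7 x y z) (Nat.add (Nat.add (Nat.add (Nat.add (Nat.add (Nat.add (ctr w S K 2 a F6 x y z) (ctr w S K 3 a F5 x y z)) (ctr w S K 4 a F4 x y z)) (ctr w S K 5 a F3 x y z)) (ctr w S K 6 a F2 x y z)) (ctr w S K 7 a F1 x y z)) (ctr w S K 8 a F0 x y z)))) :
    Lv w S R 8 a Rg F8 B' := by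
  subst hL hK
  have hb : BF S (S * R) 8 a Rg B' := by
    refine aprioriF hS hd (by decide) (fun j => if j = 0 then B0 else if j = 1 then B1 else if j = 2 then B2 else if j = 3 then B3 else if j = 4 then B4 else if j = 5 then B5 else if j = 6 then B6 else B7) ?_ ?_
    · intro j hj
      interval_cases j
      · exact h0.bf
      · exact h1.bf
      · exact h2.bf
      · exact h3.bf
      · exact h4.bf
      · exact h5.bf
      · exact h6.bf
      · exact h7.bf
    · simpa [Finset.sum_range_succ] using hB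
  refine ⟨levelF hS hd (by decide) (fun j => if j = 0 then F0 else if j = 1 then F1 else if j = 2 then F2 else if j = 3 then F3 else if j = 4 then F4 else if j = 5 then F5 else if j = 6 then F6 else F7) ?_ ?_ hb hv hw ?_, hb, fun x y z => ?_⟩
  · intro j hj
    interval_cases j
    · exact h0.son
    · exact h1.son
    · exact h2.son
    · exact h3.son
    · exact h4.son
    · exact h5.son
    · exact h6.son
    · exact h7.son
  · intro x y z
    exact h7.le x y z
  · intro x y z _ _ _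
    rw [hF, dvz_eq]
    congr 1 <;> simp [Finset.sum_range_succ]
  · rw [hF]
    exact dvz_le w (S * R) 8 v _

theorem flev9 {F0 F1 F2 F3 F4 F5 F6 F7 F8 F9 : Tb} {B0 B1 B2 B3 B4 B5 B6 B7 B8 : ℕ} (hS : 0 < S) (hd : Down Rg) (hL : L = S * R)
    (hK : K = w * L) (h0 : Lv w S R 0 a Rg F0 B0) (h1 : Lv w S R 1 a Rg F1 B1) (h2 : Lv w S R 2 a Rg F2 B2) (h3 : Lv w S R 3 a Rg F3 B3) (h4 : Lv w S R 4 a Rg F4 B4) (h5 : Lv w S R 5 a Rg F5 B5) (h6 : Lv w S R 6 a Rg F6 B6) (h7 : Lv w S R 7 a Rg F7 B7) (h8 : Lv w S R 8 a Rg F8 B8)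
    (hB : (a + 5).choose a * (B0 + B1 + B2 + B3 + B4 + B5 + B6 + B7 + B8) ≤ 9 * B' + 8) (hv : B' < 2 ^ v)
    (hw : 9 * 2 ^ (v + 1) ≤ 2 ^ w)
    (hF : ∀ x y z, F9 x y z = dvz w L 9 v (Nat.add (pie w S K a F8 x y z) (Nat.add (Nat.add (Nat.add (Nat.add (Nat.add (Nat.add (Nat.add (ctr w S K 2 a F7 x y z) (ctr w S K 3 a F6 x y z)) (ctr w S K 4 a F5 x y z)) (ctr w S K 5 a F4 x y z)) (ctr w S K 6 a F3 x y z)) (ctr w S K 7 a F2 x y z)) (ctr w S K 8 a F1 x y z)) (ctr w S K 9 a F0 x y z)))) :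
    Lv w S R 9 a Rg F9 B' := by
  subst hL hK
  have hb : BF S (S * R) 9 a Rg B' := by
    refine aprioriF hS hd (by decide) (fun j => if j = 0 then B0 else if j = 1 then B1 else if j = 2 then B2 else if j = 3 then B3 else if j = 4 then B4 else if j = 5 then B5 else if j = 6 then B6 else if j = 7 then B7 else B8) ?_ ?_
    · intro j hj
      interval_cases j
      · exact h0.bf
      · exact h1.bf
      · exact h2.bf
      · exact h3.bf
      · exact h4.bf
      · exact h5.bf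
      · exact h6.bf
      · exact h7.bf
      · exact h8.bf
    · simpa [Finset.sum_range_succ] using hB
  refine ⟨levelF hS hd (by decide) (fun j => if j = 0 then F0 else if j = 1 then F1 else if j = 2 then F2 else if j = 3 then F3 else if j = 4 then F4 else if j = 5 then F5 else if j = 6 then F6 else if j = 7 then F7 else F8) ?_ ?_ hb hv hw ?_, hb, fun x y z => ?_⟩
  · intro j hj
    interval_cases j
    · exact h0.son
    · exact h1.son
    · exact h2.son
    · exact h3.son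
    · exact h4.son
    · exact h5.son
    · exact h6.son
    · exact h7.son
    · exact h8.son
  · intro x y z
    exact h8.le x y z
  · intro x y z _ _ _
    rw [hF, dvz_eq]
    congr 1 <;> simp [Finset.sum_range_succ]
  · rw [hF]
    exact dvz_le w (S * R) 9 v _

theorem flev10 {F0 F1 F2 F3 F4 F5 F6 F7 F8 F9 F10 : Tb} {B0 B1 B2 B3 B4 B5 B6 B7 B8 B9 : ℕ} (hS : 0 < S) (hd : Down Rg) (hL : L = S * R)
    (hK : K = w * L) (h0 : Lv w S R 0 a Rg F0 B0) (h1 : Lv w S R 1 a Rg F1 B1) (h2 : Lv w S R 2 a Rg F2 B2) (h3 : Lv w S R 3 a Rg F3 B3) (h4 : Lv w S R 4 a Rg F4 B4) (h5 : Lv w S R 5 a Rg F5 B5) (h6 : Lv w S R 6 a Rg F6 B6) (h7 : Lv w S R 7 a Rg F7 B7) (h8 : Lv w S R 8 a Rg F8 B8) (h9 : Lv w S R 9 a Rg F9 B9)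
    (hB : (a + 5).choose a * (B0 + B1 + B2 + B3 + B4 + B5 + B6 + B7 + B8 + B9) ≤ 10 * B' + 9) (hv : B' < 2 ^ v)
    (hw : 10 * 2 ^ (v + 1) ≤ 2 ^ w)
    (hF : ∀ x y z, F10 x y z = dvz w L 10 v (Nat.add (pie w S K a F9 x y z) (Nat.add (Nat.add (Nat.add (Nat.add (Nat.add (Nat.add (Nat.add (Nat.add (ctr w S K 2 a F8 x y z) (ctr w S K 3 a F7 x y z)) (ctr w S K 4 a F6 x y z)) (ctr w S K 5 a F5 x y z)) (ctr w S K 6 a F4 x y z)) (ctr w S K 7 a F3 x y z)) (ctr w S K 8 a F2 x y z)) (ctr w S K 9 a F1 x y z)) (ctr w S K 10 a F0 x y z)))) :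
    Lv w S R 10 a Rg F10 B' := by
  subst hL hK
  have hb : BF S (S * R) 10 a Rg B' := by
    refine aprioriF hS hd (by decide) (fun j => if j = 0 then B0 else if j = 1 then B1 else if j = 2 then B2 else if j = 3 then B3 else if j = 4 then B4 else if j = 5 then B5 else if j = 6 then B6 else if j = 7 then B7 else if j = 8 then B8 else B9) ?_ ?_
    · intro j hj
      interval_cases j
      · exact h0.bf
      · exact h1.bf
      · exact h2.bf
      · exact h3.bf
      · exact h4.bf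
      · exact h5.bf
      · exact h6.bf
      · exact h7.bf
      · exact h8.bf
      · exact h9.bf
    · simpa [Finset.sum_range_succ] using hB
  refine ⟨levelF hS hd (by decide) (fun j => if j = 0 then F0 else if j = 1 then F1 else if j = 2 then F2 else if j = 3 then F3 else if j = 4 then F4 else if j = 5 then F5 else if j = 6 then F6 else if j = 7 then F7 else if j = 8 then F8 else F9) ?_ ?_ hb hv hw ?_, hb, fun x y z => ?_⟩
  · intro j hj
    interval_cases j
    · exact h0.son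
    · exact h1.son
    · exact h2.son
    · exact h3.son
    · exact h4.son
    · exact h5.son
    · exact h6.son
    · exact h7.son
    · exact h8.son
    · exact h9.son
  · intro x y z
    exact h9.le x y z
  · intro x y z _ _ _
    rw [hF, dvz_eq]
    congr 1 <;> simp [Finset.sum_range_succ]
  · rw [hF]
    exact dvz_le w (S * R) 10 v _

theorem flev11 {F0 F1 F2 F3 F4 F5 F6 F7 F8 F9 F10 F11 : Tb} {B0 B1 B2 B3 B4 B5 B6 B7 B8 B9 B10 : ℕ} (hS : 0 < S) (hd : Down Rg) (hL : L = S * R)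
    (hK : K = w * L) (h0 : Lv w S R 0 a Rg F0 B0) (h1 : Lv w S R 1 a Rg F1 B1) (h2 : Lv w S R 2 a Rg F2 B2) (h3 : Lv w S R 3 a Rg F3 B3) (h4 : Lv w S R 4 a Rg F4 B4) (h5 : Lv w S R 5 a Rg F5 B5) (h6 : Lv w S R 6 a Rg F6 B6) (h7 : Lv w S R 7 a Rg F7 B7) (h8 : Lv w S R 8 a Rg F8 B8) (h9 : Lv w S R 9 a Rg F9 B9) (h10 : Lv w S R 10 a Rg F10 B10)
    (hB : (a + 5).choose a * (B0 + B1 + B2 + B3 + B4 + B5 + B6 + B7 + B8 + B9 + B10) ≤ 11 * B' + 10) (hv : B' < 2 ^ v)
    (hw : 11 * 2 ^ (v + 1) ≤ 2 ^ w)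
    (hF : ∀ x y z, F11 x y z = dvz w L 11 v (Nat.add (pie w S K a F10 x y z) (Nat.add (Nat.add (Nat.add (Nat.add (Nat.add (Nat.add (Nat.add (Nat.add (Nat.add (ctr w S K 2 a F9 x y z) (ctr w S K 3 a F8 x y z)) (ctr w S K 4 a F7 x y z)) (ctr w S K 5 a F6 x y z)) (ctr w S K 6 a F5 x y z)) (ctr w S K 7 a F4 x y z)) (ctr w S K 8 a F3 x y z)) (ctr w S K 9 a F2 x y z)) (ctr w S K 10 a F1 x y z)) (ctr w S K 11 a F0 x y z)))) :
    Lv w S R 11 a Rg F11 B' := by
  subst hL hK
  have hb : BF S (S * R) 11 a Rg B' := by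
    refine aprioriF hS hd (by decide) (fun j => if j = 0 then B0 else if j = 1 then B1 else if j = 2 then B2 else if j = 3 then B3 else if j = 4 then B4 else if j = 5 then B5 else if j = 6 then B6 else if j = 7 then B7 else if j = 8 then B8 else if j = 9 then B9 else B10) ?_ ?_
    · intro j hj
      interval_cases j
      · exact h0.bf
      · exact h1.bf
      · exact h2.bf
      · exact h3.bf
      · exact h4.bf
      · exact h5.bf
      · exact h6.bf
      · exact h7.bf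
      · exact h8.bf
      · exact h9.bf
      · exact h10.bf
    · simpa [Finset.sum_range_succ] using hB
  refine ⟨levelF hS hd (by decide) (fun j => if j = 0 then F0 else if j = 1 then F1 else if j = 2 then F2 else if j = 3 then F3 else if j = 4 then F4 else if j = 5 then F5 else if j = 6 then F6 else if j = 7 then F7 else if j = 8 then F8 else if j = 9 then F9 else F10) ?_ ?_ hb hv hw ?_, hb, fun x y z => ?_⟩
  · intro j hj
    interval_cases j
    · exact h0.son
    · exact h1.son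
    · exact h2.son
    · exact h3.son
    · exact h4.son
    · exact h5.son
    · exact h6.son
    · exact h7.son
    · exact h8.son
    · exact h9.son
    · exact h10.son
  · intro x y z
    exact h10.le x y z
  · intro x y z _ _ _
    rw [hF, dvz_eq]
    congr 1 <;> simp [Finset.sum_range_succ]
  · rw [hF]
    exact dvz_le w (S * R) 11 v _

theorem flev12 {F0 F1 F2 F3 F4 F5 F6 F7 F8 F9 F10 F11 F12 : Tb} {B0 B1 B2 B3 B4 B5 B6 B7 B8 B9 B10 B11 : ℕ} (hS : 0 < S) (hd : Down Rg) (hL : L = S * R)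
    (hK : K = w * L) (h0 : Lv w S R 0 a Rg F0 B0) (h1 : Lv w S R 1 a Rg F1 B1) (h2 : Lv w S R 2 a Rg F2 B2) (h3 : Lv w S R 3 a Rg F3 B3) (h4 : Lv w S R 4 a Rg F4 B4) (h5 : Lv w S R 5 a Rg F5 B5) (h6 : Lv w S R 6 a Rg F6 B6) (h7 : Lv w S R 7 a Rg F7 B7) (h8 : Lv w S R 8 a Rg F8 B8) (h9 : Lv w S R 9 a Rg F9 B9) (h10 : Lv w S R 10 a Rg F10 B10) (h11 : Lv w S R 11 a Rg F11 B11)
    (hB : (a + 5).choose a * (B0 + B1 + B2 + B3 + B4 + B5 + B6 + B7 + B8 + B9 + B10 + B11) ≤ 12 * B' + 11) (hv : B' < 2 ^ v)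
    (hw : 12 * 2 ^ (v + 1) ≤ 2 ^ w)
    (hF : ∀ x y z, F12 x y z = dvz w L 12 v (Nat.add (pie w S K a F11 x y z) (Nat.add (Nat.add (Nat.add (Nat.add (Nat.add (Nat.add (Nat.add (Nat.add (Nat.add (Nat.add (ctr w S K 2 a F10 x y z) (ctr w S K 3 a F9 x y z)) (ctr w S K 4 a F8 x y z)) (ctr w S K 5 a F7 x y z)) (ctr w S K 6 a F6 x y z)) (ctr w S K 7 a F5 x y z)) (ctr w S K 8 a F4 x y z)) (ctr w S K 9 a F3 x y z)) (ctr w S K 10 a F2 x y z)) (ctr w S K 11 a F1 x y z)) (ctr w S K 12 a F0 x y z)))) :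
    Lv w S R 12 a Rg F12 B' := by
  subst hL hK
  have hb : BF S (S * R) 12 a Rg B' := by
    refine aprioriF hS hd (by decide) (fun j => if j = 0 then B0 else if j = 1 then B1 else if j = 2 then B2 else if j = 3 then B3 else if j = 4 then B4 else if j = 5 then B5 else if j = 6 then B6 else if j = 7 then B7 else if j = 8 then B8 else if j = 9 then B9 else if j = 10 then B10 else B11) ?_ ?_
    · intro j hj
      interval_cases j
      · exact h0.bf
      · exact h1.bf
      · exact h2.bf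
      · exact h3.bf
      · exact h4.bf
      · exact h5.bf
      · exact h6.bf
      · exact h7.bf
      · exact h8.bf
      · exact h9.bf
      · exact h10.bf
      · exact h11.bf
    · simpa [Finset.sum_range_succ] using hB
  refine ⟨levelF hS hd (by decide) (fun j => if j = 0 then F0 else if j = 1 then F1 else if j = 2 then F2 else if j = 3 then F3 else if j = 4 then F4 else if j = 5 then F5 else if j = 6 then F6 else if j = 7 then F7 else if j = 8 then F8 else if j = 9 then F9 else if j = 10 then F10 else F11) ?_ ?_ hb hv hw ?_, hb, fun x y z => ?_⟩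
  · intro j hj
    interval_cases j
    · exact h0.son
    · exact h1.son
    · exact h2.son
    · exact h3.son
    · exact h4.son
    · exact h5.son
    · exact h6.son
    · exact h7.son
    · exact h8.son
    · exact h9.son
    · exact h10.son
    · exact h11.son
  · intro x y z
    exact h11.le x y z
  · intro x y z _ _ _
    rw [hF, dvz_eq]
    congr 1 <;> simp [Finset.sum_range_succ]
  · rw [hF]
    exact dvz_le w (S * R) 12 v _

end Vale.Agent.P181.H788.FL
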