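import Vale.Agent.P181.H788.Prog

/-!
# P181, `a = 6`: the comparison in the rows with `z < Z1`
-/

set_option autoImplicit false

noncomputable section

namespace Vale.Agent.P181.H788

/-- `f F A - f G B ≥ 0` in all digits of the rows with `z < Z1` -/
def chkZ (w S R D f g : Nat) (A B : Tb) (X1 Z1 : Nat) : Bool :=
  allB (fun x => allB (fun y => allB (fun z =>
    fb x fun x => fb y fun y => fb z fun z =>
      chkRow w S R (Nat.mod (Nat.add (Nat.add (Nat.mul f (A x y z))
        (Nat.mul g (Nat.sub (Nat.pow 2 (Nat.mul w (Nat.mul S R))) (B x y z))))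
        (off w (Nat.mul S R))) (Nat.pow 2 (Nat.mul w (Nat.mul S R))))
        (Nat.sub D (Nat.add (Nat.add x y) z)) x) (mn y Z1)) x) X1

end Vale.Agent.P181.H788
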