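import Vale.Agent.P181.H51.Chk
import Vale.Agent.P181.H177.Row0
import Vale.Agent.P181.H177.Weyl
import Vale.Agent.P181.H788.ProgZ

set_option autoImplicit false

/-!
# P181, `a = 6`: from sound tables to the multiplicities
-/

namespace Vale.Agent.P181.H788

open Finset MvPolynomial Vale.Agent.P181 Vale.Agent.P181.H280 Vale.Agent.P181.H605
open Vale.Agent.P181.H51
open Vale.Agent.P181.H530.Torus

/-- **Soundness of `chkZ`.** -/
theorem chkZ_sound {w S R D f g X1 Z1 : ℕ} {A B : Tb}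
    (hchk : chkZ w S R D f g A B X1 Z1 = true)
    (hw : 1 ≤ w) (hD : D < S) (cA cB : ℕ → ℕ → ℕ → ℕ → ℕ → ℤ)
    (hA : ∀ x y z, z < y → y < x → x < X1 → RowMod w S R (A x y z) (cA x y z))
    (hB : ∀ x y z, z < y → y < x → x < X1 → RowMod w S R (B x y z) (cB x y z))
    (hB' : ∀ x y z, z < y → y < x → x < X1 → B x y z ≤ 2 ^ (w * (S * R)))
    (hbd : ∀ x y z, z < y → y < x → x < X1 → ∀ e2 < S, ∀ e3 < R,
      |(f : ℤ) * cA x y z e2 e3 - (g : ℤ) * cB x y z e2 e3| < 2 ^ (w - 1))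
    {e1 e2 e3 x y z : ℕ} (h12 : e2 < e1) (h23 : e3 < e2) (h3x : x < e3) (hxy : y < x)
    (hyz : z < y) (hsum : e1 + e2 + e3 + x + y + z = D) (hx : x < X1) (hz : z < Z1)
    (h3 : e3 < R) :
    0 ≤ (f : ℤ) * cA x y z e2 e3 - (g : ℤ) * cB x y z e2 e3 := by
  unfold chkZ at hchk
  rw [allB_iff] at hchk
  have h4 := hchk x hx
  rw [allB_iff] at h4
  have h5 := h4 y hxy
  rw [H605.mn_eq, allB_iff] at h5
  have h6 := h5 z (lt_min hyz hz)
  rw [fb_eq, fb_eq, fb_eq] at h6
  have h7 := chkRow_sound h6 h12 h23 h3x (by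
    change e1 + e2 + e3 = D - (x + y + z)
    omega) h3
  set c : ℕ → ℕ → ℤ := fun e2 e3 => (f : ℤ) * cA x y z e2 e3 - (g : ℤ) * cB x y z e2 e3 with hc
  have hrow : RowMod w S R (f * A x y z + g * (2 ^ (w * (S * R)) - B x y z)) c := by
    refine ⟨R, le_rfl, ?_⟩
    rw [sum_rows]
    have hA1 := row_trunc (hA x y z hyz hxy hx)
    have hB1 := row_trunc (hB x y z hyz hxy hx)
    have h8 : ev (2 ^ w) (S * R) (flat S c) =
        (f : ℤ) * ev (2 ^ w) (S * R) (flat S (cA x y z)) -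
          (g : ℤ) * ev (2 ^ w) (S * R) (flat S (cB x y z)) := by
      rw [← ev_smul, ← ev_smul, ← ev_sub]
      rfl
    rw [h8]
    push_cast [Nat.cast_sub (hB' x y z hyz hxy hx)]
    have h9 : (f : ℤ) * (A x y z) + g * (2 ^ (w * (S * R)) - (B x y z : ℤ)) =
        ((f : ℤ) * (A x y z) - g * (B x y z)) + 2 ^ (w * (S * R)) * g := by ring
    rw [h9]
    have h10 : ((f : ℤ) * (A x y z) - g * (B x y z)) ≡
        (f : ℤ) * ev (2 ^ w) (S * R) (flat S (cA x y z)) -
          (g : ℤ) * ev (2 ^ w) (S * R) (flat S (cB x y z)) [ZMOD 2 ^ (w * (S * R))] :=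
      Int.ModEq.sub (Int.ModEq.mul_left _ hA1) (Int.ModEq.mul_left _ hB1)
    refine Int.ModEq.trans ?_ h10
    exact Int.modEq_add_fac_self ..
  have h11 := sign_bit (by omega) hrow (fun a ha b hb => by
    have h12 := abs_lt.1 (hbd x y z hyz hxy hx a ha b hb)
    exact ⟨h12.1.le, h12.2⟩) (e2 := e2) (e3 := e3) (by omega) h3
  exact h11.1 h7

theorem weyl_all (n N a : ℕ) : Weyl n N a := fun lam hl =>
  Vale.Agent.P181.H177.plethMult_weyl n N a lam hl

/-- the coefficient attached to a digit of a row -/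
noncomputable def cf (N a x y z e2 e3 : ℕ) : ℤ :=
  if x + y + z + e2 + e3 ≤ 15 + N * a then
    coeff (fs ![15 + N * a - (x + y + z + e2 + e3), e2, e3, x, y, z]) (Fgen 6 N a) else 0

theorem G_eq {w S N a : ℕ} (hS : 15 + N * a < S) (x y z : ℕ) : G w S N a x y z =
    ∑ e3 ∈ range S, ∑ e2 ∈ range S, cf N a x y z e2 e3 * 2 ^ (w * (e2 + S * e3)) :=
  row_eq_sum w S (D := 15 + N * a) (Fgen_homog 6 N a) S hS x y z

/-- The rows of a sound table. -/
theorem rowMod {w S R K N a : ℕ} {F : Tb} (h : Sound w S K N a F) (hK : K = w * (S * R))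
    (hS : 15 + N * a < S) (hR : R ≤ S) {x y z : ℕ} (hzy : z < y) (hyx : y < x) :
    RowMod w S R (F x y z) (fun e2 e3 => (N.factorial : ℤ) * cf N a x y z e2 e3) := by
  subst hK
  refine ⟨S, hR, ?_⟩
  have h1 := h x y z hzy hyx
  rw [h1]
  refine (Int.mod_modEq _ _).trans ?_
  rw [H, G_eq hS, Finset.mul_sum]
  have h2 : ∑ i ∈ range S, (N.factorial : ℤ) * ∑ e2 ∈ range S, cf N a x y z e2 i *
      2 ^ (w * (e2 + S * i)) = ∑ e3 ∈ range S, ∑ e2 ∈ range S,
      (N.factorial : ℤ) * cf N a x y z e2 e3 * 2 ^ (w * (e2 + S * e3)) := by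
    refine Finset.sum_congr rfl fun i _ => ?_
    rw [Finset.mul_sum]
    refine Finset.sum_congr rfl fun j _ => ?_
    ring
  rw [h2]

theorem sound_le {w S K N a : ℕ} {F : Tb} (h : Sound w S K N a F) {x y z : ℕ} (hzy : z < y)
    (hyx : y < x) : F x y z ≤ 2 ^ K := (h.tab x y z hzy hyx).2

theorem abs_cf_le (N a x y z e2 e3 : ℕ) :
    |cf N a x y z e2 e3| ≤ ((((6 + a - 1).choose a) + N - 1).choose N : ℕ) := by
  unfold cf
  split_ifs
  · rw [Int.abs_eq_natAbs]
    exact_mod_cast natAbs_coeff_Fgen_le (weyl_all 6 N a) _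
  · rw [abs_zero]
    exact Int.natCast_nonneg _

theorem cf_eq (N a : ℕ) (lam : Fin 6 → ℕ) (hl : Antitone lam) (hsum : ∑ i, lam i = N * a) :
    cf N a (lam 3 + 2) (lam 4 + 1) (lam 5) (lam 1 + 4) (lam 2 + 3) =
      (plethMult N a 6 lam : ℤ) := by
  rw [Fin.sum_univ_six] at hsum
  unfold cf
  rw [if_pos (by omega), ← coeff_Fgen_of_weyl (weyl_all 6 N a) lam hl]
  congr 2
  funext i
  fin_cases i
  · change 15 + N * a - (lam 3 + 2 + (lam 4 + 1) + lam 5 + (lam 1 + 4) + (lam 2 + 3)) = lam 0 + 5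
    omega
  all_goals rfl

/-- **The comparison.** -/
theorem cmp {b w S R K D f g X1 Z1 : ℕ} {A B : Tb} (hA : Sound w S K b 6 A)
    (hB : Sound w S K 6 b B) (hchk : chkZ w S R D f g A B X1 Z1 = true)
    (hw : 1 ≤ w) (hD : D = 6 * b + 15) (hK : K = w * (S * R)) (hS : D < S) (hR : R ≤ S)
    (hR' : 2 * b + 4 ≤ R) (hX : 6 * b < 4 * (X1 - 2)) (hf : 0 < f)
    (hfg : f * b.factorial = g * 720)
    (hbd : f * b.factorial * (((461 + b).choose b) + (((5 + b).choose b) + 5).choose 6) <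
      2 ^ (w - 1))
    (lam : Fin 6 → ℕ) (hlam : Antitone lam) (hsum : ∑ i, lam i = 6 * b) (hz : lam 5 < Z1) :
    plethMult 6 b 6 lam ≤ plethMult b 6 6 lam := by
  have hsum' := hsum
  rw [Fin.sum_univ_six] at hsum'
  have h01 : lam 1 ≤ lam 0 := hlam (by decide)
  have h12 : lam 2 ≤ lam 1 := hlam (by decide)
  have h23 : lam 3 ≤ lam 2 := hlam (by decide)
  have h34 : lam 4 ≤ lam 3 := hlam (by decide)
  have h45 : lam 5 ≤ lam 4 := hlam (by decide)
  have hbdZ : ((f : ℤ) * b.factorial) * ((((461 + b).choose b : ℕ) : ℤ) +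
      (((((5 + b).choose b) + 5).choose 6 : ℕ) : ℤ)) < 2 ^ (w - 1) := by exact_mod_cast hbd
  have key := chkZ_sound hchk hw hS
    (fun x y z e2 e3 => (b.factorial : ℤ) * cf b 6 x y z e2 e3)
    (fun x y z e2 e3 => (Nat.factorial 6 : ℤ) * cf 6 b x y z e2 e3)
    (fun x y z h1 h2 _ => rowMod hA hK (by omega) hR h1 h2)
    (fun x y z h1 h2 _ => rowMod hB hK (by omega) hR h1 h2)
    (fun x y z h1 h2 _ => by
      rw [← hK]
      exact sound_le hB h1 h2)
    (fun x y z h1 h2 _ e2 _ e3 _ => by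
      have e1 := abs_cf_le b 6 x y z e2 e3
      have e4 := abs_cf_le 6 b x y z e2 e3
      have e5 : (6 + 6 - 1).choose 6 + b - 1 = 461 + b := by
        have : (6 + 6 - 1).choose 6 = 462 := by decide
        rw [this]
        omega
      have e6 : (6 + b - 1).choose b + 6 - 1 = (5 + b).choose b + 5 := by
        have : 6 + b - 1 = 5 + b := by omega
        rw [this]
        omega
      rw [e5] at e1
      rw [e6] at e4
      have e7 : (f : ℤ) * ((b.factorial : ℤ) * cf b 6 x y z e2 e3) -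
          (g : ℤ) * ((Nat.factorial 6 : ℤ) * cf 6 b x y z e2 e3) =
          ((f : ℤ) * b.factorial) * (cf b 6 x y z e2 e3 - cf 6 b x y z e2 e3) := by
        have e8 : (g : ℤ) * (Nat.factorial 6 : ℤ) = (f : ℤ) * b.factorial := by
          have : Nat.factorial 6 = 720 := rfl
          rw [this]
          exact_mod_cast hfg.symm
        linear_combination (-(cf 6 b x y z e2 e3)) * e8
      rw [e7, abs_mul, abs_of_nonneg (by positivity : (0 : ℤ) ≤ (f : ℤ) * b.factorial)]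
      refine lt_of_le_of_lt ?_ hbdZ
      refine mul_le_mul_of_nonneg_left ?_ (by positivity)
      exact (abs_sub _ _).trans (add_le_add e1 e4))
    (e1 := lam 0 + 5) (e2 := lam 1 + 4) (e3 := lam 2 + 3) (x := lam 3 + 2) (y := lam 4 + 1)
    (z := lam 5) (by omega) (by omega) (by omega) (by omega) (by omega) (by omega) (by omega)
    hz (by omega)
  rw [cf_eq b 6 lam hlam (by omega), cf_eq 6 b lam hlam hsum] at key
  have e8 : (g : ℤ) * (Nat.factorial 6 : ℤ) = (f : ℤ) * b.factorial := by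
    have : Nat.factorial 6 = 720 := rfl
    rw [this]
    exact_mod_cast hfg.symm
  have key2 : 0 ≤ ((f : ℤ) * b.factorial) *
      ((plethMult b 6 6 lam : ℤ) - (plethMult 6 b 6 lam : ℤ)) := by
    have e9 : ((f : ℤ) * b.factorial) *
        ((plethMult b 6 6 lam : ℤ) - (plethMult 6 b 6 lam : ℤ)) =
        (f : ℤ) * ((b.factorial : ℤ) * (plethMult b 6 6 lam : ℤ)) -
          (g : ℤ) * ((Nat.factorial 6 : ℤ) * (plethMult 6 b 6 lam : ℤ)) := by
      linear_combination (plethMult 6 b 6 lam : ℤ) * e8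
    rw [e9]
    exact key
  have hpos : (0 : ℤ) < (f : ℤ) * b.factorial := by
    have := Nat.factorial_pos b
    positivity
  have h3 := nonneg_of_mul_nonneg_right key2 hpos
  omega

end Vale.Agent.P181.H788
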