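import Vale.Agent.P181.H177.Row0

set_option autoImplicit false

/-!
# P181, `a = 6`: the levels of the kernel program, one lemma for each level
-/

namespace Vale.Agent.P181.H788

open Finset Vale.Agent.P181.H605 Vale.Agent.P181.H177

variable {w S K a : ℕ}

theorem lev1 {F0 F1 : Tb} (h0 : Sound w S K 0 a F0)
    (hF : ∀ x y z, F1 x y z = Nat.mod (pie w S K a F0 x y z)
      (Nat.pow 2 K)) : Sound w S K 1 a F1 := by
  refine sound_level' (N := 1) (by decide) (fun j => F0) ?_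
    (fun x y z => pie w S K a F0 x y z) (fun x y z h h' => pie_sound h0 h h') ?_
  · intro j hj
    interval_cases j <;> assumption
  · intro x y z _ _
    rw [hF]
    rfl

theorem lev2 {F0 F1 F2 : Tb} (h0 : Sound w S K 0 a F0) (h1 : Sound w S K 1 a F1)
    (hF : ∀ x y z, F2 x y z = Nat.mod (Nat.add (pie w S K a F1 x y z) (ctr w S K 2 a F0 x y z))
      (Nat.pow 2 K)) : Sound w S K 2 a F2 := by
  refine sound_level' (N := 2) (by decide) (fun j => if j = 0 then F0 else F1) ?_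
    (fun x y z => pie w S K a F1 x y z) (fun x y z h h' => pie_sound h1 h h') ?_
  · intro j hj
    interval_cases j <;> assumption
  · intro x y z _ _
    rw [hF]
    change (pie w S K a F1 x y z + ctr w S K 2 a F0 x y z) % 2 ^ K = _
    congr 1
    simp [Finset.sum_range_succ, Nat.descFactorial]

theorem lev3 {F0 F1 F2 F3 : Tb} (h0 : Sound w S K 0 a F0) (h1 : Sound w S K 1 a F1) (h2 : Sound w S K 2 a F2)
    (hF : ∀ x y z, F3 x y z = Nat.mod (Nat.add (Nat.add (pie w S K a F2 x y z) (Nat.mul 2 (ctr w S K 2 a F1 x y z))) (Nat.mul 2 (ctr w S K 3 a F0 x y z)))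
      (Nat.pow 2 K)) : Sound w S K 3 a F3 := by
  refine sound_level' (N := 3) (by decide) (fun j => if j = 0 then F0 else if j = 1 then F1 else F2) ?_
    (fun x y z => pie w S K a F2 x y z) (fun x y z h h' => pie_sound h2 h h') ?_
  · intro j hj
    interval_cases j <;> assumption
  · intro x y z _ _
    rw [hF]
    change (pie w S K a F2 x y z + 2 * ctr w S K 2 a F1 x y z + 2 * ctr w S K 3 a F0 x y z) % 2 ^ K = _
    congr 1
    simp [Finset.sum_range_succ, Nat.descFactorial]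
    ring

theorem lev4 {F0 F1 F2 F3 F4 : Tb} (h0 : Sound w S K 0 a F0) (h1 : Sound w S K 1 a F1) (h2 : Sound w S K 2 a F2) (h3 : Sound w S K 3 a F3)
    (hF : ∀ x y z, F4 x y z = Nat.mod (Nat.add (Nat.add (Nat.add (pie w S K a F3 x y z) (Nat.mul 3 (ctr w S K 2 a F2 x y z))) (Nat.mul 6 (ctr w S K 3 a F1 x y z))) (Nat.mul 6 (ctr w S K 4 a F0 x y z)))
      (Nat.pow 2 K)) : Sound w S K 4 a F4 := by
  refine sound_level' (N := 4) (by decide) (fun j => if j = 0 then F0 else if j = 1 then F1 else if j = 2 then F2 else F3) ?_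
    (fun x y z => pie w S K a F3 x y z) (fun x y z h h' => pie_sound h3 h h') ?_
  · intro j hj
    interval_cases j <;> assumption
  · intro x y z _ _
    rw [hF]
    change (pie w S K a F3 x y z + 3 * ctr w S K 2 a F2 x y z + 6 * ctr w S K 3 a F1 x y z + 6 * ctr w S K 4 a F0 x y z) % 2 ^ K = _
    congr 1
    simp [Finset.sum_range_succ, Nat.descFactorial]
    ring

theorem lev5 {F0 F1 F2 F3 F4 F5 : Tb} (h0 : Sound w S K 0 a F0) (h1 : Sound w S K 1 a F1) (h2 : Sound w S K 2 a F2) (h3 : Sound w S K 3 a F3) (h4 : Sound w S K 4 a F4)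
    (hF : ∀ x y z, F5 x y z = Nat.mod (Nat.add (Nat.add (Nat.add (Nat.add (pie w S K a F4 x y z) (Nat.mul 4 (ctr w S K 2 a F3 x y z))) (Nat.mul 12 (ctr w S K 3 a F2 x y z))) (Nat.mul 24 (ctr w S K 4 a F1 x y z))) (Nat.mul 24 (ctr w S K 5 a F0 x y z)))
      (Nat.pow 2 K)) : Sound w S K 5 a F5 := by
  refine sound_level' (N := 5) (by decide) (fun j => if j = 0 then F0 else if j = 1 then F1 else if j = 2 then F2 else if j = 3 then F3 else F4) ?_
    (fun x y z => pie w S K a F4 x y z) (fun x y z h h' => pie_sound h4 h h') ?_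
  · intro j hj
    interval_cases j <;> assumption
  · intro x y z _ _
    rw [hF]
    change (pie w S K a F4 x y z + 4 * ctr w S K 2 a F3 x y z + 12 * ctr w S K 3 a F2 x y z + 24 * ctr w S K 4 a F1 x y z + 24 * ctr w S K 5 a F0 x y z) % 2 ^ K = _
    congr 1
    simp [Finset.sum_range_succ, Nat.descFactorial]
    ring

theorem lev6 {F0 F1 F2 F3 F4 F5 F6 : Tb} (h0 : Sound w S K 0 a F0) (h1 : Sound w S K 1 a F1) (h2 : Sound w S K 2 a F2) (h3 : Sound w S K 3 a F3) (h4 : Sound w S K 4 a F4) (h5 : Sound w S K 5 a F5)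
    (hF : ∀ x y z, F6 x y z = Nat.mod (Nat.add (Nat.add (Nat.add (Nat.add (Nat.add (pie w S K a F5 x y z) (Nat.mul 5 (ctr w S K 2 a F4 x y z))) (Nat.mul 20 (ctr w S K 3 a F3 x y z))) (Nat.mul 60 (ctr w S K 4 a F2 x y z))) (Nat.mul 120 (ctr w S K 5 a F1 x y z))) (Nat.mul 120 (ctr w S K 6 a F0 x y z)))
      (Nat.pow 2 K)) : Sound w S K 6 a F6 := by
  refine sound_level' (N := 6) (by decide) (fun j => if j = 0 then F0 else if j = 1 then F1 else if j = 2 then F2 else if j = 3 then F3 else if j = 4 then F4 else F5) ?_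
    (fun x y z => pie w S K a F5 x y z) (fun x y z h h' => pie_sound h5 h h') ?_
  · intro j hj
    interval_cases j <;> assumption
  · intro x y z _ _
    rw [hF]
    change (pie w S K a F5 x y z + 5 * ctr w S K 2 a F4 x y z + 20 * ctr w S K 3 a F3 x y z + 60 * ctr w S K 4 a F2 x y z + 120 * ctr w S K 5 a F1 x y z + 120 * ctr w S K 6 a F0 x y z) % 2 ^ K = _
    congr 1
    simp [Finset.sum_range_succ, Nat.descFactorial]
    ring

theorem lev7 {F0 F1 F2 F3 F4 F5 F6 F7 : Tb} (h0 : Sound w S K 0 a F0) (h1 : Sound w S K 1 a F1) (h2 : Sound w S K 2 a F2) (h3 : Sound w S K 3 a F3) (h4 : Sound w S K 4 a F4) (h5 : Sound w S K 5 a F5) (h6 : Sound w S K 6 a F6)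
    (hF : ∀ x y z, F7 x y z = Nat.mod (Nat.add (Nat.add (Nat.add (Nat.add (Nat.add (Nat.add (pie w S K a F6 x y z) (Nat.mul 6 (ctr w S K 2 a F5 x y z))) (Nat.mul 30 (ctr w S K 3 a F4 x y z))) (Nat.mul 120 (ctr w S K 4 a F3 x y z))) (Nat.mul 360 (ctr w S K 5 a F2 x y z))) (Nat.mul 720 (ctr w S K 6 a F1 x y z))) (Nat.mul 720 (ctr w S K 7 a F0 x y z)))
      (Nat.pow 2 K)) : Sound w S K 7 a F7 := by
  refine sound_level' (N := 7) (by decide) (fun j => if j = 0 then F0 else if j = 1 then F1 else if j = 2 then F2 else if j = 3 then F3 else if j = 4 then F4 else if j = 5 then F5 else F6) ?_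
    (fun x y z => pie w S K a F6 x y z) (fun x y z h h' => pie_sound h6 h h') ?_
  · intro j hj
    interval_cases j <;> assumption
  · intro x y z _ _
    rw [hF]
    change (pie w S K a F6 x y z + 6 * ctr w S K 2 a F5 x y z + 30 * ctr w S K 3 a F4 x y z + 120 * ctr w S K 4 a F3 x y z + 360 * ctr w S K 5 a F2 x y z + 720 * ctr w S K 6 a F1 x y z + 720 * ctr w S K 7 a F0 x y z) % 2 ^ K = _
    congr 1
    simp [Finset.sum_range_succ, Nat.descFactorial]
    ring

theorem lev8 {F0 F1 F2 F3 F4 F5 F6 F7 F8 : Tb} (h0 : Sound w S K 0 a F0) (h1 : Sound w S K 1 a F1) (h2 : Sound w S K 2 a F2) (h3 : Sound w S K 3 a F3) (h4 : Sound w S K 4 a F4) (h5 : Sound w S K 5 a F5) (h6 : Sound w S K 6 a F6) (h7 : Sound w S K 7 a F7)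
    (hF : ∀ x y z, F8 x y z = Nat.mod (Nat.add (Nat.add (Nat.add (Nat.add (Nat.add (Nat.add (Nat.add (pie w S K a F7 x y z) (Nat.mul 7 (ctr w S K 2 a F6 x y z))) (Nat.mul 42 (ctr w S K 3 a F5 x y z))) (Nat.mul 210 (ctr w S K 4 a F4 x y z))) (Nat.mul 840 (ctr w S K 5 a F3 x y z))) (Nat.mul 2520 (ctr w S K 6 a F2 x y z))) (Nat.mul 5040 (ctr w S K 7 a F1 x y z))) (Nat.mul 5040 (ctr w S K 8 a F0 x y z)))
      (Nat.pow 2 K)) : Sound w S K 8 a F8 := by
  refine sound_level' (N := 8) (by decide) (fun j => if j = 0 then F0 else if j = 1 then F1 else if j = 2 then F2 else if j = 3 then F3 else if j = 4 then F4 else if j = 5 then F5 else if j = 6 then F6 else F7) ?_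
    (fun x y z => pie w S K a F7 x y z) (fun x y z h h' => pie_sound h7 h h') ?_
  · intro j hj
    interval_cases j <;> assumption
  · intro x y z _ _
    rw [hF]
    change (pie w S K a F7 x y z + 7 * ctr w S K 2 a F6 x y z + 42 * ctr w S K 3 a F5 x y z + 210 * ctr w S K 4 a F4 x y z + 840 * ctr w S K 5 a F3 x y z + 2520 * ctr w S K 6 a F2 x y z + 5040 * ctr w S K 7 a F1 x y z + 5040 * ctr w S K 8 a F0 x y z) % 2 ^ K = _
    congr 1
    simp [Finset.sum_range_succ, Nat.descFactorial]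
    ring

theorem lev9 {F0 F1 F2 F3 F4 F5 F6 F7 F8 F9 : Tb} (h0 : Sound w S K 0 a F0) (h1 : Sound w S K 1 a F1) (h2 : Sound w S K 2 a F2) (h3 : Sound w S K 3 a F3) (h4 : Sound w S K 4 a F4) (h5 : Sound w S K 5 a F5) (h6 : Sound w S K 6 a F6) (h7 : Sound w S K 7 a F7) (h8 : Sound w S K 8 a F8)
    (hF : ∀ x y z, F9 x y z = Nat.mod (Nat.add (Nat.add (Nat.add (Nat.add (Nat.add (Nat.add (Nat.add (Nat.add (pie w S K a F8 x y z) (Nat.mul 8 (ctr w S K 2 a F7 x y z))) (Nat.mul 56 (ctr w S K 3 a F6 x y z))) (Nat.mul 336 (ctr w S K 4 a F5 x y z))) (Nat.mul 1680 (ctr w S K 5 a F4 x y z))) (Nat.mul 6720 (ctr w S K 6 a F3 x y z))) (Nat.mul 20160 (ctr w S K 7 a F2 x y z))) (Nat.mul 40320 (ctr w S K 8 a F1 x y z))) (Nat.mul 40320 (ctr w S K 9 a F0 x y z)))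
      (Nat.pow 2 K)) : Sound w S K 9 a F9 := by
  refine sound_level' (N := 9) (by decide) (fun j => if j = 0 then F0 else if j = 1 then F1 else if j = 2 then F2 else if j = 3 then F3 else if j = 4 then F4 else if j = 5 then F5 else if j = 6 then F6 else if j = 7 then F7 else F8) ?_
    (fun x y z => pie w S K a F8 x y z) (fun x y z h h' => pie_sound h8 h h') ?_
  · intro j hj
    interval_cases j <;> assumption
  · intro x y z _ _
    rw [hF]
    change (pie w S K a F8 x y z + 8 * ctr w S K 2 a F7 x y z + 56 * ctr w S K 3 a F6 x y z + 336 * ctr w S K 4 a F5 x y z + 1680 * ctr w S K 5 a F4 x y z + 6720 * ctr w S K 6 a F3 x y z + 20160 * ctr w S K 7 a F2 x y z + 40320 * ctr w S K 8 a F1 x y z + 40320 * ctr w S K 9 a F0 x y z) % 2 ^ K = _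
    congr 1
    simp [Finset.sum_range_succ, Nat.descFactorial]
    ring

theorem lev10 {F0 F1 F2 F3 F4 F5 F6 F7 F8 F9 F10 : Tb} (h0 : Sound w S K 0 a F0) (h1 : Sound w S K 1 a F1) (h2 : Sound w S K 2 a F2) (h3 : Sound w S K 3 a F3) (h4 : Sound w S K 4 a F4) (h5 : Sound w S K 5 a F5) (h6 : Sound w S K 6 a F6) (h7 : Sound w S K 7 a F7) (h8 : Sound w S K 8 a F8) (h9 : Sound w S K 9 a F9)
    (hF : ∀ x y z, F10 x y z = Nat.mod (Nat.add (Nat.add (Nat.add (Nat.add (Nat.add (Nat.add (Nat.add (Nat.add (Nat.add (pie w S K a F9 x y z) (Nat.mul 9 (ctr w S K 2 a F8 x y z))) (Nat.mul 72 (ctr w S K 3 a F7 x y z))) (Nat.mul 504 (ctr w S K 4 a F6 x y z))) (Nat.mul 3024 (ctr w S K 5 a F5 x y z))) (Nat.mul 15120 (ctr w S K 6 a F4 x y z))) (Nat.mul 60480 (ctr w S K 7 a F3 x y z))) (Nat.mul 181440 (ctr w S K 8 a F2 x y z))) (Nat.mul 362880 (ctr w S K 9 a F1 x y z))) (Nat.mul 362880 (ctr w S K 10 a F0 x y z)))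
      (Nat.pow 2 K)) : Sound w S K 10 a F10 := by
  refine sound_level' (N := 10) (by decide) (fun j => if j = 0 then F0 else if j = 1 then F1 else if j = 2 then F2 else if j = 3 then F3 else if j = 4 then F4 else if j = 5 then F5 else if j = 6 then F6 else if j = 7 then F7 else if j = 8 then F8 else F9) ?_
    (fun x y z => pie w S K a F9 x y z) (fun x y z h h' => pie_sound h9 h h') ?_
  · intro j hj
    interval_cases j <;> assumption
  · intro x y z _ _
    rw [hF]
    change (pie w S K a F9 x y z + 9 * ctr w S K 2 a F8 x y z + 72 * ctr w S K 3 a F7 x y z + 504 * ctr w S K 4 a F6 x y z + 3024 * ctr w S K 5 a F5 x y z + 15120 * ctr w S K 6 a F4 x y z + 60480 * ctr w S K 7 a F3 x y z + 181440 * ctr w S K 8 a F2 x y z + 362880 * ctr w S K 9 a F1 x y z + 362880 * ctr w S K 10 a F0 x y z) % 2 ^ K = _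
    congr 1
    simp [Finset.sum_range_succ, Nat.descFactorial]
    ring

theorem lev11 {F0 F1 F2 F3 F4 F5 F6 F7 F8 F9 F10 F11 : Tb} (h0 : Sound w S K 0 a F0) (h1 : Sound w S K 1 a F1) (h2 : Sound w S K 2 a F2) (h3 : Sound w S K 3 a F3) (h4 : Sound w S K 4 a F4) (h5 : Sound w S K 5 a F5) (h6 : Sound w S K 6 a F6) (h7 : Sound w S K 7 a F7) (h8 : Sound w S K 8 a F8) (h9 : Sound w S K 9 a F9) (h10 : Sound w S K 10 a F10)
    (hF : ∀ x y z, F11 x y z = Nat.mod (Nat.add (Nat.add (Nat.add (Nat.add (Nat.add (Nat.add (Nat.add (Nat.add (Nat.add (Nat.add (pie w S K a F10 x y z) (Nat.mul 10 (ctr w S K 2 a F9 x y z))) (Nat.mul 90 (ctr w S K 3 a F8 x y z))) (Nat.mul 720 (ctr w S K 4 a F7 x y z))) (Nat.mul 5040 (ctr w S K 5 a F6 x y z))) (Nat.mul 30240 (ctr w S K 6 a F5 x y z))) (Nat.mul 151200 (ctr w S K 7 a F4 x y z))) (Nat.mul 604800 (ctr w S K 8 a F3 x y z))) (Nat.mul 1814400 (ctr w S K 9 a F2 x y z))) (Nat.mul 3628800 (ctr w S K 10 a F1 x y z))) (Nat.mul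 3628800 (ctr w S K 11 a F0 x y z)))
      (Nat.pow 2 K)) : Sound w S K 11 a F11 := by
  refine sound_level' (N := 11) (by decide) (fun j => if j = 0 then F0 else if j = 1 then F1 else if j = 2 then F2 else if j = 3 then F3 else if j = 4 then F4 else if j = 5 then F5 else if j = 6 then F6 else if j = 7 then F7 else if j = 8 then F8 else if j = 9 then F9 else F10) ?_
    (fun x y z => pie w S K a F10 x y z) (fun x y z h h' => pie_sound h10 h h') ?_
  · intro j hj
    interval_cases j <;> assumption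
  · intro x y z _ _
    rw [hF]
    change (pie w S K a F10 x y z + 10 * ctr w S K 2 a F9 x y z + 90 * ctr w S K 3 a F8 x y z + 720 * ctr w S K 4 a F7 x y z + 5040 * ctr w S K 5 a F6 x y z + 30240 * ctr w S K 6 a F5 x y z + 151200 * ctr w S K 7 a F4 x y z + 604800 * ctr w S K 8 a F3 x y z + 1814400 * ctr w S K 9 a F2 x y z + 3628800 * ctr w S K 10 a F1 x y z + 3628800 * ctr w S K 11 a F0 x y z) % 2 ^ K = _
    congr 1
    simp [Finset.sum_range_succ, Nat.descFactorial]
    ring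

theorem lev12 {F0 F1 F2 F3 F4 F5 F6 F7 F8 F9 F10 F11 F12 : Tb} (h0 : Sound w S K 0 a F0) (h1 : Sound w S K 1 a F1) (h2 : Sound w S K 2 a F2) (h3 : Sound w S K 3 a F3) (h4 : Sound w S K 4 a F4) (h5 : Sound w S K 5 a F5) (h6 : Sound w S K 6 a F6) (h7 : Sound w S K 7 a F7) (h8 : Sound w S K 8 a F8) (h9 : Sound w S K 9 a F9) (h10 : Sound w S K 10 a F10) (h11 : Sound w S K 11 a F11)
    (hF : ∀ x y z, F12 x y z = Nat.mod (Nat.add (Nat.add (Nat.add (Nat.add (Nat.add (Nat.add (Nat.add (Nat.add (Nat.add (Nat.add (Nat.add (pie w S K a F11 x y z) (Nat.mul 11 (ctr w S K 2 a F10 x y z))) (Nat.mul 110 (ctr w S K 3 a F9 x y z))) (Nat.mul 990 (ctr w S K 4 a F8 x y z))) (Nat.mul 7920 (ctr w S K 5 a F7 x y z))) (Nat.mul 55440 (ctr w S K 6 a F6 x y z))) (Nat.mul 332640 (ctr w S K 7 a F5 x y z))) (Nat.mul 1663200 (ctr w S K 8 a F4 x y z))) (Nat.mul 6652800 (ctr w S K 9 a F3 x y z))) (Nat.mul 19958400 (ctr w S K 10 a F2 x y z))) (Nat.mul 39916800 (ctr w S K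 11 a F1 x y z))) (Nat.mul 39916800 (ctr w S K 12 a F0 x y z)))
      (Nat.pow 2 K)) : Sound w S K 12 a F12 := by
  refine sound_level' (N := 12) (by decide) (fun j => if j = 0 then F0 else if j = 1 then F1 else if j = 2 then F2 else if j = 3 then F3 else if j = 4 then F4 else if j = 5 then F5 else if j = 6 then F6 else if j = 7 then F7 else if j = 8 then F8 else if j = 9 then F9 else if j = 10 then F10 else F11) ?_
    (fun x y z => pie w S K a F11 x y z) (fun x y z h h' => pie_sound h11 h h') ?_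
  · intro j hj
    interval_cases j <;> assumption
  · intro x y z _ _
    rw [hF]
    change (pie w S K a F11 x y z + 11 * ctr w S K 2 a F10 x y z + 110 * ctr w S K 3 a F9 x y z + 990 * ctr w S K 4 a F8 x y z + 7920 * ctr w S K 5 a F7 x y z + 55440 * ctr w S K 6 a F6 x y z + 332640 * ctr w S K 7 a F5 x y z + 1663200 * ctr w S K 8 a F4 x y z + 6652800 * ctr w S K 9 a F3 x y z + 19958400 * ctr w S K 10 a F2 x y z + 39916800 * ctr w S K 11 a F1 x y z + 39916800 * ctr w S K 12 a F0 x y z) % 2 ^ K = _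
    congr 1
    simp [Finset.sum_range_succ, Nat.descFactorial]
    ring

end Vale.Agent.P181.H788
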