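import Vale.Agent.P181.H788.K9
import Vale.Agent.P181.H788.Lev
import Vale.Agent.P181.H788.Cmp

set_option autoImplicit false

/-!
# P181, `a = 6`, `b = 9`: the multiplicities for the shapes with last part less than `4`
-/

namespace Vale.Agent.P181.H788.K9

open Finset Vale.Agent.P181 Vale.Agent.P181.H280 Vale.Agent.P181.H605 Vale.Agent.P181.H177

theorem sA0 : Sound 81 70 124740 0 6 A0 := row0_sound 81 70 124740 6
theorem sA1 : Sound 81 70 124740 1 6 A1 :=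
  lev1 sA0 (fun _ _ _ => rfl)
theorem sA2 : Sound 81 70 124740 2 6 A2 :=
  lev2 sA0 sA1 (fun _ _ _ => rfl)
theorem sA3 : Sound 81 70 124740 3 6 A3 :=
  lev3 sA0 sA1 sA2 (fun _ _ _ => rfl)
theorem sA4 : Sound 81 70 124740 4 6 A4 :=
  lev4 sA0 sA1 sA2 sA3 (fun _ _ _ => rfl)
theorem sA5 : Sound 81 70 124740 5 6 A5 :=
  lev5 sA0 sA1 sA2 sA3 sA4 (fun _ _ _ => rfl)
theorem sA6 : Sound 81 70 124740 6 6 A6 :=
  lev6 sA0 sA1 sA2 sA3 sA4 sA5 (fun _ _ _ => rfl)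
theorem sA7 : Sound 81 70 124740 7 6 A7 :=
  lev7 sA0 sA1 sA2 sA3 sA4 sA5 sA6 (fun _ _ _ => rfl)
theorem sA8 : Sound 81 70 124740 8 6 A8 :=
  lev8 sA0 sA1 sA2 sA3 sA4 sA5 sA6 sA7 (fun _ _ _ => rfl)
theorem sA9 : Sound 81 70 124740 9 6 A9 :=
  lev9 sA0 sA1 sA2 sA3 sA4 sA5 sA6 sA7 sA8 (fun _ _ _ => rfl)
theorem sB0 : Sound 81 70 124740 0 9 B0 := row0_sound 81 70 124740 9
theorem sB1 : Sound 81 70 124740 1 9 B1 :=
  lev1 sB0 (fun _ _ _ => rfl)
theorem sB2 : Sound 81 70 124740 2 9 B2 :=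
  lev2 sB0 sB1 (fun _ _ _ => rfl)
theorem sB3 : Sound 81 70 124740 3 9 B3 :=
  lev3 sB0 sB1 sB2 (fun _ _ _ => rfl)
theorem sB4 : Sound 81 70 124740 4 9 B4 :=
  lev4 sB0 sB1 sB2 sB3 (fun _ _ _ => rfl)
theorem sB5 : Sound 81 70 124740 5 9 B5 :=
  lev5 sB0 sB1 sB2 sB3 sB4 (fun _ _ _ => rfl)
theorem sB6 : Sound 81 70 124740 6 9 B6 :=
  lev6 sB0 sB1 sB2 sB3 sB4 sB5 (fun _ _ _ => rfl)

theorem mult (lam : Fin 6 → ℕ) (hlam : Antitone lam) (hsum : ∑ i, lam i = 6 * 9)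
    (hz : lam 5 < 4) : plethMult 6 9 6 lam ≤ plethMult 9 6 6 lam :=
  cmp sA9 sB6 check (by norm_num) (by norm_num) (by norm_num) (by norm_num) (by norm_num)
    (by norm_num) (by norm_num) (by norm_num) (by decide) (by
      have e1 : (461 + 9).choose 9 = 2855289959278616860 := by
        rw [Nat.choose_eq_descFactorial_div_factorial]
        norm_num [Nat.descFactorial, Nat.factorial]
      have e2 : (((5 + 9).choose 9) + 5).choose 6 = 90095462972822307 := by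
        have e3 : (5 + 9).choose 9 = 2002 := by decide
        rw [e3, Nat.choose_eq_descFactorial_div_factorial]
        norm_num [Nat.descFactorial, Nat.factorial]
      rw [e1, e2]
      norm_num [Nat.factorial]) lam hlam hsum hz

end Vale.Agent.P181.H788.K9
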