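import Vale.Agent.P181.H788.Tall
import Vale.Agent.P181.H788.K9S

set_option autoImplicit false

/-!
# P181: Foulkes' conjecture for the pair `(6, 9)`
-/

universe u

namespace Vale.Agent.P181.H788

open Vale.Agent.P181 Vale.Agent.P181.H280 Vale.Agent.P181.H530

theorem foulkes69 : FoulkesInjection.{u} 6 9 :=
  foulkes_of_short_odd (by decide) (by decide) fun lam h1 h2 h3 => K9.mult lam h1 h2 h3

end Vale.Agent.P181.H788
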