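import Vale.Agent.P181.H788.ProgY
import Vale.Agent.P181.H788.E4
import Vale.Agent.P181.H788.E5
import Vale.Agent.P181.H788.E6
import Vale.Agent.P181.H788.E11

/-!
# P181, `a = 6`: the common table of lower bounds for the multiplicities `M(N, 6)`
-/

set_option autoImplicit false

noncomputable section

namespace Vale.Agent.P181.H788

/-- the zero table -/
def tz : Tb := fun _ _ _ => 0

/-- list lookup, the zero table outside -/
def nthF (l : List Tb) : Nat → Tb :=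
  @List.rec Tb (fun _ => Nat → Tb) (fun _ => tz)
    (fun a _ ih i => @Nat.rec (fun _ => Tb) a (fun j _ => ih j) i) l

/-- level `11`, `y ≥ 2` -/
def t11 : Tb := fun x y z =>
  bt (Nat.ble z 0) (cutT E5.e11 21 0 1 x y z) (cutT E11.tab 17 1 6 x y z)

/-- the rows `(x, 1, 0)` -/
def l4 : List Tb :=
  [ cutY E4.e0 31 0 2 1, cutY E4.e1 31 0 2 1, cutY E4.e2 31 0 2 1,
    cutY E4.e3 31 0 2 1, cutY E4.e4 31 0 2 1, cutY E4.e5 31 0 2 1,
    cutY E4.e6 31 0 2 1, cutY E4.e7 31 0 2 1, cutY E4.e8 31 0 2 1,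
    cutY E4.e9 31 0 2 1, cutY E4.e10 31 0 2 1, cutY E4.e11 31 0 2 1,
    cutY E4.e12 31 0 2 1, cutY E4.e13 31 0 2 1, cutY E4.e14 31 0 2 1,
    cutY E4.e15 31 0 2 1, cutY E4.e16 31 0 2 1, cutY E4.e17 31 0 2 1,
    cutY E4.e18 31 0 2 1, cutY E4.e19 31 0 2 1]

/-- the rows `(x, y, z)`, `y ≥ 2` -/
def l6 : List Tb :=
  [ tz, tz, tz,
    tz, tz, cutT E6.e5 18 0 6,
    cutT E6.e6 18 0 6, cutT E6.e7 18 0 6, cutT E6.e8 18 0 6,
    cutT E6.e9 18 0 6, cutT E6.e10 18 0 6, t11,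
    cutT E5.e12 21 0 1]

/-- the common table -/
def tt (N : Nat) : Tb := fun x y z => bt (Nat.ble y 1) (nthF l4 N x y z) (nthF l6 N x y z)

end Vale.Agent.P181.H788
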