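import Vale.Agent.P181.H788.ProgT
import Vale.Agent.P181.H788.FLev
import Vale.Agent.P181.H900.GrowS

set_option autoImplicit false

/-!
# P181, `a = 6`: soundness of the comparison of a literal table with a level
-/

namespace Vale.Agent.P181.H788.FL

open Finset Vale.Agent.P181 Vale.Agent.P181.H280 Vale.Agent.P181.H605 Vale.Agent.P181.H51
open Vale.Agent.P181.H900 (dgE bo bo_iff bc_iff ble_iff rowL nthL nth TabOK)

/-- The table `t` holds lower bounds for the multiplicities `M(N, 6)`. -/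
def TabN (N : ℕ) (t : Tb) : Prop :=
  ∀ e1 e2 e3 x y z : ℕ, e2 < e1 → e3 < e2 → x < e3 → y < x → z < y →
    e1 + e2 + e3 + x + y + z = 15 + 6 * N →
    dgE (t x y z) N e2 e3 ≤ plethMult N 6 6 ![e1 - 5, e2 - 4, e3 - 3, x - 2, y - 1, z]

lemma dgE_zero (N e2 e3 : ℕ) : dgE 0 N e2 e3 = 0 := by
  change (0 >>> _) % _ = 0
  rw [Nat.zero_shiftRight, Nat.zero_mod]

lemma dgE_big {E N e2 e3 R : ℕ} (h : E < 2 ^ (24 * ((3 * N + 6) * R))) (h3 : R ≤ e3) :
    dgE E N e2 e3 = 0 := by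
  change (E >>> (24 * (e2 + (3 * N + 6) * e3))) % 2 ^ 24 = 0
  have h1 : E < 2 ^ (24 * (e2 + (3 * N + 6) * e3)) := by
    refine lt_of_lt_of_le h (Nat.pow_le_pow_right (by norm_num) (Nat.mul_le_mul_left _ ?_))
    have h2 : (3 * N + 6) * R ≤ (3 * N + 6) * e3 := Nat.mul_le_mul_left _ h3
    omega
  rw [Nat.shiftRight_eq_div_pow, Nat.div_eq_of_lt h1, Nat.zero_mod]

theorem leE_sound {w S R N T E u x : ℕ} (h : leE w S R N T E u x = true) {e1 e2 e3 : ℕ}
    (h12 : e2 < e1) (h23 : e3 < e2) (h3x : x < e3) (hT : e1 + e2 + e3 = T) :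
    dgE E N e2 e3 = 0 ∨ (e1 + 2 ≤ S ∧ e3 < R ∧
      dgE E N e2 e3 + 2 ^ (w - 1) ≤ (u >>> (w * (e2 + S * e3))) % 2 ^ w) := by
  rw [leE, bc_iff, ble_iff, allB_iff] at h
  obtain ⟨h0, h1⟩ := h
  rcases Nat.lt_or_ge e3 R with hR | hR
  · obtain ⟨j3, hj3⟩ : ∃ j3, e3 = x + 1 + j3 := ⟨e3 - (x + 1), by omega⟩
    have h2 := h1 j3 (by
      change j3 < R - (x + 1)
      omega)
    rw [fb_eq] at h2
    have h3 : Nat.add (Nat.succ x) j3 = e3 := hj3.symm
    rw [h3, allB_iff] at h2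
    obtain ⟨j2, hj2⟩ : ∃ j2, e2 = e3 + 1 + j2 := ⟨e2 - (e3 + 1), by omega⟩
    have h4 := h2 j2 (by
      change j2 < (T - e3 - 1) / 2 - e3
      omega)
    rw [fb_eq] at h4
    have h5 : Nat.add (Nat.succ e3) j2 = e2 := hj2.symm
    rw [h5, fb_eq, bo_iff, bc_iff, ble_iff, ble_iff] at h4
    rcases h4 with h4 | ⟨h4, h6⟩
    · left
      exact Nat.eq_of_beq_eq_true h4
    · right
      refine ⟨?_, hR, h6⟩
      have h7 : T - e3 - e2 + 2 ≤ S := h4
      omega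
  · left
    exact dgE_big h0 hR

/-- **Soundness of the comparison.** -/
theorem tabE_sound {w S R N C X1 X2 Z1 B : ℕ} {t A : Tb} (hA : Lv w S R N 6 (Rr X2 C Z1) A B)
    (hX : X1 ≤ X2) (hw : 0 < w) (hB : B < 2 ^ (w - 1)) (h : tabE w S R N C X1 Z1 t A = true)
    (ht : ∀ x y z, z < y → y < x → ¬ (x < X1 ∧ z < Z1) → t x y z = 0) : TabN N t := by
  intro e1 e2 e3 x y z h12 h23 h3x hxy hyz hsum
  by_cases hxz : x < X1 ∧ z < Z1
  · unfold tabE at h
    have h1 := (allB_iff _ X1).1 h x hxz.1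
    have h2 := (allB_iff _ x).1 h1 y hxy
    rw [H605.mn_eq] at h2
    have h3 := (allB_iff _ _).1 h2 z (lt_min hyz hxz.2)
    rw [fb_eq, fb_eq, fb_eq, rowE, bo_iff, bc_iff, ble_iff] at h3
    rcases h3 with h3 | ⟨h3, h4⟩
    · have h5 : t x y z = 0 := Nat.eq_of_beq_eq_true h3
      rw [h5, dgE_zero]
      exact Nat.zero_le _
    · have hC : 4 * x + y + z ≤ C := h3
      rcases leE_sound h4 h12 h23 h3x (by
        change e1 + e2 + e3 = 15 + 6 * N - (x + y + z)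
        omega) with h6 | ⟨h6, h7, h8⟩
      · rw [h6]
        exact Nat.zero_le _
      · have h9 := row_valueF hA.son hA.bf hw hB h12 h23 h3x hxy hyz h6 (by
          unfold dg
          omega) (⟨by omega, hxz.2, hC⟩ : Rr X2 C Z1 x y z) h7
        have h10 : dgE (t x y z) N e2 e3 + 2 ^ (w - 1) ≤
            ((A x y z + off w (S * R)) % 2 ^ (w * (S * R))) >>> (w * (e2 + S * e3)) % 2 ^ w := h8
        rw [h9] at h10
        omega
  · rw [ht x y z hyz hxy hxz, dgE_zero]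
    exact Nat.zero_le _

lemma cutT_eq (l : List (List ℕ)) (X1 Z0 Z1 x y z : ℕ) : cutT l X1 Z0 Z1 x y z =
    if Z0 ≤ z ∧ z < Z1 ∧ x < X1 then rowL l x y z else 0 := by
  unfold cutT
  rw [H605.bt_ble, H605.bt_ble, H605.bt_ble]
  split_ifs <;> first | rfl | omega

lemma cutT_zero {l : List (List ℕ)} {X1 Z0 Z1 x y z : ℕ} (h : ¬ (x < X1 ∧ z < Z1)) :
    cutT l X1 Z0 Z1 x y z = 0 := by
  rw [cutT_eq, if_neg]
  tauto

end Vale.Agent.P181.H788.FL
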