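import Vale.Agent.P181.H788.R10
import Vale.Agent.P181.H788.ChkT


set_option autoImplicit false

/-!
# P181, `a = 6`: soundness of the tables of `R10`
-/

namespace Vale.Agent.P181.H788.R10

open Vale.Agent.P181.H788.FL
open Vale.Agent.P181.H900 (bc_iff)

theorem hall : d1 = true ∧ d2 = true ∧ d3 = true ∧ d4 = true ∧ d5 = true ∧ d6 = true ∧ d7 = true ∧ d8 = true ∧ d9 = true ∧ e5 = true ∧ e6 = true ∧ e7 = true ∧ e8 = true ∧ e9 = true ∧ e10 = true := by
  have h := tests_true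
  unfold tests at h
  simpa only [bc_iff] using h

theorem l0 : Lv 29 37 24 0 6 (Rr 18 69 6) A0 1 :=
  lv0 (by norm_num) (by norm_num) fun _ _ _ => rfl

theorem m1 : Lv 29 37 24 1 6 (Rr 18 69 6) A1 462 :=
  flev1 (by norm_num) (Rr_down _ _ _) (by norm_num) (by norm_num) l0
    (by norm_num [Nat.choose]) (v := 9) (by norm_num) (by norm_num) fun _ _ _ => rfl

theorem l1 : Lv 29 37 24 1 6 (Rr 18 69 6) A1 (2 ^ 1) :=
  m1.test (by norm_num) (L := 888) (by norm_num) (by norm_num) (by norm_num) hall.1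

theorem m2 : Lv 29 37 24 2 6 (Rr 18 69 6) A2 693 :=
  flev2 (by norm_num) (Rr_down _ _ _) (by norm_num) (by norm_num) l0 l1
    (by norm_num [Nat.choose]) (v := 10) (by norm_num) (by norm_num) fun _ _ _ => rfl

theorem l2 : Lv 29 37 24 2 6 (Rr 18 69 6) A2 (2 ^ 1) :=
  m2.test (by norm_num) (L := 888) (by norm_num) (by norm_num) (by norm_num) hall.2.1

theorem m3 : Lv 29 37 24 3 6 (Rr 18 69 6) A3 770 :=
  flev3 (by norm_num) (Rr_down _ _ _) (by norm_num) (by norm_num) l0 l1 l2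
    (by norm_num [Nat.choose]) (v := 10) (by norm_num) (by norm_num) fun _ _ _ => rfl

theorem l3 : Lv 29 37 24 3 6 (Rr 18 69 6) A3 (2 ^ 2) :=
  m3.test (by norm_num) (L := 888) (by norm_num) (by norm_num) (by norm_num) hall.2.2.1

theorem m4 : Lv 29 37 24 4 6 (Rr 18 69 6) A4 1039 :=
  flev4 (by norm_num) (Rr_down _ _ _) (by norm_num) (by norm_num) l0 l1 l2 l3
    (by norm_num [Nat.choose]) (v := 11) (by norm_num) (by norm_num) fun _ _ _ => rfl

theorem l4 : Lv 29 37 24 4 6 (Rr 18 69 6) A4 (2 ^ 3) :=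
  m4.test (by norm_num) (L := 888) (by norm_num) (by norm_num) (by norm_num) hall.2.2.2.1

theorem m5 : Lv 29 37 24 5 6 (Rr 18 69 6) A5 1570 :=
  flev5 (by norm_num) (Rr_down _ _ _) (by norm_num) (by norm_num) l0 l1 l2 l3 l4
    (by norm_num [Nat.choose]) (v := 11) (by norm_num) (by norm_num) fun _ _ _ => rfl

theorem l5 : Lv 29 37 24 5 6 (Rr 18 69 6) A5 (2 ^ 5) :=
  m5.test (by norm_num) (L := 888) (by norm_num) (by norm_num) (by norm_num) hall.2.2.2.2.1

theorem m6 : Lv 29 37 24 6 6 (Rr 18 69 6) A6 3773 :=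
  flev6 (by norm_num) (Rr_down _ _ _) (by norm_num) (by norm_num) l0 l1 l2 l3 l4 l5
    (by norm_num [Nat.choose]) (v := 12) (by norm_num) (by norm_num) fun _ _ _ => rfl

theorem l6 : Lv 29 37 24 6 6 (Rr 18 69 6) A6 (2 ^ 7) :=
  m6.test (by norm_num) (L := 888) (by norm_num) (by norm_num) (by norm_num) hall.2.2.2.2.2.1

theorem m7 : Lv 29 37 24 7 6 (Rr 18 69 6) A7 11682 :=
  flev7 (by norm_num) (Rr_down _ _ _) (by norm_num) (by norm_num) l0 l1 l2 l3 l4 l5 l6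
    (by norm_num [Nat.choose]) (v := 14) (by norm_num) (by norm_num) fun _ _ _ => rfl

theorem l7 : Lv 29 37 24 7 6 (Rr 18 69 6) A7 (2 ^ 11) :=
  m7.test (by norm_num) (L := 888) (by norm_num) (by norm_num) (by norm_num) hall.2.2.2.2.2.2.1

theorem m8 : Lv 29 37 24 8 6 (Rr 18 69 6) A8 128493 :=
  flev8 (by norm_num) (Rr_down _ _ _) (by norm_num) (by norm_num) l0 l1 l2 l3 l4 l5 l6 l7
    (by norm_num [Nat.choose]) (v := 17) (by norm_num) (by norm_num) fun _ _ _ => rfl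

theorem l8 : Lv 29 37 24 8 6 (Rr 18 69 6) A8 (2 ^ 14) :=
  m8.test (by norm_num) (L := 888) (by norm_num) (by norm_num) (by norm_num) hall.2.2.2.2.2.2.2.1

theorem m9 : Lv 29 37 24 9 6 (Rr 18 69 6) A9 955262 :=
  flev9 (by norm_num) (Rr_down _ _ _) (by norm_num) (by norm_num) l0 l1 l2 l3 l4 l5 l6 l7 l8
    (by norm_num [Nat.choose]) (v := 20) (by norm_num) (by norm_num) fun _ _ _ => rfl

theorem l9 : Lv 29 37 24 9 6 (Rr 18 69 6) A9 (2 ^ 18) :=
  m9.test (by norm_num) (L := 888) (by norm_num) (by norm_num) (by norm_num) hall.2.2.2.2.2.2.2.2.1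

theorem m10 : Lv 29 37 24 10 6 (Rr 18 69 6) A10 12970788 :=
  flev10 (by norm_num) (Rr_down _ _ _) (by norm_num) (by norm_num) l0 l1 l2 l3 l4 l5 l6 l7 l8 l9
    (by norm_num [Nat.choose]) (v := 24) (by norm_num) (by norm_num) fun _ _ _ => rfl

theorem tab5 : TabN 5 t5 :=
  tabE_sound l5 (by norm_num) (by norm_num) (by norm_num) hall.2.2.2.2.2.2.2.2.2.1
    fun _ _ _ _ _ h => cutT_zero h

theorem tab6 : TabN 6 t6 :=
  tabE_sound l6 (by norm_num) (by norm_num) (by norm_num) hall.2.2.2.2.2.2.2.2.2.2.1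
    fun _ _ _ _ _ h => cutT_zero h

theorem tab7 : TabN 7 t7 :=
  tabE_sound l7 (by norm_num) (by norm_num) (by norm_num) hall.2.2.2.2.2.2.2.2.2.2.2.1
    fun _ _ _ _ _ h => cutT_zero h

theorem tab8 : TabN 8 t8 :=
  tabE_sound l8 (by norm_num) (by norm_num) (by norm_num) hall.2.2.2.2.2.2.2.2.2.2.2.2.1
    fun _ _ _ _ _ h => cutT_zero h

theorem tab9 : TabN 9 t9 :=
  tabE_sound l9 (by norm_num) (by norm_num) (by norm_num) hall.2.2.2.2.2.2.2.2.2.2.2.2.2.1
    fun _ _ _ _ _ h => cutT_zero h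

theorem tab10 : TabN 10 t10 :=
  tabE_sound m10 (by norm_num) (by norm_num) (by norm_num) hall.2.2.2.2.2.2.2.2.2.2.2.2.2.2
    fun _ _ _ _ _ h => cutT_zero h

end Vale.Agent.P181.H788.R10
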