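import Vale.Agent.P181.H788.R12
import Vale.Agent.P181.H788.ChkT


set_option autoImplicit false

/-!
# P181, `a = 6`: soundness of the tables of `R12`
-/

namespace Vale.Agent.P181.H788.R12

open Vale.Agent.P181.H788.FL
open Vale.Agent.P181.H900 (bc_iff)

theorem hall : d1 = true ∧ d2 = true ∧ d3 = true ∧ d4 = true ∧ d5 = true ∧ d6 = true ∧ d7 = true ∧ d8 = true ∧ d9 = true ∧ d10 = true ∧ d11 = true ∧ e11 = true ∧ e12 = true := by
  have h := tests_true
  unfold tests at h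
  simpa only [bc_iff] using h

theorem l0 : Lv 35 88 28 0 6 (Rr 21 81 1) A0 1 :=
  lv0 (by norm_num) (by norm_num) fun _ _ _ => rfl

theorem m1 : Lv 35 88 28 1 6 (Rr 21 81 1) A1 462 :=
  flev1 (by norm_num) (Rr_down _ _ _) (by norm_num) (by norm_num) l0
    (by norm_num [Nat.choose]) (v := 9) (by norm_num) (by norm_num) fun _ _ _ => rfl

theorem l1 : Lv 35 88 28 1 6 (Rr 21 81 1) A1 (2 ^ 1) :=
  m1.test (by norm_num) (L := 2464) (by norm_num) (by norm_num) (by norm_num) hall.1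

theorem m2 : Lv 35 88 28 2 6 (Rr 21 81 1) A2 693 :=
  flev2 (by norm_num) (Rr_down _ _ _) (by norm_num) (by norm_num) l0 l1
    (by norm_num [Nat.choose]) (v := 10) (by norm_num) (by norm_num) fun _ _ _ => rfl

theorem l2 : Lv 35 88 28 2 6 (Rr 21 81 1) A2 (2 ^ 1) :=
  m2.test (by norm_num) (L := 2464) (by norm_num) (by norm_num) (by norm_num) hall.2.1

theorem m3 : Lv 35 88 28 3 6 (Rr 21 81 1) A3 770 :=
  flev3 (by norm_num) (Rr_down _ _ _) (by norm_num) (by norm_num) l0 l1 l2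
    (by norm_num [Nat.choose]) (v := 10) (by norm_num) (by norm_num) fun _ _ _ => rfl

theorem l3 : Lv 35 88 28 3 6 (Rr 21 81 1) A3 (2 ^ 2) :=
  m3.test (by norm_num) (L := 2464) (by norm_num) (by norm_num) (by norm_num) hall.2.2.1

theorem m4 : Lv 35 88 28 4 6 (Rr 21 81 1) A4 1039 :=
  flev4 (by norm_num) (Rr_down _ _ _) (by norm_num) (by norm_num) l0 l1 l2 l3
    (by norm_num [Nat.choose]) (v := 11) (by norm_num) (by norm_num) fun _ _ _ => rfl

theorem l4 : Lv 35 88 28 4 6 (Rr 21 81 1) A4 (2 ^ 3) :=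
  m4.test (by norm_num) (L := 2464) (by norm_num) (by norm_num) (by norm_num) hall.2.2.2.1

theorem m5 : Lv 35 88 28 5 6 (Rr 21 81 1) A5 1570 :=
  flev5 (by norm_num) (Rr_down _ _ _) (by norm_num) (by norm_num) l0 l1 l2 l3 l4
    (by norm_num [Nat.choose]) (v := 11) (by norm_num) (by norm_num) fun _ _ _ => rfl

theorem l5 : Lv 35 88 28 5 6 (Rr 21 81 1) A5 (2 ^ 5) :=
  m5.test (by norm_num) (L := 2464) (by norm_num) (by norm_num) (by norm_num) hall.2.2.2.2.1

theorem m6 : Lv 35 88 28 6 6 (Rr 21 81 1) A6 3773 :=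
  flev6 (by norm_num) (Rr_down _ _ _) (by norm_num) (by norm_num) l0 l1 l2 l3 l4 l5
    (by norm_num [Nat.choose]) (v := 12) (by norm_num) (by norm_num) fun _ _ _ => rfl

theorem l6 : Lv 35 88 28 6 6 (Rr 21 81 1) A6 (2 ^ 7) :=
  m6.test (by norm_num) (L := 2464) (by norm_num) (by norm_num) (by norm_num) hall.2.2.2.2.2.1

theorem m7 : Lv 35 88 28 7 6 (Rr 21 81 1) A7 11682 :=
  flev7 (by norm_num) (Rr_down _ _ _) (by norm_num) (by norm_num) l0 l1 l2 l3 l4 l5 l6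
    (by norm_num [Nat.choose]) (v := 14) (by norm_num) (by norm_num) fun _ _ _ => rfl

theorem l7 : Lv 35 88 28 7 6 (Rr 21 81 1) A7 (2 ^ 11) :=
  m7.test (by norm_num) (L := 2464) (by norm_num) (by norm_num) (by norm_num) hall.2.2.2.2.2.2.1

theorem m8 : Lv 35 88 28 8 6 (Rr 21 81 1) A8 128493 :=
  flev8 (by norm_num) (Rr_down _ _ _) (by norm_num) (by norm_num) l0 l1 l2 l3 l4 l5 l6 l7
    (by norm_num [Nat.choose]) (v := 17) (by norm_num) (by norm_num) fun _ _ _ => rfl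

theorem l8 : Lv 35 88 28 8 6 (Rr 21 81 1) A8 (2 ^ 14) :=
  m8.test (by norm_num) (L := 2464) (by norm_num) (by norm_num) (by norm_num) hall.2.2.2.2.2.2.2.1

theorem m9 : Lv 35 88 28 9 6 (Rr 21 81 1) A9 955262 :=
  flev9 (by norm_num) (Rr_down _ _ _) (by norm_num) (by norm_num) l0 l1 l2 l3 l4 l5 l6 l7 l8
    (by norm_num [Nat.choose]) (v := 20) (by norm_num) (by norm_num) fun _ _ _ => rfl

theorem l9 : Lv 35 88 28 9 6 (Rr 21 81 1) A9 (2 ^ 17) :=
  m9.test (by norm_num) (L := 2464) (by norm_num) (by norm_num) (by norm_num) hall.2.2.2.2.2.2.2.2.1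

theorem m10 : Lv 35 88 28 10 6 (Rr 21 81 1) A10 6915262 :=
  flev10 (by norm_num) (Rr_down _ _ _) (by norm_num) (by norm_num) l0 l1 l2 l3 l4 l5 l6 l7 l8 l9
    (by norm_num [Nat.choose]) (v := 23) (by norm_num) (by norm_num) fun _ _ _ => rfl

theorem l10 : Lv 35 88 28 10 6 (Rr 21 81 1) A10 (2 ^ 21) :=
  m10.test (by norm_num) (L := 2464) (by norm_num) (by norm_num) (by norm_num) hall.2.2.2.2.2.2.2.2.2.1

theorem m11 : Lv 35 88 28 11 6 (Rr 21 81 1) A11 94366986 :=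
  flev11 (by norm_num) (Rr_down _ _ _) (by norm_num) (by norm_num) l0 l1 l2 l3 l4 l5 l6 l7 l8 l9 l10
    (by norm_num [Nat.choose]) (v := 27) (by norm_num) (by norm_num) fun _ _ _ => rfl

theorem l11 : Lv 35 88 28 11 6 (Rr 21 81 1) A11 (2 ^ 24) :=
  m11.test (by norm_num) (L := 2464) (by norm_num) (by norm_num) (by norm_num) hall.2.2.2.2.2.2.2.2.2.2.1

theorem m12 : Lv 35 88 28 12 6 (Rr 21 81 1) A12 732425886 :=
  flev12 (by norm_num) (Rr_down _ _ _) (by norm_num) (by norm_num) l0 l1 l2 l3 l4 l5 l6 l7 l8 l9 l10 l11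
    (by norm_num [Nat.choose]) (v := 30) (by norm_num) (by norm_num) fun _ _ _ => rfl

theorem tab11 : TabN 11 t11 :=
  tabE_sound l11 (by norm_num) (by norm_num) (by norm_num) hall.2.2.2.2.2.2.2.2.2.2.2.1
    fun _ _ _ _ _ h => cutT_zero h

theorem tab12 : TabN 12 t12 :=
  tabE_sound m12 (by norm_num) (by norm_num) (by norm_num) hall.2.2.2.2.2.2.2.2.2.2.2.2
    fun _ _ _ _ _ h => cutT_zero h

end Vale.Agent.P181.H788.R12
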