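import Vale.Agent.P181.H788.ProgY
import Vale.Agent.P181.H788.ChkT

set_option autoImplicit false

/-!
# P181, `a = 6`: soundness of the loops over the rows with `y < Y1`
-/

namespace Vale.Agent.P181.H788.FL

open Finset Vale.Agent.P181 Vale.Agent.P181.H280 Vale.Agent.P181.H605 Vale.Agent.P181.H51
open Vale.Agent.P181.H900 (dgE bo bo_iff bc_iff ble_iff rowL nthL nth TabOK)

theorem allY_iff {X1 Y1 Z1 C : ℕ} {f : ℕ → ℕ → ℕ → Bool} (h : allY X1 Y1 Z1 C f = true)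
    {x y z : ℕ} (hzy : z < y) (hyx : y < x) (hx : x < X1) (hy : y < Y1) (hz : z < Z1)
    (hC : 4 * x + y + z ≤ C) : f x y z = true := by
  unfold allY at h
  have h1 := (allB_iff _ X1).1 h x hx
  rw [H605.mn_eq] at h1
  have h2 := (allB_iff _ _).1 h1 y (lt_min hyx hy)
  rw [H605.mn_eq] at h2
  have h3 := (allB_iff _ _).1 h2 z (lt_min hzy hz)
  rw [fb_eq, fb_eq, fb_eq] at h3
  have h4 : Nat.ble (Nat.add (Nat.add (Nat.mul 4 x) y) z) C = true := Nat.ble_eq_true_of_le hC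
  rw [h4] at h3
  exact h3

/-- The rows `x < X1`, `y < Y1`, `z < Z1`, `4 x + y + z ≤ C`. -/
def Ry (X1 Y1 Z1 C : ℕ) (x y z : ℕ) : Prop := x < X1 ∧ y < Y1 ∧ z < Z1 ∧ 4 * x + y + z ≤ C

theorem Ry_down (X1 Y1 Z1 C : ℕ) : Down (Ry X1 Y1 Z1 C) := by
  intro x y z x' y' z' h hx hy hz
  unfold Ry at h ⊢
  omega

/-- A level from its a priori bound and its digit test. -/
theorem Lv.testY {w S R N a L v B' X1 Y1 Z1 C : ℕ} {F : Tb} (hS : 0 < S)
    (h : Lv w S R N a (Ry X1 Y1 Z1 C) F B') (hL : L = S * R) (hB' : B' < 2 ^ (w - 1))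
    (hv : v + 1 ≤ w) (ht : allY X1 Y1 Z1 C (fun x y z => dtz w L v (F x y z)) = true) :
    Lv w S R N a (Ry X1 Y1 Z1 C) F (2 ^ v) := by
  subst hL
  refine ⟨h.son, btestF hS h.son h.bf hB' hv fun x y z h1 h2 h3 => ?_, h.le⟩
  exact allY_iff ht h1 h2 h3.1 h3.2.1 h3.2.2.1 h3.2.2.2

/-- **Soundness of the comparison.** -/
theorem tabY_sound {w S R N C X1 X2 Y1 Z1 B : ℕ} {t A : Tb}
    (hA : Lv w S R N 6 (Ry X2 Y1 Z1 C) A B)
    (hX : X1 ≤ X2) (hw : 0 < w) (hB : B < 2 ^ (w - 1)) (h : tabY w S R N C X1 Y1 Z1 t A = true)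
    (ht : ∀ x y z, z < y → y < x → ¬ (x < X1 ∧ y < Y1 ∧ z < Z1) → t x y z = 0) : TabN N t := by
  intro e1 e2 e3 x y z h12 h23 h3x hxy hyz hsum
  by_cases hxz : x < X1 ∧ y < Y1 ∧ z < Z1
  · unfold tabY at h
    have h1 := (allB_iff _ X1).1 h x hxz.1
    rw [H605.mn_eq] at h1
    have h2 := (allB_iff _ _).1 h1 y (lt_min hxy hxz.2.1)
    rw [H605.mn_eq] at h2
    have h3 := (allB_iff _ _).1 h2 z (lt_min hyz hxz.2.2)
    rw [fb_eq, fb_eq, fb_eq, rowE, bo_iff, bc_iff, ble_iff] at h3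
    rcases h3 with h3 | ⟨h3, h4⟩
    · have h5 : t x y z = 0 := Nat.eq_of_beq_eq_true h3
      rw [h5, dgE_zero]
      exact Nat.zero_le _
    · have hC : 4 * x + y + z ≤ C := h3
      rcases leE_sound h4 h12 h23 h3x (by
        change e1 + e2 + e3 = 15 + 6 * N - (x + y + z)
        omega) with h6 | ⟨h6, h7, h8⟩
      · rw [h6]
        exact Nat.zero_le _
      · have h9 := row_valueF hA.son hA.bf hw hB h12 h23 h3x hxy hyz h6 (by
          unfold dg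
          omega) (⟨by omega, hxz.2.1, hxz.2.2, hC⟩ : Ry X2 Y1 Z1 C x y z) h7
        have h10 : dgE (t x y z) N e2 e3 + 2 ^ (w - 1) ≤
            ((A x y z + off w (S * R)) % 2 ^ (w * (S * R))) >>> (w * (e2 + S * e3)) % 2 ^ w := h8
        rw [h9] at h10
        omega
  · rw [ht x y z hyz hxy hxz, dgE_zero]
    exact Nat.zero_le _

lemma cutY_eq (l : List (List ℕ)) (X1 Y0 Y1 Z1 x y z : ℕ) : cutY l X1 Y0 Y1 Z1 x y z =
    if Y0 ≤ y ∧ y < Y1 ∧ z < Z1 ∧ x < X1 then rowL l x y z else 0 := by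
  unfold cutY
  rw [H605.bt_ble, H605.bt_ble, H605.bt_ble, H605.bt_ble]
  split_ifs <;> first | rfl | omega

lemma cutY_zero {l : List (List ℕ)} {X1 Y0 Y1 Z1 x y z : ℕ}
    (h : ¬ (x < X1 ∧ y < Y1 ∧ z < Z1)) : cutY l X1 Y0 Y1 Z1 x y z = 0 := by
  rw [cutY_eq, if_neg]
  tauto

end Vale.Agent.P181.H788.FL
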