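import Vale.Agent.P181.H788.FLev

set_option autoImplicit false

/-!
# P181, `a = 6`: the levels of the kernel program with division, levels 13 to 19
-/

namespace Vale.Agent.P181.H788.FL

open Finset Vale.Agent.P181.H605 Vale.Agent.P181.H51

variable {w S R K L a v B' : ℕ} {Rg : ℕ → ℕ → ℕ → Prop}

theorem flev13 {F0 F1 F2 F3 F4 F5 F6 F7 F8 F9 F10 F11 F12 F13 : Tb} {B0 B1 B2 B3 B4 B5 B6 B7 B8 B9 B10 B11 B12 : ℕ} (hS : 0 < S) (hd : Down Rg) (hL : L = S * R)
    (hK : K = w * L) (h0 : Lv w S R 0 a Rg F0 B0) (h1 : Lv w S R 1 a Rg F1 B1) (h2 : Lv w S R 2 a Rg F2 B2) (h3 : Lv w S R 3 a Rg F3 B3) (h4 : Lv w S R 4 a Rg F4 B4) (h5 : Lv w S R 5 a Rg F5 B5) (h6 : Lv w S R 6 a Rg F6 B6) (h7 : Lv w S R 7 a Rg F7 B7) (h8 : Lv w S R 8 a Rg F8 B8) (h9 : Lv w S R 9 a Rg F9 B9) (h10 : Lv w S R 10 a Rg F10 B10) (h11 : Lv w S R 11 a Rg F11 B11) (h12 : Lv w S R 12 a Rg F12 B12)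
    (hB : (a + 5).choose a * (B0 + B1 + B2 + B3 + B4 + B5 + B6 + B7 + B8 + B9 + B10 + B11 + B12) ≤ 13 * B' + 12) (hv : B' < 2 ^ v)
    (hw : 13 * 2 ^ (v + 1) ≤ 2 ^ w)
    (hF : ∀ x y z, F13 x y z = dvz w L 13 v (Nat.add (pie w S K a F12 x y z) (Nat.add (Nat.add (Nat.add (Nat.add (Nat.add (Nat.add (Nat.add (Nat.add (Nat.add (Nat.add (Nat.add (ctr w S K 2 a F11 x y z) (ctr w S K 3 a F10 x y z)) (ctr w S K 4 a F9 x y z)) (ctr w S K 5 a F8 x y z)) (ctr w S K 6 a F7 x y z)) (ctr w S K 7 a F6 x y z)) (ctr w S K 8 a F5 x y z)) (ctr w S K 9 a F4 x y z)) (ctr w S K 10 a F3 x y z)) (ctr w S K 11 a F2 x y z)) (ctr w S K 12 a F1 x y z)) (ctr w S K 13 a F0 x y z)))) :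
    Lv w S R 13 a Rg F13 B' := by
  subst hL hK
  have hb : BF S (S * R) 13 a Rg B' := by
    refine aprioriF hS hd (by decide) (fun j => if j = 0 then B0 else if j = 1 then B1 else if j = 2 then B2 else if j = 3 then B3 else if j = 4 then B4 else if j = 5 then B5 else if j = 6 then B6 else if j = 7 then B7 else if j = 8 then B8 else if j = 9 then B9 else if j = 10 then B10 else if j = 11 then B11 else B12) ?_ ?_
    · intro j hj
      interval_cases j
      · exact h0.bf
      · exact h1.bf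
      · exact h2.bf
      · exact h3.bf
      · exact h4.bf
      · exact h5.bf
      · exact h6.bf
      · exact h7.bf
      · exact h8.bf
      · exact h9.bf
      · exact h10.bf
      · exact h11.bf
      · exact h12.bf
    · have e : ∀ f : ℕ → ℕ, ∑ k ∈ range 13, f k = f 0 + f 1 + f 2 + f 3 + f 4 + f 5 + f 6 + f 7 + f 8 + f 9 + f 10 + f 11 + f 12 := by
        intro f
        simp [Finset.sum_range_succ]
      rw [e]
      exact hB
  refine ⟨levelF hS hd (by decide) (fun j => if j = 0 then F0 else if j = 1 then F1 else if j = 2 then F2 else if j = 3 then F3 else if j = 4 then F4 else if j = 5 then F5 else if j = 6 then F6 else if j = 7 then F7 else if j = 8 then F8 else if j = 9 then F9 else if j = 10 then F10 else if j = 11 then F11 else F12) ?_ ?_ hb hv hw ?_, hb, fun x y z => ?_⟩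
  · intro j hj
    interval_cases j
    · exact h0.son
    · exact h1.son
    · exact h2.son
    · exact h3.son
    · exact h4.son
    · exact h5.son
    · exact h6.son
    · exact h7.son
    · exact h8.son
    · exact h9.son
    · exact h10.son
    · exact h11.son
    · exact h12.son
  · intro x y z
    exact h12.le x y z
  · intro x y z _ _ _
    have e : ∀ f : ℕ → ℕ, ∑ k ∈ range (13 - 1), f k = f 0 + f 1 + f 2 + f 3 + f 4 + f 5 + f 6 + f 7 + f 8 + f 9 + f 10 + f 11 := by
      intro f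
      simp [Finset.sum_range_succ]
    rw [hF, dvz_eq, e]
    rfl
  · rw [hF]
    exact dvz_le w (S * R) 13 v _

theorem flev14 {F0 F1 F2 F3 F4 F5 F6 F7 F8 F9 F10 F11 F12 F13 F14 : Tb} {B0 B1 B2 B3 B4 B5 B6 B7 B8 B9 B10 B11 B12 B13 : ℕ} (hS : 0 < S) (hd : Down Rg) (hL : L = S * R)
    (hK : K = w * L) (h0 : Lv w S R 0 a Rg F0 B0) (h1 : Lv w S R 1 a Rg F1 B1) (h2 : Lv w S R 2 a Rg F2 B2) (h3 : Lv w S R 3 a Rg F3 B3) (h4 : Lv w S R 4 a Rg F4 B4) (h5 : Lv w S R 5 a Rg F5 B5) (h6 : Lv w S R 6 a Rg F6 B6) (h7 : Lv w S R 7 a Rg F7 B7) (h8 : Lv w S R 8 a Rg F8 B8) (h9 : Lv w S R 9 a Rg F9 B9) (h10 : Lv w S R 10 a Rg F10 B10) (h11 : Lv w S R 11 a Rg F11 B11) (h12 : Lv w S R 12 a Rg F12 B12) (h13 : Lv w S R 13 a Rg F13 B13)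
    (hB : (a + 5).choose a * (B0 + B1 + B2 + B3 + B4 + B5 + B6 + B7 + B8 + B9 + B10 + B11 + B12 + B13) ≤ 14 * B' + 13) (hv : B' < 2 ^ v)
    (hw : 14 * 2 ^ (v + 1) ≤ 2 ^ w)
    (hF : ∀ x y z, F14 x y z = dvz w L 14 v (Nat.add (pie w S K a F13 x y z) (Nat.add (Nat.add (Nat.add (Nat.add (Nat.add (Nat.add (Nat.add (Nat.add (Nat.add (Nat.add (Nat.add (Nat.add (ctr w S K 2 a F12 x y z) (ctr w S K 3 a F11 x y z)) (ctr w S K 4 a F10 x y z)) (ctr w S K 5 a F9 x y z)) (ctr w S K 6 a F8 x y z)) (ctr w S K 7 a F7 x y z)) (ctr w S K 8 a F6 x y z)) (ctr w S K 9 a F5 x y z)) (ctr w S K 10 a F4 x y z)) (ctr w S K 11 a F3 x y z)) (ctr w S K 12 a F2 x y z)) (ctr w S K 13 a F1 x y z)) (ctr w S K 14 a F0 x y z)))) :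
    Lv w S R 14 a Rg F14 B' := by
  subst hL hK
  have hb : BF S (S * R) 14 a Rg B' := by
    refine aprioriF hS hd (by decide) (fun j => if j = 0 then B0 else if j = 1 then B1 else if j = 2 then B2 else if j = 3 then B3 else if j = 4 then B4 else if j = 5 then B5 else if j = 6 then B6 else if j = 7 then B7 else if j = 8 then B8 else if j = 9 then B9 else if j = 10 then B10 else if j = 11 then B11 else if j = 12 then B12 else B13) ?_ ?_
    · intro j hj
      interval_cases j
      · exact h0.bf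
      · exact h1.bf
      · exact h2.bf
      · exact h3.bf
      · exact h4.bf
      · exact h5.bf
      · exact h6.bf
      · exact h7.bf
      · exact h8.bf
      · exact h9.bf
      · exact h10.bf
      · exact h11.bf
      · exact h12.bf
      · exact h13.bf
    · have e : ∀ f : ℕ → ℕ, ∑ k ∈ range 14, f k = f 0 + f 1 + f 2 + f 3 + f 4 + f 5 + f 6 + f 7 + f 8 + f 9 + f 10 + f 11 + f 12 + f 13 := by
        intro f
        simp [Finset.sum_range_succ]
      rw [e]
      exact hB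
  refine ⟨levelF hS hd (by decide) (fun j => if j = 0 then F0 else if j = 1 then F1 else if j = 2 then F2 else if j = 3 then F3 else if j = 4 then F4 else if j = 5 then F5 else if j = 6 then F6 else if j = 7 then F7 else if j = 8 then F8 else if j = 9 then F9 else if j = 10 then F10 else if j = 11 then F11 else if j = 12 then F12 else F13) ?_ ?_ hb hv hw ?_, hb, fun x y z => ?_⟩
  · intro j hj
    interval_cases j
    · exact h0.son
    · exact h1.son
    · exact h2.son
    · exact h3.son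
    · exact h4.son
    · exact h5.son
    · exact h6.son
    · exact h7.son
    · exact h8.son
    · exact h9.son
    · exact h10.son
    · exact h11.son
    · exact h12.son
    · exact h13.son
  · intro x y z
    exact h13.le x y z
  · intro x y z _ _ _
    have e : ∀ f : ℕ → ℕ, ∑ k ∈ range (14 - 1), f k = f 0 + f 1 + f 2 + f 3 + f 4 + f 5 + f 6 + f 7 + f 8 + f 9 + f 10 + f 11 + f 12 := by
      intro f
      simp [Finset.sum_range_succ]
    rw [hF, dvz_eq, e]
    rfl
  · rw [hF]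
    exact dvz_le w (S * R) 14 v _

theorem flev15 {F0 F1 F2 F3 F4 F5 F6 F7 F8 F9 F10 F11 F12 F13 F14 F15 : Tb} {B0 B1 B2 B3 B4 B5 B6 B7 B8 B9 B10 B11 B12 B13 B14 : ℕ} (hS : 0 < S) (hd : Down Rg) (hL : L = S * R)
    (hK : K = w * L) (h0 : Lv w S R 0 a Rg F0 B0) (h1 : Lv w S R 1 a Rg F1 B1) (h2 : Lv w S R 2 a Rg F2 B2) (h3 : Lv w S R 3 a Rg F3 B3) (h4 : Lv w S R 4 a Rg F4 B4) (h5 : Lv w S R 5 a Rg F5 B5) (h6 : Lv w S R 6 a Rg F6 B6) (h7 : Lv w S R 7 a Rg F7 B7) (h8 : Lv w S R 8 a Rg F8 B8) (h9 : Lv w S R 9 a Rg F9 B9) (h10 : Lv w S R 10 a Rg F10 B10) (h11 : Lv w S R 11 a Rg F11 B11) (h12 : Lv w S R 12 a Rg F12 B12) (h13 : Lv w S R 13 a Rg F13 B13) (h14 : Lv w S R 14 a Rg F14 B14)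
    (hB : (a + 5).choose a * (B0 + B1 + B2 + B3 + B4 + B5 + B6 + B7 + B8 + B9 + B10 + B11 + B12 + B13 + B14) ≤ 15 * B' + 14) (hv : B' < 2 ^ v)
    (hw : 15 * 2 ^ (v + 1) ≤ 2 ^ w)
    (hF : ∀ x y z, F15 x y z = dvz w L 15 v (Nat.add (pie w S K a F14 x y z) (Nat.add (Nat.add (Nat.add (Nat.add (Nat.add (Nat.add (Nat.add (Nat.add (Nat.add (Nat.add (Nat.add (Nat.add (Nat.add (ctr w S K 2 a F13 x y z) (ctr w S K 3 a F12 x y z)) (ctr w S K 4 a F11 x y z)) (ctr w S K 5 a F10 x y z)) (ctr w S K 6 a F9 x y z)) (ctr w S K 7 a F8 x y z)) (ctr w S K 8 a F7 x y z)) (ctr w S K 9 a F6 x y z)) (ctr w S K 10 a F5 x y z)) (ctr w S K 11 a F4 x y z)) (ctr w S K 12 a F3 x y z)) (ctr w S K 13 a F2 x y z)) (ctr w S K 14 a F1 x y z)) (ctr w S K 15 a F0 x y z)))) :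
    Lv w S R 15 a Rg F15 B' := by
  subst hL hK
  have hb : BF S (S * R) 15 a Rg B' := by
    refine aprioriF hS hd (by decide) (fun j => if j = 0 then B0 else if j = 1 then B1 else if j = 2 then B2 else if j = 3 then B3 else if j = 4 then B4 else if j = 5 then B5 else if j = 6 then B6 else if j = 7 then B7 else if j = 8 then B8 else if j = 9 then B9 else if j = 10 then B10 else if j = 11 then B11 else if j = 12 then B12 else if j = 13 then B13 else B14) ?_ ?_
    · intro j hj
      interval_cases j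
      · exact h0.bf
      · exact h1.bf
      · exact h2.bf
      · exact h3.bf
      · exact h4.bf
      · exact h5.bf
      · exact h6.bf
      · exact h7.bf
      · exact h8.bf
      · exact h9.bf
      · exact h10.bf
      · exact h11.bf
      · exact h12.bf
      · exact h13.bf
      · exact h14.bf
    · have e : ∀ f : ℕ → ℕ, ∑ k ∈ range 15, f k = f 0 + f 1 + f 2 + f 3 + f 4 + f 5 + f 6 + f 7 + f 8 + f 9 + f 10 + f 11 + f 12 + f 13 + f 14 := by
        intro f
        simp [Finset.sum_range_succ]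
      rw [e]
      exact hB
  refine ⟨levelF hS hd (by decide) (fun j => if j = 0 then F0 else if j = 1 then F1 else if j = 2 then F2 else if j = 3 then F3 else if j = 4 then F4 else if j = 5 then F5 else if j = 6 then F6 else if j = 7 then F7 else if j = 8 then F8 else if j = 9 then F9 else if j = 10 then F10 else if j = 11 then F11 else if j = 12 then F12 else if j = 13 then F13 else F14) ?_ ?_ hb hv hw ?_, hb, fun x y z => ?_⟩
  · intro j hj
    interval_cases j
    · exact h0.son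
    · exact h1.son
    · exact h2.son
    · exact h3.son
    · exact h4.son
    · exact h5.son
    · exact h6.son
    · exact h7.son
    · exact h8.son
    · exact h9.son
    · exact h10.son
    · exact h11.son
    · exact h12.son
    · exact h13.son
    · exact h14.son
  · intro x y z
    exact h14.le x y z
  · intro x y z _ _ _
    have e : ∀ f : ℕ → ℕ, ∑ k ∈ range (15 - 1), f k = f 0 + f 1 + f 2 + f 3 + f 4 + f 5 + f 6 + f 7 + f 8 + f 9 + f 10 + f 11 + f 12 + f 13 := by
      intro f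
      simp [Finset.sum_range_succ]
    rw [hF, dvz_eq, e]
    rfl
  · rw [hF]
    exact dvz_le w (S * R) 15 v _

theorem flev16 {F0 F1 F2 F3 F4 F5 F6 F7 F8 F9 F10 F11 F12 F13 F14 F15 F16 : Tb} {B0 B1 B2 B3 B4 B5 B6 B7 B8 B9 B10 B11 B12 B13 B14 B15 : ℕ} (hS : 0 < S) (hd : Down Rg) (hL : L = S * R)
    (hK : K = w * L) (h0 : Lv w S R 0 a Rg F0 B0) (h1 : Lv w S R 1 a Rg F1 B1) (h2 : Lv w S R 2 a Rg F2 B2) (h3 : Lv w S R 3 a Rg F3 B3) (h4 : Lv w S R 4 a Rg F4 B4) (h5 : Lv w S R 5 a Rg F5 B5) (h6 : Lv w S R 6 a Rg F6 B6) (h7 : Lv w S R 7 a Rg F7 B7) (h8 : Lv w S R 8 a Rg F8 B8) (h9 : Lv w S R 9 a Rg F9 B9) (h10 : Lv w S R 10 a Rg F10 B10) (h11 : Lv w S R 11 a Rg F11 B11) (h12 : Lv w S R 12 a Rg F12 B12) (h13 : Lv w S R 13 a Rg F13 B13) (h14 : Lv w S R 14 a Rg F14 B14) (h15 : Lv w S R 15 a Rg F15 B15)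
    (hB : (a + 5).choose a * (B0 + B1 + B2 + B3 + B4 + B5 + B6 + B7 + B8 + B9 + B10 + B11 + B12 + B13 + B14 + B15) ≤ 16 * B' + 15) (hv : B' < 2 ^ v)
    (hw : 16 * 2 ^ (v + 1) ≤ 2 ^ w)
    (hF : ∀ x y z, F16 x y z = dvz w L 16 v (Nat.add (pie w S K a F15 x y z) (Nat.add (Nat.add (Nat.add (Nat.add (Nat.add (Nat.add (Nat.add (Nat.add (Nat.add (Nat.add (Nat.add (Nat.add (Nat.add (Nat.add (ctr w S K 2 a F14 x y z) (ctr w S K 3 a F13 x y z)) (ctr w S K 4 a F12 x y z)) (ctr w S K 5 a F11 x y z)) (ctr w S K 6 a F10 x y z)) (ctr w S K 7 a F9 x y z)) (ctr w S K 8 a F8 x y z)) (ctr w S K 9 a F7 x y z)) (ctr w S K 10 a F6 x y z)) (ctr w S K 11 a F5 x y z)) (ctr w S K 12 a F4 x y z)) (ctr w S K 13 a F3 x y z)) (ctr w S K 14 a F2 x y z)) (ctr w S K 15 a F1 x y z)) (ctr w S K 16 a F0 x y z)))) :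
    Lv w S R 16 a Rg F16 B' := by
  subst hL hK
  have hb : BF S (S * R) 16 a Rg B' := by
    refine aprioriF hS hd (by decide) (fun j => if j = 0 then B0 else if j = 1 then B1 else if j = 2 then B2 else if j = 3 then B3 else if j = 4 then B4 else if j = 5 then B5 else if j = 6 then B6 else if j = 7 then B7 else if j = 8 then B8 else if j = 9 then B9 else if j = 10 then B10 else if j = 11 then B11 else if j = 12 then B12 else if j = 13 then B13 else if j = 14 then B14 else B15) ?_ ?_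
    · intro j hj
      interval_cases j
      · exact h0.bf
      · exact h1.bf
      · exact h2.bf
      · exact h3.bf
      · exact h4.bf
      · exact h5.bf
      · exact h6.bf
      · exact h7.bf
      · exact h8.bf
      · exact h9.bf
      · exact h10.bf
      · exact h11.bf
      · exact h12.bf
      · exact h13.bf
      · exact h14.bf
      · exact h15.bf
    · have e : ∀ f : ℕ → ℕ, ∑ k ∈ range 16, f k = f 0 + f 1 + f 2 + f 3 + f 4 + f 5 + f 6 + f 7 + f 8 + f 9 + f 10 + f 11 + f 12 + f 13 + f 14 + f 15 := by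
        intro f
        simp [Finset.sum_range_succ]
      rw [e]
      exact hB
  refine ⟨levelF hS hd (by decide) (fun j => if j = 0 then F0 else if j = 1 then F1 else if j = 2 then F2 else if j = 3 then F3 else if j = 4 then F4 else if j = 5 then F5 else if j = 6 then F6 else if j = 7 then F7 else if j = 8 then F8 else if j = 9 then F9 else if j = 10 then F10 else if j = 11 then F11 else if j = 12 then F12 else if j = 13 then F13 else if j = 14 then F14 else F15) ?_ ?_ hb hv hw ?_, hb, fun x y z => ?_⟩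
  · intro j hj
    interval_cases j
    · exact h0.son
    · exact h1.son
    · exact h2.son
    · exact h3.son
    · exact h4.son
    · exact h5.son
    · exact h6.son
    · exact h7.son
    · exact h8.son
    · exact h9.son
    · exact h10.son
    · exact h11.son
    · exact h12.son
    · exact h13.son
    · exact h14.son
    · exact h15.son
  · intro x y z
    exact h15.le x y z
  · intro x y z _ _ _
    have e : ∀ f : ℕ → ℕ, ∑ k ∈ range (16 - 1), f k = f 0 + f 1 + f 2 + f 3 + f 4 + f 5 + f 6 + f 7 + f 8 + f 9 + f 10 + f 11 + f 12 + f 13 + f 14 := by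
      intro f
      simp [Finset.sum_range_succ]
    rw [hF, dvz_eq, e]
    rfl
  · rw [hF]
    exact dvz_le w (S * R) 16 v _

theorem flev17 {F0 F1 F2 F3 F4 F5 F6 F7 F8 F9 F10 F11 F12 F13 F14 F15 F16 F17 : Tb} {B0 B1 B2 B3 B4 B5 B6 B7 B8 B9 B10 B11 B12 B13 B14 B15 B16 : ℕ} (hS : 0 < S) (hd : Down Rg) (hL : L = S * R)
    (hK : K = w * L) (h0 : Lv w S R 0 a Rg F0 B0) (h1 : Lv w S R 1 a Rg F1 B1) (h2 : Lv w S R 2 a Rg F2 B2) (h3 : Lv w S R 3 a Rg F3 B3) (h4 : Lv w S R 4 a Rg F4 B4) (h5 : Lv w S R 5 a Rg F5 B5) (h6 : Lv w S R 6 a Rg F6 B6) (h7 : Lv w S R 7 a Rg F7 B7) (h8 : Lv w S R 8 a Rg F8 B8) (h9 : Lv w S R 9 a Rg F9 B9) (h10 : Lv w S R 10 a Rg F10 B10) (h11 : Lv w S R 11 a Rg F11 B11) (h12 : Lv w S R 12 a Rg F12 B12) (h13 : Lv w S R 13 a Rg F13 B13) (h14 : Lv w S R 14 a Rg F14 B14) (h15 : Lv w S R 15 a Rg F15 B15) (h16 : Lv w S R 16 a Rg F16 B16)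
    (hB : (a + 5).choose a * (B0 + B1 + B2 + B3 + B4 + B5 + B6 + B7 + B8 + B9 + B10 + B11 + B12 + B13 + B14 + B15 + B16) ≤ 17 * B' + 16) (hv : B' < 2 ^ v)
    (hw : 17 * 2 ^ (v + 1) ≤ 2 ^ w)
    (hF : ∀ x y z, F17 x y z = dvz w L 17 v (Nat.add (pie w S K a F16 x y z) (Nat.add (Nat.add (Nat.add (Nat.add (Nat.add (Nat.add (Nat.add (Nat.add (Nat.add (Nat.add (Nat.add (Nat.add (Nat.add (Nat.add (Nat.add (ctr w S K 2 a F15 x y z) (ctr w S K 3 a F14 x y z)) (ctr w S K 4 a F13 x y z)) (ctr w S K 5 a F12 x y z)) (ctr w S K 6 a F11 x y z)) (ctr w S K 7 a F10 x y z)) (ctr w S K 8 a F9 x y z)) (ctr w S K 9 a F8 x y z)) (ctr w S K 10 a F7 x y z)) (ctr w S K 11 a F6 x y z)) (ctr w S K 12 a F5 x y z)) (ctr w S K 13 a F4 x y z)) (ctr w S K 14 a F3 x y z)) (ctr w S K 15 a F2 x y z)) (ctr w S K 16 a F1 x y z)) (ctr w S K 17 a F0 x y z)))) :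
    Lv w S R 17 a Rg F17 B' := by
  subst hL hK
  have hb : BF S (S * R) 17 a Rg B' := by
    refine aprioriF hS hd (by decide) (fun j => if j = 0 then B0 else if j = 1 then B1 else if j = 2 then B2 else if j = 3 then B3 else if j = 4 then B4 else if j = 5 then B5 else if j = 6 then B6 else if j = 7 then B7 else if j = 8 then B8 else if j = 9 then B9 else if j = 10 then B10 else if j = 11 then B11 else if j = 12 then B12 else if j = 13 then B13 else if j = 14 then B14 else if j = 15 then B15 else B16) ?_ ?_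
    · intro j hj
      interval_cases j
      · exact h0.bf
      · exact h1.bf
      · exact h2.bf
      · exact h3.bf
      · exact h4.bf
      · exact h5.bf
      · exact h6.bf
      · exact h7.bf
      · exact h8.bf
      · exact h9.bf
      · exact h10.bf
      · exact h11.bf
      · exact h12.bf
      · exact h13.bf
      · exact h14.bf
      · exact h15.bf
      · exact h16.bf
    · have e : ∀ f : ℕ → ℕ, ∑ k ∈ range 17, f k = f 0 + f 1 + f 2 + f 3 + f 4 + f 5 + f 6 + f 7 + f 8 + f 9 + f 10 + f 11 + f 12 + f 13 + f 14 + f 15 + f 16 := by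
        intro f
        simp [Finset.sum_range_succ]
      rw [e]
      exact hB
  refine ⟨levelF hS hd (by decide) (fun j => if j = 0 then F0 else if j = 1 then F1 else if j = 2 then F2 else if j = 3 then F3 else if j = 4 then F4 else if j = 5 then F5 else if j = 6 then F6 else if j = 7 then F7 else if j = 8 then F8 else if j = 9 then F9 else if j = 10 then F10 else if j = 11 then F11 else if j = 12 then F12 else if j = 13 then F13 else if j = 14 then F14 else if j = 15 then F15 else F16) ?_ ?_ hb hv hw ?_, hb, fun x y z => ?_⟩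
  · intro j hj
    interval_cases j
    · exact h0.son
    · exact h1.son
    · exact h2.son
    · exact h3.son
    · exact h4.son
    · exact h5.son
    · exact h6.son
    · exact h7.son
    · exact h8.son
    · exact h9.son
    · exact h10.son
    · exact h11.son
    · exact h12.son
    · exact h13.son
    · exact h14.son
    · exact h15.son
    · exact h16.son
  · intro x y z
    exact h16.le x y z
  · intro x y z _ _ _
    have e : ∀ f : ℕ → ℕ, ∑ k ∈ range (17 - 1), f k = f 0 + f 1 + f 2 + f 3 + f 4 + f 5 + f 6 + f 7 + f 8 + f 9 + f 10 + f 11 + f 12 + f 13 + f 14 + f 15 := by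
      intro f
      simp [Finset.sum_range_succ]
    rw [hF, dvz_eq, e]
    rfl
  · rw [hF]
    exact dvz_le w (S * R) 17 v _

theorem flev18 {F0 F1 F2 F3 F4 F5 F6 F7 F8 F9 F10 F11 F12 F13 F14 F15 F16 F17 F18 : Tb} {B0 B1 B2 B3 B4 B5 B6 B7 B8 B9 B10 B11 B12 B13 B14 B15 B16 B17 : ℕ} (hS : 0 < S) (hd : Down Rg) (hL : L = S * R)
    (hK : K = w * L) (h0 : Lv w S R 0 a Rg F0 B0) (h1 : Lv w S R 1 a Rg F1 B1) (h2 : Lv w S R 2 a Rg F2 B2) (h3 : Lv w S R 3 a Rg F3 B3) (h4 : Lv w S R 4 a Rg F4 B4) (h5 : Lv w S R 5 a Rg F5 B5) (h6 : Lv w S R 6 a Rg F6 B6) (h7 : Lv w S R 7 a Rg F7 B7) (h8 : Lv w S R 8 a Rg F8 B8) (h9 : Lv w S R 9 a Rg F9 B9) (h10 : Lv w S R 10 a Rg F10 B10) (h11 : Lv w S R 11 a Rg F11 B11) (h12 : Lv w S R 12 a Rg F12 B12) (h13 : Lv w S R 13 a Rg F13 B13) (h14 : Lv w S R 14 a Rg F14 B14) (h15 : Lv w S R 15 a Rg F15 B15) (h16 : Lv w S R 16 a Rg F16 B16) (h17 : Lv w S R 17 a Rg F17 B17)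
    (hB : (a + 5).choose a * (B0 + B1 + B2 + B3 + B4 + B5 + B6 + B7 + B8 + B9 + B10 + B11 + B12 + B13 + B14 + B15 + B16 + B17) ≤ 18 * B' + 17) (hv : B' < 2 ^ v)
    (hw : 18 * 2 ^ (v + 1) ≤ 2 ^ w)
    (hF : ∀ x y z, F18 x y z = dvz w L 18 v (Nat.add (pie w S K a F17 x y z) (Nat.add (Nat.add (Nat.add (Nat.add (Nat.add (Nat.add (Nat.add (Nat.add (Nat.add (Nat.add (Nat.add (Nat.add (Nat.add (Nat.add (Nat.add (Nat.add (ctr w S K 2 a F16 x y z) (ctr w S K 3 a F15 x y z)) (ctr w S K 4 a F14 x y z)) (ctr w S K 5 a F13 x y z)) (ctr w S K 6 a F12 x y z)) (ctr w S K 7 a F11 x y z)) (ctr w S K 8 a F10 x y z)) (ctr w S K 9 a F9 x y z)) (ctr w S K 10 a F8 x y z)) (ctr w S K 11 a F7 x y z)) (ctr w S K 12 a F6 x y z)) (ctr w S K 13 a F5 x y z)) (ctr w S K 14 a F4 x y z)) (ctr w S K 15 a F3 x y z)) (ctr w S K 16 a F2 x y z)) (ctr w S K 17 a F1 x y z)) (ctr w S K 18 a F0 x y z)))) :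
    Lv w S R 18 a Rg F18 B' := by
  subst hL hK
  have hb : BF S (S * R) 18 a Rg B' := by
    refine aprioriF hS hd (by decide) (fun j => if j = 0 then B0 else if j = 1 then B1 else if j = 2 then B2 else if j = 3 then B3 else if j = 4 then B4 else if j = 5 then B5 else if j = 6 then B6 else if j = 7 then B7 else if j = 8 then B8 else if j = 9 then B9 else if j = 10 then B10 else if j = 11 then B11 else if j = 12 then B12 else if j = 13 then B13 else if j = 14 then B14 else if j = 15 then B15 else if j = 16 then B16 else B17) ?_ ?_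
    · intro j hj
      interval_cases j
      · exact h0.bf
      · exact h1.bf
      · exact h2.bf
      · exact h3.bf
      · exact h4.bf
      · exact h5.bf
      · exact h6.bf
      · exact h7.bf
      · exact h8.bf
      · exact h9.bf
      · exact h10.bf
      · exact h11.bf
      · exact h12.bf
      · exact h13.bf
      · exact h14.bf
      · exact h15.bf
      · exact h16.bf
      · exact h17.bf
    · have e : ∀ f : ℕ → ℕ, ∑ k ∈ range 18, f k = f 0 + f 1 + f 2 + f 3 + f 4 + f 5 + f 6 + f 7 + f 8 + f 9 + f 10 + f 11 + f 12 + f 13 + f 14 + f 15 + f 16 + f 17 := by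
        intro f
        simp [Finset.sum_range_succ]
      rw [e]
      exact hB
  refine ⟨levelF hS hd (by decide) (fun j => if j = 0 then F0 else if j = 1 then F1 else if j = 2 then F2 else if j = 3 then F3 else if j = 4 then F4 else if j = 5 then F5 else if j = 6 then F6 else if j = 7 then F7 else if j = 8 then F8 else if j = 9 then F9 else if j = 10 then F10 else if j = 11 then F11 else if j = 12 then F12 else if j = 13 then F13 else if j = 14 then F14 else if j = 15 then F15 else if j = 16 then F16 else F17) ?_ ?_ hb hv hw ?_, hb, fun x y z => ?_⟩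
  · intro j hj
    interval_cases j
    · exact h0.son
    · exact h1.son
    · exact h2.son
    · exact h3.son
    · exact h4.son
    · exact h5.son
    · exact h6.son
    · exact h7.son
    · exact h8.son
    · exact h9.son
    · exact h10.son
    · exact h11.son
    · exact h12.son
    · exact h13.son
    · exact h14.son
    · exact h15.son
    · exact h16.son
    · exact h17.son
  · intro x y z
    exact h17.le x y z
  · intro x y z _ _ _
    have e : ∀ f : ℕ → ℕ, ∑ k ∈ range (18 - 1), f k = f 0 + f 1 + f 2 + f 3 + f 4 + f 5 + f 6 + f 7 + f 8 + f 9 + f 10 + f 11 + f 12 + f 13 + f 14 + f 15 + f 16 := by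
      intro f
      simp [Finset.sum_range_succ]
    rw [hF, dvz_eq, e]
    rfl
  · rw [hF]
    exact dvz_le w (S * R) 18 v _

theorem flev19 {F0 F1 F2 F3 F4 F5 F6 F7 F8 F9 F10 F11 F12 F13 F14 F15 F16 F17 F18 F19 : Tb} {B0 B1 B2 B3 B4 B5 B6 B7 B8 B9 B10 B11 B12 B13 B14 B15 B16 B17 B18 : ℕ} (hS : 0 < S) (hd : Down Rg) (hL : L = S * R)
    (hK : K = w * L) (h0 : Lv w S R 0 a Rg F0 B0) (h1 : Lv w S R 1 a Rg F1 B1) (h2 : Lv w S R 2 a Rg F2 B2) (h3 : Lv w S R 3 a Rg F3 B3) (h4 : Lv w S R 4 a Rg F4 B4) (h5 : Lv w S R 5 a Rg F5 B5) (h6 : Lv w S R 6 a Rg F6 B6) (h7 : Lv w S R 7 a Rg F7 B7) (h8 : Lv w S R 8 a Rg F8 B8) (h9 : Lv w S R 9 a Rg F9 B9) (h10 : Lv w S R 10 a Rg F10 B10) (h11 : Lv w S R 11 a Rg F11 B11) (h12 : Lv w S R 12 a Rg F12 B12) (h13 : Lv w S R 13 a Rg F13 B13) (h14 : Lv w S R 14 a Rg F14 B14) (h15 : Lv w S R 15 a Rg F15 B15) (h16 : Lv w S R 16 a Rg F16 B16) (h17 : Lv w S R 17 a Rg F17 B17) (h18 : Lv w S R 18 a Rg F18 B18)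
    (hB : (a + 5).choose a * (B0 + B1 + B2 + B3 + B4 + B5 + B6 + B7 + B8 + B9 + B10 + B11 + B12 + B13 + B14 + B15 + B16 + B17 + B18) ≤ 19 * B' + 18) (hv : B' < 2 ^ v)
    (hw : 19 * 2 ^ (v + 1) ≤ 2 ^ w)
    (hF : ∀ x y z, F19 x y z = dvz w L 19 v (Nat.add (pie w S K a F18 x y z) (Nat.add (Nat.add (Nat.add (Nat.add (Nat.add (Nat.add (Nat.add (Nat.add (Nat.add (Nat.add (Nat.add (Nat.add (Nat.add (Nat.add (Nat.add (Nat.add (Nat.add (ctr w S K 2 a F17 x y z) (ctr w S K 3 a F16 x y z)) (ctr w S K 4 a F15 x y z)) (ctr w S K 5 a F14 x y z)) (ctr w S K 6 a F13 x y z)) (ctr w S K 7 a F12 x y z)) (ctr w S K 8 a F11 x y z)) (ctr w S K 9 a F10 x y z)) (ctr w S K 10 a F9 x y z)) (ctr w S K 11 a F8 x y z)) (ctr w S K 12 a F7 x y z)) (ctr w S K 13 a F6 x y z)) (ctr w S K 14 a F5 x y z)) (ctr w S K 15 a F4 x y z)) (ctr w S K 16 a F3 x y z)) (ctr w S K 17 a F2 x y z)) (ctr w S K 18 a F1 x y z)) (ctr w S K 19 a F0 x y z)))) :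
    Lv w S R 19 a Rg F19 B' := by
  subst hL hK
  have hb : BF S (S * R) 19 a Rg B' := by
    refine aprioriF hS hd (by decide) (fun j => if j = 0 then B0 else if j = 1 then B1 else if j = 2 then B2 else if j = 3 then B3 else if j = 4 then B4 else if j = 5 then B5 else if j = 6 then B6 else if j = 7 then B7 else if j = 8 then B8 else if j = 9 then B9 else if j = 10 then B10 else if j = 11 then B11 else if j = 12 then B12 else if j = 13 then B13 else if j = 14 then B14 else if j = 15 then B15 else if j = 16 then B16 else if j = 17 then B17 else B18) ?_ ?_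
    · intro j hj
      interval_cases j
      · exact h0.bf
      · exact h1.bf
      · exact h2.bf
      · exact h3.bf
      · exact h4.bf
      · exact h5.bf
      · exact h6.bf
      · exact h7.bf
      · exact h8.bf
      · exact h9.bf
      · exact h10.bf
      · exact h11.bf
      · exact h12.bf
      · exact h13.bf
      · exact h14.bf
      · exact h15.bf
      · exact h16.bf
      · exact h17.bf
      · exact h18.bf
    · have e : ∀ f : ℕ → ℕ, ∑ k ∈ range 19, f k = f 0 + f 1 + f 2 + f 3 + f 4 + f 5 + f 6 + f 7 + f 8 + f 9 + f 10 + f 11 + f 12 + f 13 + f 14 + f 15 + f 16 + f 17 + f 18 := by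
        intro f
        simp [Finset.sum_range_succ]
      rw [e]
      exact hB
  refine ⟨levelF hS hd (by decide) (fun j => if j = 0 then F0 else if j = 1 then F1 else if j = 2 then F2 else if j = 3 then F3 else if j = 4 then F4 else if j = 5 then F5 else if j = 6 then F6 else if j = 7 then F7 else if j = 8 then F8 else if j = 9 then F9 else if j = 10 then F10 else if j = 11 then F11 else if j = 12 then F12 else if j = 13 then F13 else if j = 14 then F14 else if j = 15 then F15 else if j = 16 then F16 else if j = 17 then F17 else F18) ?_ ?_ hb hv hw ?_, hb, fun x y z => ?_⟩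
  · intro j hj
    interval_cases j
    · exact h0.son
    · exact h1.son
    · exact h2.son
    · exact h3.son
    · exact h4.son
    · exact h5.son
    · exact h6.son
    · exact h7.son
    · exact h8.son
    · exact h9.son
    · exact h10.son
    · exact h11.son
    · exact h12.son
    · exact h13.son
    · exact h14.son
    · exact h15.son
    · exact h16.son
    · exact h17.son
    · exact h18.son
  · intro x y z
    exact h18.le x y z
  · intro x y z _ _ _
    have e : ∀ f : ℕ → ℕ, ∑ k ∈ range (19 - 1), f k = f 0 + f 1 + f 2 + f 3 + f 4 + f 5 + f 6 + f 7 + f 8 + f 9 + f 10 + f 11 + f 12 + f 13 + f 14 + f 15 + f 16 + f 17 := by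
      intro f
      simp [Finset.sum_range_succ]
    rw [hF, dvz_eq, e]
    rfl
  · rw [hF]
    exact dvz_le w (S * R) 19 v _

end Vale.Agent.P181.H788.FL
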