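import Vale.Agent.P181.H788.R19
import Vale.Agent.P181.H788.ChkY
import Vale.Agent.P181.H788.FLev2

set_option autoImplicit false

/-!
# P181, `a = 6`: soundness of the tables of `R19`
-/

namespace Vale.Agent.P181.H788.R19

open Vale.Agent.P181.H788.FL
open Vale.Agent.P181.H900 (bc_iff)

theorem hall : d1 = true ∧ d2 = true ∧ d3 = true ∧ d4 = true ∧ d5 = true ∧ d6 = true ∧ d7 = true ∧ d8 = true ∧ d9 = true ∧ d10 = true ∧ d11 = true ∧ d12 = true ∧ d13 = true ∧ d14 = true ∧ d15 = true ∧ d16 = true ∧ d17 = true ∧ d18 = true ∧ e0 = true ∧ e1 = true ∧ e2 = true ∧ e3 = true ∧ e4 = true ∧ e5 = true ∧ e6 = true ∧ e7 = true ∧ e8 = true ∧ e9 = true ∧ e10 = true ∧ e11 = true ∧ e12 = true ∧ e13 = true ∧ e14 = true ∧ e15 = true ∧ e16 = true ∧ e17 = true ∧ e18 = true ∧ e19 = true := by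
  have h := tests_true
  unfold tests at h
  simpa only [bc_iff] using h

theorem l0 : Lv 47 130 42 0 6 (Ry 31 2 1 123) A0 1 :=
  lv0 (by norm_num) (by norm_num) fun _ _ _ => rfl

theorem m1 : Lv 47 130 42 1 6 (Ry 31 2 1 123) A1 462 :=
  flev1 (by norm_num) (Ry_down _ _ _ _) (by norm_num) (by norm_num) l0
    (by norm_num [Nat.choose]) (v := 9) (by norm_num) (by norm_num) fun _ _ _ => rfl

theorem l1 : Lv 47 130 42 1 6 (Ry 31 2 1 123) A1 (2 ^ 1) :=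
  m1.testY (by norm_num) (L := 5460) (by norm_num) (by norm_num) (by norm_num) hall.1

theorem m2 : Lv 47 130 42 2 6 (Ry 31 2 1 123) A2 693 :=
  flev2 (by norm_num) (Ry_down _ _ _ _) (by norm_num) (by norm_num) l0 l1
    (by norm_num [Nat.choose]) (v := 10) (by norm_num) (by norm_num) fun _ _ _ => rfl

theorem l2 : Lv 47 130 42 2 6 (Ry 31 2 1 123) A2 (2 ^ 1) :=
  m2.testY (by norm_num) (L := 5460) (by norm_num) (by norm_num) (by norm_num) hall.2.1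

theorem m3 : Lv 47 130 42 3 6 (Ry 31 2 1 123) A3 770 :=
  flev3 (by norm_num) (Ry_down _ _ _ _) (by norm_num) (by norm_num) l0 l1 l2
    (by norm_num [Nat.choose]) (v := 10) (by norm_num) (by norm_num) fun _ _ _ => rfl

theorem l3 : Lv 47 130 42 3 6 (Ry 31 2 1 123) A3 (2 ^ 2) :=
  m3.testY (by norm_num) (L := 5460) (by norm_num) (by norm_num) (by norm_num) hall.2.2.1

theorem m4 : Lv 47 130 42 4 6 (Ry 31 2 1 123) A4 1039 :=
  flev4 (by norm_num) (Ry_down _ _ _ _) (by norm_num) (by norm_num) l0 l1 l2 l3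
    (by norm_num [Nat.choose]) (v := 11) (by norm_num) (by norm_num) fun _ _ _ => rfl

theorem l4 : Lv 47 130 42 4 6 (Ry 31 2 1 123) A4 (2 ^ 3) :=
  m4.testY (by norm_num) (L := 5460) (by norm_num) (by norm_num) (by norm_num) hall.2.2.2.1

theorem m5 : Lv 47 130 42 5 6 (Ry 31 2 1 123) A5 1570 :=
  flev5 (by norm_num) (Ry_down _ _ _ _) (by norm_num) (by norm_num) l0 l1 l2 l3 l4
    (by norm_num [Nat.choose]) (v := 11) (by norm_num) (by norm_num) fun _ _ _ => rfl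

theorem l5 : Lv 47 130 42 5 6 (Ry 31 2 1 123) A5 (2 ^ 5) :=
  m5.testY (by norm_num) (L := 5460) (by norm_num) (by norm_num) (by norm_num) hall.2.2.2.2.1

theorem m6 : Lv 47 130 42 6 6 (Ry 31 2 1 123) A6 3773 :=
  flev6 (by norm_num) (Ry_down _ _ _ _) (by norm_num) (by norm_num) l0 l1 l2 l3 l4 l5
    (by norm_num [Nat.choose]) (v := 12) (by norm_num) (by norm_num) fun _ _ _ => rfl

theorem l6 : Lv 47 130 42 6 6 (Ry 31 2 1 123) A6 (2 ^ 7) :=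
  m6.testY (by norm_num) (L := 5460) (by norm_num) (by norm_num) (by norm_num) hall.2.2.2.2.2.1

theorem m7 : Lv 47 130 42 7 6 (Ry 31 2 1 123) A7 11682 :=
  flev7 (by norm_num) (Ry_down _ _ _ _) (by norm_num) (by norm_num) l0 l1 l2 l3 l4 l5 l6
    (by norm_num [Nat.choose]) (v := 14) (by norm_num) (by norm_num) fun _ _ _ => rfl

theorem l7 : Lv 47 130 42 7 6 (Ry 31 2 1 123) A7 (2 ^ 10) :=
  m7.testY (by norm_num) (L := 5460) (by norm_num) (by norm_num) (by norm_num) hall.2.2.2.2.2.2.1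

theorem m8 : Lv 47 130 42 8 6 (Ry 31 2 1 123) A8 69357 :=
  flev8 (by norm_num) (Ry_down _ _ _ _) (by norm_num) (by norm_num) l0 l1 l2 l3 l4 l5 l6 l7
    (by norm_num [Nat.choose]) (v := 17) (by norm_num) (by norm_num) fun _ _ _ => rfl

theorem l8 : Lv 47 130 42 8 6 (Ry 31 2 1 123) A8 (2 ^ 12) :=
  m8.testY (by norm_num) (L := 5460) (by norm_num) (by norm_num) (by norm_num) hall.2.2.2.2.2.2.2.1

theorem m9 : Lv 47 130 42 9 6 (Ry 31 2 1 123) A9 271912 :=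
  flev9 (by norm_num) (Ry_down _ _ _ _) (by norm_num) (by norm_num) l0 l1 l2 l3 l4 l5 l6 l7 l8
    (by norm_num [Nat.choose]) (v := 19) (by norm_num) (by norm_num) fun _ _ _ => rfl

theorem l9 : Lv 47 130 42 9 6 (Ry 31 2 1 123) A9 (2 ^ 15) :=
  m9.testY (by norm_num) (L := 5460) (by norm_num) (by norm_num) (by norm_num) hall.2.2.2.2.2.2.2.2.1

theorem m10 : Lv 47 130 42 10 6 (Ry 31 2 1 123) A10 1758603 :=
  flev10 (by norm_num) (Ry_down _ _ _ _) (by norm_num) (by norm_num) l0 l1 l2 l3 l4 l5 l6 l7 l8 l9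
    (by norm_num [Nat.choose]) (v := 21) (by norm_num) (by norm_num) fun _ _ _ => rfl

theorem l10 : Lv 47 130 42 10 6 (Ry 31 2 1 123) A10 (2 ^ 18) :=
  m10.testY (by norm_num) (L := 5460) (by norm_num) (by norm_num) (by norm_num) hall.2.2.2.2.2.2.2.2.2.1

theorem m11 : Lv 47 130 42 11 6 (Ry 31 2 1 123) A11 12608778 :=
  flev11 (by norm_num) (Ry_down _ _ _ _) (by norm_num) (by norm_num) l0 l1 l2 l3 l4 l5 l6 l7 l8 l9 l10
    (by norm_num [Nat.choose]) (v := 24) (by norm_num) (by norm_num) fun _ _ _ => rfl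

theorem l11 : Lv 47 130 42 11 6 (Ry 31 2 1 123) A11 (2 ^ 20) :=
  m11.testY (by norm_num) (L := 5460) (by norm_num) (by norm_num) (by norm_num) hall.2.2.2.2.2.2.2.2.2.2.1

theorem m12 : Lv 47 130 42 12 6 (Ry 31 2 1 123) A12 51928222 :=
  flev12 (by norm_num) (Ry_down _ _ _ _) (by norm_num) (by norm_num) l0 l1 l2 l3 l4 l5 l6 l7 l8 l9 l10 l11
    (by norm_num [Nat.choose]) (v := 26) (by norm_num) (by norm_num) fun _ _ _ => rfl

theorem l12 : Lv 47 130 42 12 6 (Ry 31 2 1 123) A12 (2 ^ 22) :=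
  m12.testY (by norm_num) (L := 5460) (by norm_num) (by norm_num) (by norm_num) hall.2.2.2.2.2.2.2.2.2.2.2.1

theorem m13 : Lv 47 130 42 13 6 (Ry 31 2 1 123) A13 196992855 :=
  flev13 (by norm_num) (Ry_down _ _ _ _) (by norm_num) (by norm_num) l0 l1 l2 l3 l4 l5 l6 l7 l8 l9 l10 l11 l12
    (by norm_num [Nat.choose]) (v := 28) (by norm_num) (by norm_num) fun _ _ _ => rfl

theorem l13 : Lv 47 130 42 13 6 (Ry 31 2 1 123) A13 (2 ^ 25) :=
  m13.testY (by norm_num) (L := 5460) (by norm_num) (by norm_num) (by norm_num) hall.2.2.2.2.2.2.2.2.2.2.2.2.1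

theorem m14 : Lv 47 130 42 14 6 (Ry 31 2 1 123) A14 1290218193 :=
  flev14 (by norm_num) (Ry_down _ _ _ _) (by norm_num) (by norm_num) l0 l1 l2 l3 l4 l5 l6 l7 l8 l9 l10 l11 l12 l13
    (by norm_num [Nat.choose]) (v := 31) (by norm_num) (by norm_num) fun _ _ _ => rfl

theorem l14 : Lv 47 130 42 14 6 (Ry 31 2 1 123) A14 (2 ^ 27) :=
  m14.testY (by norm_num) (L := 5460) (by norm_num) (by norm_num) (by norm_num) hall.2.2.2.2.2.2.2.2.2.2.2.2.2.1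

theorem m15 : Lv 47 130 42 15 6 (Ry 31 2 1 123) A15 5338109669 :=
  flev15 (by norm_num) (Ry_down _ _ _ _) (by norm_num) (by norm_num) l0 l1 l2 l3 l4 l5 l6 l7 l8 l9 l10 l11 l12 l13 l14
    (by norm_num [Nat.choose]) (v := 33) (by norm_num) (by norm_num) fun _ _ _ => rfl

theorem l15 : Lv 47 130 42 15 6 (Ry 31 2 1 123) A15 (2 ^ 29) :=
  m15.testY (by norm_num) (L := 5460) (by norm_num) (by norm_num) (by norm_num) hall.2.2.2.2.2.2.2.2.2.2.2.2.2.2.1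

theorem m16 : Lv 47 130 42 16 6 (Ry 31 2 1 123) A16 20506625398 :=
  flev16 (by norm_num) (Ry_down _ _ _ _) (by norm_num) (by norm_num) l0 l1 l2 l3 l4 l5 l6 l7 l8 l9 l10 l11 l12 l13 l14 l15
    (by norm_num [Nat.choose]) (v := 35) (by norm_num) (by norm_num) fun _ _ _ => rfl

theorem l16 : Lv 47 130 42 16 6 (Ry 31 2 1 123) A16 (2 ^ 31) :=
  m16.testY (by norm_num) (L := 5460) (by norm_num) (by norm_num) (by norm_num) hall.2.2.2.2.2.2.2.2.2.2.2.2.2.2.2.1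

theorem m17 : Lv 47 130 42 17 6 (Ry 31 2 1 123) A17 77661379515 :=
  flev17 (by norm_num) (Ry_down _ _ _ _) (by norm_num) (by norm_num) l0 l1 l2 l3 l4 l5 l6 l7 l8 l9 l10 l11 l12 l13 l14 l15 l16
    (by norm_num [Nat.choose]) (v := 37) (by norm_num) (by norm_num) fun _ _ _ => rfl

theorem l17 : Lv 47 130 42 17 6 (Ry 31 2 1 123) A17 (2 ^ 33) :=
  m17.testY (by norm_num) (L := 5460) (by norm_num) (by norm_num) (by norm_num) hall.2.2.2.2.2.2.2.2.2.2.2.2.2.2.2.2.1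

theorem m18 : Lv 47 130 42 18 6 (Ry 31 2 1 123) A18 293821846292 :=
  flev18 (by norm_num) (Ry_down _ _ _ _) (by norm_num) (by norm_num) l0 l1 l2 l3 l4 l5 l6 l7 l8 l9 l10 l11 l12 l13 l14 l15 l16 l17
    (by norm_num [Nat.choose]) (v := 39) (by norm_num) (by norm_num) fun _ _ _ => rfl

theorem l18 : Lv 47 130 42 18 6 (Ry 31 2 1 123) A18 (2 ^ 35) :=
  m18.testY (by norm_num) (L := 5460) (by norm_num) (by norm_num) (by norm_num) hall.2.2.2.2.2.2.2.2.2.2.2.2.2.2.2.2.2.1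

theorem m19 : Lv 47 130 42 19 6 (Ry 31 2 1 123) A19 1113841703119 :=
  flev19 (by norm_num) (Ry_down _ _ _ _) (by norm_num) (by norm_num) l0 l1 l2 l3 l4 l5 l6 l7 l8 l9 l10 l11 l12 l13 l14 l15 l16 l17 l18
    (by norm_num [Nat.choose]) (v := 41) (by norm_num) (by norm_num) fun _ _ _ => rfl

theorem tab0 : TabN 0 t0 :=
  tabY_sound l0 (by norm_num) (by norm_num) (by norm_num) hall.2.2.2.2.2.2.2.2.2.2.2.2.2.2.2.2.2.2.1
    fun _ _ _ _ _ h => cutY_zero h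

theorem tab1 : TabN 1 t1 :=
  tabY_sound l1 (by norm_num) (by norm_num) (by norm_num) hall.2.2.2.2.2.2.2.2.2.2.2.2.2.2.2.2.2.2.2.1
    fun _ _ _ _ _ h => cutY_zero h

theorem tab2 : TabN 2 t2 :=
  tabY_sound l2 (by norm_num) (by norm_num) (by norm_num) hall.2.2.2.2.2.2.2.2.2.2.2.2.2.2.2.2.2.2.2.2.1
    fun _ _ _ _ _ h => cutY_zero h

theorem tab3 : TabN 3 t3 :=
  tabY_sound l3 (by norm_num) (by norm_num) (by norm_num) hall.2.2.2.2.2.2.2.2.2.2.2.2.2.2.2.2.2.2.2.2.2.1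
    fun _ _ _ _ _ h => cutY_zero h

theorem tab4 : TabN 4 t4 :=
  tabY_sound l4 (by norm_num) (by norm_num) (by norm_num) hall.2.2.2.2.2.2.2.2.2.2.2.2.2.2.2.2.2.2.2.2.2.2.1
    fun _ _ _ _ _ h => cutY_zero h

theorem tab5 : TabN 5 t5 :=
  tabY_sound l5 (by norm_num) (by norm_num) (by norm_num) hall.2.2.2.2.2.2.2.2.2.2.2.2.2.2.2.2.2.2.2.2.2.2.2.1
    fun _ _ _ _ _ h => cutY_zero h

theorem tab6 : TabN 6 t6 :=
  tabY_sound l6 (by norm_num) (by norm_num) (by norm_num) hall.2.2.2.2.2.2.2.2.2.2.2.2.2.2.2.2.2.2.2.2.2.2.2.2.1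
    fun _ _ _ _ _ h => cutY_zero h

theorem tab7 : TabN 7 t7 :=
  tabY_sound l7 (by norm_num) (by norm_num) (by norm_num) hall.2.2.2.2.2.2.2.2.2.2.2.2.2.2.2.2.2.2.2.2.2.2.2.2.2.1
    fun _ _ _ _ _ h => cutY_zero h

theorem tab8 : TabN 8 t8 :=
  tabY_sound l8 (by norm_num) (by norm_num) (by norm_num) hall.2.2.2.2.2.2.2.2.2.2.2.2.2.2.2.2.2.2.2.2.2.2.2.2.2.2.1
    fun _ _ _ _ _ h => cutY_zero h

theorem tab9 : TabN 9 t9 :=
  tabY_sound l9 (by norm_num) (by norm_num) (by norm_num) hall.2.2.2.2.2.2.2.2.2.2.2.2.2.2.2.2.2.2.2.2.2.2.2.2.2.2.2.1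
    fun _ _ _ _ _ h => cutY_zero h

theorem tab10 : TabN 10 t10 :=
  tabY_sound l10 (by norm_num) (by norm_num) (by norm_num) hall.2.2.2.2.2.2.2.2.2.2.2.2.2.2.2.2.2.2.2.2.2.2.2.2.2.2.2.2.1
    fun _ _ _ _ _ h => cutY_zero h

theorem tab11 : TabN 11 t11 :=
  tabY_sound l11 (by norm_num) (by norm_num) (by norm_num) hall.2.2.2.2.2.2.2.2.2.2.2.2.2.2.2.2.2.2.2.2.2.2.2.2.2.2.2.2.2.1
    fun _ _ _ _ _ h => cutY_zero h

theorem tab12 : TabN 12 t12 :=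
  tabY_sound l12 (by norm_num) (by norm_num) (by norm_num) hall.2.2.2.2.2.2.2.2.2.2.2.2.2.2.2.2.2.2.2.2.2.2.2.2.2.2.2.2.2.2.1
    fun _ _ _ _ _ h => cutY_zero h

theorem tab13 : TabN 13 t13 :=
  tabY_sound l13 (by norm_num) (by norm_num) (by norm_num) hall.2.2.2.2.2.2.2.2.2.2.2.2.2.2.2.2.2.2.2.2.2.2.2.2.2.2.2.2.2.2.2.1
    fun _ _ _ _ _ h => cutY_zero h

theorem tab14 : TabN 14 t14 :=
  tabY_sound l14 (by norm_num) (by norm_num) (by norm_num) hall.2.2.2.2.2.2.2.2.2.2.2.2.2.2.2.2.2.2.2.2.2.2.2.2.2.2.2.2.2.2.2.2.1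
    fun _ _ _ _ _ h => cutY_zero h

theorem tab15 : TabN 15 t15 :=
  tabY_sound l15 (by norm_num) (by norm_num) (by norm_num) hall.2.2.2.2.2.2.2.2.2.2.2.2.2.2.2.2.2.2.2.2.2.2.2.2.2.2.2.2.2.2.2.2.2.1
    fun _ _ _ _ _ h => cutY_zero h

theorem tab16 : TabN 16 t16 :=
  tabY_sound l16 (by norm_num) (by norm_num) (by norm_num) hall.2.2.2.2.2.2.2.2.2.2.2.2.2.2.2.2.2.2.2.2.2.2.2.2.2.2.2.2.2.2.2.2.2.2.1
    fun _ _ _ _ _ h => cutY_zero h

theorem tab17 : TabN 17 t17 :=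
  tabY_sound l17 (by norm_num) (by norm_num) (by norm_num) hall.2.2.2.2.2.2.2.2.2.2.2.2.2.2.2.2.2.2.2.2.2.2.2.2.2.2.2.2.2.2.2.2.2.2.2.1
    fun _ _ _ _ _ h => cutY_zero h

theorem tab18 : TabN 18 t18 :=
  tabY_sound l18 (by norm_num) (by norm_num) (by norm_num) hall.2.2.2.2.2.2.2.2.2.2.2.2.2.2.2.2.2.2.2.2.2.2.2.2.2.2.2.2.2.2.2.2.2.2.2.2.1
    fun _ _ _ _ _ h => cutY_zero h

theorem tab19 : TabN 19 t19 :=
  tabY_sound m19 (by norm_num) (by norm_num) (by norm_num) hall.2.2.2.2.2.2.2.2.2.2.2.2.2.2.2.2.2.2.2.2.2.2.2.2.2.2.2.2.2.2.2.2.2.2.2.2.2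
    fun _ _ _ _ _ h => cutY_zero h

end Vale.Agent.P181.H788.R19
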