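import Vale.Agent.P181.H788.TabD
import Vale.Agent.P181.H788.R10S
import Vale.Agent.P181.H788.R11S
import Vale.Agent.P181.H788.R12S
import Vale.Agent.P181.H788.R19S

set_option autoImplicit false

/-!
# P181, `a = 6`: the common table holds lower bounds for the multiplicities `M(N, 6)`
-/

namespace Vale.Agent.P181.H788.FL

open Vale.Agent.P181 Vale.Agent.P181.H280
open Vale.Agent.P181.H900 (dgE TabOK)

theorem tabN_zero (N : ℕ) : TabN N tz := by
  intro e1 e2 e3 x y z _ _ _ _ _ _
  change dgE 0 N e2 e3 ≤ _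
  rw [dgE_zero]
  exact Nat.zero_le _

theorem tabN_bt {N : ℕ} {f g : Tb} (c : ℕ → ℕ → ℕ → Bool) (hf : TabN N f) (hg : TabN N g) :
    TabN N (fun x y z => bt (c x y z) (f x y z) (g x y z)) := by
  intro e1 e2 e3 x y z h1 h2 h3 h4 h5 h6
  change dgE (bt (c x y z) (f x y z) (g x y z)) N e2 e3 ≤ _
  rw [H605.bt_eq]
  split_ifs
  · exact hf e1 e2 e3 x y z h1 h2 h3 h4 h5 h6
  · exact hg e1 e2 e3 x y z h1 h2 h3 h4 h5 h6

theorem tabN_l4 (N : ℕ) : TabN N (nthF l4 N) := by
  match N with
  | 0 => exact R19.tab0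
  | 1 => exact R19.tab1
  | 2 => exact R19.tab2
  | 3 => exact R19.tab3
  | 4 => exact R19.tab4
  | 5 => exact R19.tab5
  | 6 => exact R19.tab6
  | 7 => exact R19.tab7
  | 8 => exact R19.tab8
  | 9 => exact R19.tab9
  | 10 => exact R19.tab10
  | 11 => exact R19.tab11
  | 12 => exact R19.tab12
  | 13 => exact R19.tab13
  | 14 => exact R19.tab14
  | 15 => exact R19.tab15
  | 16 => exact R19.tab16
  | 17 => exact R19.tab17
  | 18 => exact R19.tab18
  | 19 => exact R19.tab19
  | m + 20 => exact tabN_zero _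

theorem tabN_l6 (N : ℕ) : TabN N (nthF l6 N) := by
  match N with
  | 0 => exact tabN_zero _
  | 1 => exact tabN_zero _
  | 2 => exact tabN_zero _
  | 3 => exact tabN_zero _
  | 4 => exact tabN_zero _
  | 5 => exact R10.tab5
  | 6 => exact R10.tab6
  | 7 => exact R10.tab7
  | 8 => exact R10.tab8
  | 9 => exact R10.tab9
  | 10 => exact R10.tab10
  | 11 => exact tabN_bt (fun _ _ z => Nat.ble z 0) R12.tab11 R11.tab11
  | 12 => exact R12.tab12
  | m + 13 => exact tabN_zero _

/-- **The common table holds lower bounds for the multiplicities.** -/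
theorem tt_ok : TabOK tt := fun N =>
  tabN_bt (fun _ y _ => Nat.ble y 1) (tabN_l4 N) (tabN_l6 N)

end Vale.Agent.P181.H788.FL
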