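import Vale.Agent.P181.H51.Level2

set_option autoImplicit false

/-!
# P181: rows packed with a small stride

With `x₂ = X`, `x₃ = X ^ S` and an arbitrary stride `S > 0` the digit `p` of a row is the sum of the
coefficients at the places `(e2, e3)` with `e2 + S * e3 = p`.
-/

namespace Vale.Agent.P181.H788.FL

open Finset MvPolynomial Vale.Agent.P181 Vale.Agent.P181.H280 Vale.Agent.P181.H605
open Vale.Agent.P181.H51

/-- The digit `p` of a row. -/
noncomputable def fdig (S N a p x y z : ℕ) : ℤ :=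
  ∑ e3 ∈ range (p / S + 1), cf N a (p - S * e3) e3 x y z

lemma fdig_swap1 (S N a p x y z : ℕ) : fdig S N a p y x z = - fdig S N a p x y z := by
  unfold fdig
  rw [← Finset.sum_neg_distrib]
  exact Finset.sum_congr rfl fun _ _ => cf_swap1 ..

lemma fdig_swap2 (S N a p x y z : ℕ) : fdig S N a p x z y = - fdig S N a p x y z := by
  unfold fdig
  rw [← Finset.sum_neg_distrib]
  exact Finset.sum_congr rfl fun _ _ => cf_swap2 ..

lemma fdig_e1 (S N a p x z : ℕ) : fdig S N a p x x z = 0 := by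
  have := fdig_swap1 S N a p x x z
  omega

lemma fdig_e2 (S N a p x y : ℕ) : fdig S N a p x y y = 0 := by
  have := fdig_swap2 S N a p x y y
  omega

lemma fdig_e3 (S N a p x y : ℕ) : fdig S N a p x y x = 0 := by
  rw [fdig_swap2, fdig_e1, neg_zero]

/-- The sum over all places, grouped by digits. -/
lemma sum_group {S L B : ℕ} (hS : 0 < S) (hB : L ≤ B) (c : ℕ → ℕ → ℤ) (X : ℤ) :
    ∃ M : ℤ, ∑ e3 ∈ range B, ∑ e2 ∈ range B, c e2 e3 * X ^ (e2 + S * e3) =
      ev X L (fun p => ∑ e3 ∈ range (p / S + 1), c (p - S * e3) e3) + X ^ L * M := by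
  classical
  have h1 : ∑ e3 ∈ range B, ∑ e2 ∈ range B, c e2 e3 * X ^ (e2 + S * e3) =
      (∑ q ∈ ((range B) ×ˢ (range B)).filter (fun q : ℕ × ℕ => q.2 + S * q.1 < L),
        c q.2 q.1 * X ^ (q.2 + S * q.1)) +
      ∑ q ∈ ((range B) ×ˢ (range B)).filter (fun q : ℕ × ℕ => ¬ q.2 + S * q.1 < L),
        c q.2 q.1 * X ^ (q.2 + S * q.1) := by
    rw [Finset.sum_filter_add_sum_filter_not, Finset.sum_product]
  have h2 : X ^ L ∣ ∑ q ∈ ((range B) ×ˢ (range B)).filter
      (fun q : ℕ × ℕ => ¬ q.2 + S * q.1 < L), c q.2 q.1 * X ^ (q.2 + S * q.1) := by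
    refine Finset.dvd_sum fun q hq => Dvd.dvd.mul_left (pow_dvd_pow _ ?_) _
    exact not_lt.1 (Finset.mem_filter.1 hq).2
  obtain ⟨M, hM⟩ := h2
  refine ⟨M, ?_⟩
  rw [h1, hM]
  congr 1
  unfold ev
  simp only [Finset.sum_mul]
  rw [Finset.sum_sigma']
  refine Finset.sum_bij' (fun q _ => (⟨q.2 + S * q.1, q.1⟩ : Σ _ : ℕ, ℕ))
    (fun t _ => (t.2, t.1 - S * t.2)) ?_ ?_ ?_ ?_ ?_
  · rintro ⟨e3, e2⟩ hq
    simp only [Finset.mem_filter, Finset.mem_product, Finset.mem_range] at hq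
    simp only [Finset.mem_sigma, Finset.mem_range]
    refine ⟨hq.2, ?_⟩
    rw [Nat.lt_succ_iff, Nat.le_div_iff_mul_le hS, mul_comm]
    omega
  · rintro ⟨p, e3⟩ ht
    simp only [Finset.mem_sigma, Finset.mem_range] at ht
    simp only [Finset.mem_filter, Finset.mem_product, Finset.mem_range]
    have h3 : S * e3 ≤ p := by
      have h4 := ht.2
      rw [Nat.lt_succ_iff, Nat.le_div_iff_mul_le hS, mul_comm] at h4
      exact h4
    have h5 : e3 ≤ S * e3 := Nat.le_mul_of_pos_left _ hS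
    have h6 := ht.1
    refine ⟨⟨by omega, by omega⟩, by omega⟩
  · rintro ⟨e3, e2⟩ hq
    simp
  · rintro ⟨p, e3⟩ ht
    simp only [Finset.mem_sigma, Finset.mem_range] at ht
    have h3 : S * e3 ≤ p := by
      have h4 := ht.2
      rw [Nat.lt_succ_iff, Nat.le_div_iff_mul_le hS, mul_comm] at h4
      exact h4
    have h4 : p - S * e3 + S * e3 = p := Nat.sub_add_cancel h3
    simp only [h4]
  · rintro ⟨e3, e2⟩ hq
    simp

/-- The rows as packed digits. -/
lemma G_ev (w : ℕ) {S : ℕ} (hS : 0 < S) (L N a x y z : ℕ) : G w S N a x y z ≡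
    ev (2 ^ w) L (fun p => fdig S N a p x y z) [ZMOD 2 ^ (w * L)] := by
  have h1 := row_eq_sum w S (Fgen_homog 6 N a) (dg N a + 1 + L) (by
    change 6 * (6 - 1) / 2 + N * a < 15 + N * a + 1 + L
    omega) x y z
  obtain ⟨M, hM⟩ := sum_group hS (by omega : L ≤ dg N a + 1 + L)
    (fun e2 e3 => cf N a e2 e3 x y z) (2 ^ w)
  have h2 : G w S N a x y z = ∑ e3 ∈ range (dg N a + 1 + L), ∑ e2 ∈ range (dg N a + 1 + L),
      cf N a e2 e3 x y z * (2 ^ w) ^ (e2 + S * e3) := by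
    refine h1.trans ?_
    refine Finset.sum_congr rfl fun e3 _ => Finset.sum_congr rfl fun e2 _ => ?_
    rw [← pow_mul]
    rfl
  rw [h2, hM, ← pow_mul]
  exact (Int.modEq_add_fac_self ..)

/-- The recursion for all places. -/
lemma cf_rec' (N a e2 e3 x y z : ℕ) :
    (N : ℤ) * cf N a e2 e3 x y z = ∑ k ∈ range N, ∑ v ∈ piAntidiag (univ : Finset (Fin 6)) a,
      (if (k + 1) * v 1 ≤ e2 ∧ (k + 1) * v 2 ≤ e3 ∧ (k + 1) * v 3 ≤ x ∧ (k + 1) * v 4 ≤ y ∧
          (k + 1) * v 5 ≤ z then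
        cf (N - (k + 1)) a (e2 - (k + 1) * v 1) (e3 - (k + 1) * v 2) (x - (k + 1) * v 3)
          (y - (k + 1) * v 4) (z - (k + 1) * v 5) else 0) := by
  classical
  have key : ∀ k ∈ range N, ∀ v ∈ piAntidiag (univ : Finset (Fin 6)) a,
      ((k + 1) * v 1 ≤ e2 ∧ (k + 1) * v 2 ≤ e3 ∧ (k + 1) * v 3 ≤ x ∧ (k + 1) * v 4 ≤ y ∧
          (k + 1) * v 5 ≤ z) →
      ¬ (x + y + z + e2 + e3 + (k + 1) * v 0 ≤ dg N a) →
      cf (N - (k + 1)) a (e2 - (k + 1) * v 1) (e3 - (k + 1) * v 2) (x - (k + 1) * v 3)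
          (y - (k + 1) * v 4) (z - (k + 1) * v 5) = 0 := by
    intro k hk v hv h1 h2
    have hkN := Finset.mem_range.1 hk
    have hsum := (mem_piAntidiag.1 hv).1
    rw [Fin.sum_univ_six] at hsum
    have hN : dg N a = dg (N - (k + 1)) a + (k + 1) * a := by
      unfold dg
      obtain ⟨m, rfl⟩ : ∃ m, N = m + (k + 1) := ⟨N - (k + 1), by omega⟩
      rw [Nat.add_sub_cancel]
      ring
    have hva : (k + 1) * a = (k + 1) * v 0 + (k + 1) * v 1 + (k + 1) * v 2 +
        (k + 1) * v 3 + (k + 1) * v 4 + (k + 1) * v 5 :=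
      (congrArg (fun t => (k + 1) * t) hsum).symm.trans (by ring)
    obtain ⟨a1, a2, a3, a4, a5⟩ := h1
    rw [cf, if_neg]
    omega
  by_cases h : x + y + z + e2 + e3 ≤ dg N a
  · rw [cf_rec N a e2 e3 x y z h]
    refine Finset.sum_congr rfl fun k hk => Finset.sum_congr rfl fun v hv => ?_
    by_cases h1 : (k + 1) * v 1 ≤ e2 ∧ (k + 1) * v 2 ≤ e3 ∧ (k + 1) * v 3 ≤ x ∧
        (k + 1) * v 4 ≤ y ∧ (k + 1) * v 5 ≤ z
    · rw [if_pos h1]
      by_cases h0 : (k + 1) * v 0 ≤ dg N a - (x + y + z + e2 + e3)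
      · rw [if_pos ⟨h0, h1⟩]
      · rw [if_neg (fun h2 => h0 h2.1), key k hk v hv h1 (by omega)]
    · rw [if_neg h1, if_neg (fun h2 => h1 h2.2)]
  · rw [cf, if_neg h, mul_zero]
    symm
    refine Finset.sum_eq_zero fun k hk => Finset.sum_eq_zero fun v hv => ?_
    split_ifs with h1
    · exact key k hk v hv h1 (by omega)
    · rfl

/-- Shifting a digit sequence. -/
lemma shift_sum {S : ℕ} (hS : 0 < S) (f : ℕ → ℕ → ℤ) (p u t : ℕ) :
    (∑ e3 ∈ range (p / S + 1), (if u ≤ p - S * e3 ∧ t ≤ e3 then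
      f (p - S * e3 - u) (e3 - t) else 0)) =
    if u + S * t ≤ p then ∑ e3 ∈ range ((p - (u + S * t)) / S + 1),
      f (p - (u + S * t) - S * e3) e3 else 0 := by
  classical
  have hmem : ∀ q e : ℕ, e ∈ range (q / S + 1) ↔ S * e ≤ q := by
    intro q e
    rw [Finset.mem_range, Nat.lt_succ_iff, Nat.le_div_iff_mul_le hS, mul_comm]
  split_ifs with h
  · rw [← Finset.sum_filter]
    refine Finset.sum_bij' (fun e _ => e - t) (fun e _ => e + t) ?_ ?_ ?_ ?_ ?_
    · intro e he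
      rw [Finset.mem_filter, hmem] at he
      rw [hmem]
      obtain ⟨h1, h2, h3⟩ := he
      obtain ⟨r, rfl⟩ : ∃ r, e = r + t := ⟨e - t, by omega⟩
      rw [Nat.add_sub_cancel]
      rw [Nat.mul_add] at h1 h2
      omega
    · intro e he
      rw [hmem] at he
      rw [Finset.mem_filter, hmem]
      rw [Nat.mul_add]
      refine ⟨by omega, by omega, by omega⟩
    · intro e he
      rw [Finset.mem_filter, hmem] at he
      exact Nat.sub_add_cancel he.2.2
    · intro e _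
      exact Nat.add_sub_cancel e t
    · intro e he
      rw [Finset.mem_filter, hmem] at he
      obtain ⟨h1, h2, h3⟩ := he
      obtain ⟨r, rfl⟩ : ∃ r, e = r + t := ⟨e - t, by omega⟩
      rw [Nat.add_sub_cancel]
      rw [Nat.mul_add] at h1 h2 ⊢
      congr 1
      omega
  · refine Finset.sum_eq_zero fun e he => ?_
    rw [hmem] at he
    rw [if_neg]
    rintro ⟨h2, h3⟩
    apply h
    have h4 : S * t ≤ S * e := Nat.mul_le_mul_left S h3
    omega

/-- **The recursion for the digits.** -/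
lemma fdig_rec {S : ℕ} (hS : 0 < S) (N a p x y z : ℕ) :
    (N : ℤ) * fdig S N a p x y z = ∑ k ∈ range N, ∑ v ∈ piAntidiag (univ : Finset (Fin 6)) a,
      (if (k + 1) * v 3 ≤ x ∧ (k + 1) * v 4 ≤ y ∧ (k + 1) * v 5 ≤ z then
        (if (k + 1) * v 1 + S * ((k + 1) * v 2) ≤ p then
          fdig S (N - (k + 1)) a (p - ((k + 1) * v 1 + S * ((k + 1) * v 2))) (x - (k + 1) * v 3)
            (y - (k + 1) * v 4) (z - (k + 1) * v 5) else 0) else 0) := by
  unfold fdig
  rw [Finset.mul_sum, Finset.sum_congr rfl (fun e3 _ => cf_rec' N a (p - S * e3) e3 x y z),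
    Finset.sum_comm]
  refine Finset.sum_congr rfl fun k _ => ?_
  rw [Finset.sum_comm]
  refine Finset.sum_congr rfl fun v _ => ?_
  by_cases h : (k + 1) * v 3 ≤ x ∧ (k + 1) * v 4 ≤ y ∧ (k + 1) * v 5 ≤ z
  · rw [if_pos h, ← shift_sum hS (fun e2 e3 => cf (N - (k + 1)) a e2 e3 (x - (k + 1) * v 3)
            (y - (k + 1) * v 4) (z - (k + 1) * v 5))]
    refine Finset.sum_congr rfl fun e3 _ => ?_
    refine if_congr ?_ rfl rfl
    constructor
    · rintro ⟨h1, h2, -⟩
      exact ⟨h1, h2⟩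
    · rintro ⟨h1, h2⟩
      exact ⟨h1, h2, h⟩
  · rw [if_neg h]
    refine Finset.sum_eq_zero fun e3 _ => ?_
    rw [if_neg (fun h1 => h h1.2.2)]

/-- The digits of level `N` are bounded by `B` in the rows of `Rg`. -/
def BF (S L N a : ℕ) (Rg : ℕ → ℕ → ℕ → Prop) (B : ℕ) : Prop :=
  ∀ x y z, z < y → y < x → Rg x y z → ∀ p < L, |fdig S N a p x y z| ≤ B

/-- Unsorted places. -/
lemma BF.unsorted {S L N a B : ℕ} {Rg : ℕ → ℕ → ℕ → Prop} (h : BF S L N a Rg B)
    (hd : Down Rg) {x y z x' y' z' : ℕ} (hR : Rg x y z) (hzy : z < y) (hyx : y < x)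
    (hx : x' ≤ x) (hy : y' ≤ y) (hz : z' ≤ z) {p : ℕ} (hp : p < L) :
    |fdig S N a p x' y' z'| ≤ B := by
  have h0 : (0 : ℤ) ≤ B := Int.natCast_nonneg B
  rcases lt_trichotomy x' y' with hxy | rfl | hxy
  · rcases lt_trichotomy z' x' with hzx | rfl | hzx
    · have h4 := h y' x' z' hzx hxy (hd x y z _ _ _ hR (by omega) (by omega) (by omega)) p hp
      rwa [fdig_swap1, abs_neg] at h4
    · rw [fdig_e3, abs_zero]; exact h0
    · rcases lt_trichotomy z' y' with hzy' | rfl | hzy'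
      · have h4 := h y' z' x' hzx hzy' (hd x y z _ _ _ hR (by omega) (by omega) (by omega)) p hp
        rwa [fdig_swap2, fdig_swap1, neg_neg] at h4
      · rw [fdig_e2, abs_zero]; exact h0
      · have h4 := h z' y' x' hxy hzy' (hd x y z _ _ _ hR (by omega) (by omega) (by omega)) p hp
        rwa [fdig_swap1, fdig_swap2, fdig_swap1, neg_neg, abs_neg] at h4
  · rw [fdig_e1, abs_zero]; exact h0
  · rcases lt_trichotomy z' y' with hzy' | rfl | hzy'
    · exact h x' y' z' hzy' hxy (hd x y z _ _ _ hR hx hy hz) p hp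
    · rw [fdig_e2, abs_zero]; exact h0
    · rcases lt_trichotomy z' x' with hzx | rfl | hzx
      · have h4 := h x' z' y' hzy' hzx (hd x y z _ _ _ hR (by omega) (by omega) (by omega)) p hp
        rwa [fdig_swap2, abs_neg] at h4
      · rw [fdig_e3, abs_zero]; exact h0
      · have h4 := h z' x' y' hxy hzx (hd x y z _ _ _ hR (by omega) (by omega) (by omega)) p hp
        rwa [fdig_swap1, fdig_swap2, neg_neg] at h4

/-- **The a priori bound of a level.** -/
theorem aprioriF {S L N a B' : ℕ} {Rg : ℕ → ℕ → ℕ → Prop} (hS : 0 < S) (hd : Down Rg)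
    (hN : 0 < N) (B : ℕ → ℕ) (hB : ∀ j < N, BF S L j a Rg (B j))
    (h : (a + 5).choose a * ∑ j ∈ range N, B j ≤ N * B' + (N - 1)) : BF S L N a Rg B' := by
  intro x y z hzy hyx hR p hp
  have h4 : |(N : ℤ) * fdig S N a p x y z| ≤
      ∑ k ∈ range N, ∑ _v ∈ piAntidiag (univ : Finset (Fin 6)) a, (B (N - (k + 1)) : ℤ) := by
    rw [fdig_rec hS]
    refine (Finset.abs_sum_le_sum_abs _ _).trans (Finset.sum_le_sum fun k hk => ?_)
    refine (Finset.abs_sum_le_sum_abs _ _).trans (Finset.sum_le_sum fun v _ => ?_)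
    have hk' := Finset.mem_range.1 hk
    split_ifs with h5 h6
    · exact (hB _ (by omega)).unsorted hd hR hzy hyx (Nat.sub_le _ _) (Nat.sub_le _ _)
        (Nat.sub_le _ _) (lt_of_le_of_lt (Nat.sub_le _ _) hp)
    · rw [abs_zero]; exact Int.natCast_nonneg _
    · rw [abs_zero]; exact Int.natCast_nonneg _
  have hcard : (piAntidiag (univ : Finset (Fin 6)) a).card = (a + 5).choose a := by
    have h5 := card_let 6 a
    rw [Fintype.card_coe] at h5
    rw [h5]
    congr 1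
    omega
  simp only [Finset.sum_const, hcard, nsmul_eq_mul] at h4
  rw [← Finset.mul_sum] at h4
  have h6 : ∑ k ∈ range N, (B (N - (k + 1)) : ℤ) = ∑ j ∈ range N, (B j : ℤ) := by
    rw [← Finset.sum_range_reflect (fun j => (B j : ℤ)) N]
    refine Finset.sum_congr rfl fun k _ => ?_
    congr 2
    omega
  rw [h6, abs_mul, Nat.abs_cast] at h4
  have h7 : (((a + 5).choose a : ℕ) : ℤ) * ∑ j ∈ range N, (B j : ℤ) ≤ N * B' + (N - 1) := by
    have h8 : ((((a + 5).choose a * ∑ j ∈ range N, B j : ℕ)) : ℤ) ≤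
        ((N * B' + (N - 1) : ℕ) : ℤ) := by exact_mod_cast h
    push_cast [Nat.cast_sub hN] at h8
    exact h8
  have h9 : (N : ℤ) * |fdig S N a p x y z| < N * (B' + 1) := by
    calc (N : ℤ) * |fdig S N a p x y z| ≤ _ := h4
      _ ≤ N * B' + (N - 1) := h7
      _ < N * (B' + 1) := by ring_nf; linarith
  have hNpos : (0 : ℤ) < N := by exact_mod_cast hN
  have h10 := lt_of_mul_lt_mul_left h9 hNpos.le
  omega

end Vale.Agent.P181.H788.FL
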