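import Vale.Agent.P181.H788.FDig

set_option autoImplicit false

/-!
# P181: the levels with a small stride, computed with division, and the tests
-/

namespace Vale.Agent.P181.H788.FL

open Finset MvPolynomial Vale.Agent.P181 Vale.Agent.P181.H280 Vale.Agent.P181.H605
open Vale.Agent.P181.H51

/-- **The level lemma**, small stride. -/
theorem levelF {w S R N a v B' : ℕ} {Rg : ℕ → ℕ → ℕ → Prop} (hS : 0 < S) (hd : Down Rg)
    (hN : 0 < N) (T : ℕ → Tb) (hT : ∀ j < N, SOn w S R j a Rg (T j))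
    (hT1 : ∀ x y z, T (N - 1) x y z ≤ 2 ^ (w * (S * R)))
    (hB : BF S (S * R) N a Rg B') (hv : B' < 2 ^ v) (hw : N * 2 ^ (v + 1) ≤ 2 ^ w) {F : Tb}
    (hF : ∀ x y z, z < y → y < x → Rg x y z → (F x y z : ℕ) =
      dvs w (S * R) N v (pie w S (w * (S * R)) a (T (N - 1)) x y z +
        ∑ k ∈ range (N - 1), ctr w S (w * (S * R)) (k + 2) a (T (N - (k + 2))) x y z)) :
    SOn w S R N a Rg F := by
  intro x y z hzy hyx hR
  rw [hF x y z hzy hyx hR]
  refine dvs_eq hN (d := fun p => fdig S N a p x y z) (fun p hp => ?_) hw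
    (G_ev w hS (S * R) N a x y z) ?_
  · have h1 := hB x y z hzy hyx hR p hp
    have h4 : (B' : ℤ) < 2 ^ v := by exact_mod_cast hv
    exact lt_of_le_of_lt h1 h4
  · -- the recursion
    have hrec : (N : ℤ) * G w S N a x y z =
        ∑ k ∈ range N, ctrZ w S (k + 1) a (G w S (N - (k + 1)) a) x y z := G_rec w S N a x y z
    obtain ⟨M, rfl⟩ : ∃ M, N = M + 1 := ⟨N - 1, by omega⟩
    have h1 : (((pie w S (w * (S * R)) a (T (M + 1 - 1)) x y z +
        ∑ k ∈ range (M + 1 - 1), ctr w S (w * (S * R)) (k + 2) a (T (M + 1 - (k + 2))) x y z : ℕ) :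
          ℤ) : Z (w * (S * R))) = ((((M + 1 : ℕ) : ℤ) * G w S (M + 1) a x y z : ℤ) :
            Z (w * (S * R))) := by
      rw [hrec, Finset.sum_range_succ', Int.cast_natCast, Nat.cast_add,
        H177.pie_eq_ctr w S (w * (S * R)) a _ (fun x y z _ _ => hT1 x y z) hzy hyx,
        ctr_castOn hd (hT _ (by omega)).tab (G_anti w S _ a) w S 1 a hR hzy hyx, add_comm]
      push_cast
      congr 1
      refine Finset.sum_congr (by simp) fun k hk => ?_
      have hk' := Finset.mem_range.1 hk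
      rw [ctr_castOn hd (hT _ (by omega)).tab (G_anti w S _ a) w S (k + 2) a hR hzy hyx]
    have h2 := (ZMod.intCast_eq_intCast_iff _ _ (2 ^ (w * (S * R)))).1 h1
    have h3 : ((2 ^ (w * (S * R)) : ℕ) : ℤ) = 2 ^ (w * (S * R)) := by push_cast; rfl
    rw [h3] at h2
    exact h2

lemma row_cong {w S R N a : ℕ} {Rg : ℕ → ℕ → ℕ → Prop} {F : Tb} (hS : 0 < S)
    (hF : SOn w S R N a Rg F) {x y z : ℕ} (hzy : z < y) (hyx : y < x) (hR : Rg x y z) :
    (F x y z : ℤ) ≡ ev (2 ^ w) (S * R) (fun p => fdig S N a p x y z)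
      [ZMOD 2 ^ (w * (S * R))] := by
  rw [hF x y z hzy hyx hR]
  exact (Int.mod_modEq _ _).trans (G_ev w hS (S * R) N a x y z)

/-- **The digit test bounds the digits of a level.** -/
theorem btestF {w S R N a v B' : ℕ} {Rg : ℕ → ℕ → ℕ → Prop} {F : Tb} (hS : 0 < S)
    (hF : SOn w S R N a Rg F) (hB : BF S (S * R) N a Rg B') (hB' : B' < 2 ^ (w - 1))
    (hv : v + 1 ≤ w)
    (ht : ∀ x y z, z < y → y < x → Rg x y z → dtest w (S * R) v (F x y z) = true) :
    BF S (S * R) N a Rg (2 ^ v) := by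
  intro x y z hzy hyx hR p hp
  have h4 : (B' : ℤ) < 2 ^ (w - 1) := by exact_mod_cast hB'
  have h5 := digit_test_ev hv (fun i hi => lt_of_le_of_lt (hB x y z hzy hyx hR i hi) h4)
    (row_cong hS hF hzy hyx hR) (Nat.eq_of_beq_eq_true (ht x y z hzy hyx hR)) p hp
  rw [abs_le]
  push_cast
  exact ⟨h5.1, h5.2.le⟩

/-- The digits of level zero are at most one. -/
theorem BF_zero {S : ℕ} (hS : 15 < S) (L a : ℕ) (Rg : ℕ → ℕ → ℕ → Prop) :
    BF S L 0 a Rg 1 := by
  intro x y z hzy hyx hR p hp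
  have h1 : fdig S 0 a p x y z = cf 0 a (p - S * (p / S)) (p / S) x y z := by
    unfold fdig
    rw [Finset.sum_range_succ, Finset.sum_eq_zero, zero_add]
    intro e he
    rw [Finset.mem_range] at he
    rw [cf, if_neg]
    have h2 : S * (e + 1) ≤ p := by
      have h3 : S * (e + 1) ≤ S * (p / S) := Nat.mul_le_mul_left S he
      exact h3.trans (Nat.mul_div_le p S)
    rw [Nat.mul_succ] at h2
    unfold dg
    omega
  rw [h1]
  have h2 := BOn_zero (p - S * (p / S) + 1) (p / S + 1) a Rg x y z hzy hyx hR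
    (p - S * (p / S)) (Nat.lt_succ_self _) (p / S) (Nat.lt_succ_self _)
  exact_mod_cast h2

/-- **The digit at a dominant place with a short first row is the coefficient.** -/
theorem fdig_eq_cf {S N a : ℕ} {e1 e2 e3 x y z : ℕ} (h12 : e2 < e1) (h1 : e1 + 2 ≤ S)
    (hsum : e1 + e2 + e3 + x + y + z = dg N a) :
    fdig S N a (e2 + S * e3) x y z = cf N a e2 e3 x y z := by
  have hS : 0 < S := by omega
  have hdiv : (e2 + S * e3) / S = e3 := by
    rw [Nat.add_mul_div_left _ _ hS, Nat.div_eq_of_lt (by omega), Nat.zero_add]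
  unfold fdig
  rw [hdiv, Finset.sum_range_succ, Finset.sum_eq_zero, zero_add, Nat.add_sub_cancel]
  intro e he
  rw [Finset.mem_range] at he
  rw [cf, if_neg]
  obtain ⟨r, rfl⟩ : ∃ r, e3 = e + 1 + r := ⟨e3 - (e + 1), by omega⟩
  have h3 : e2 + S * (e + 1 + r) - S * e = e2 + S + S * r := by
    rw [Nat.mul_add, Nat.mul_succ]
    omega
  rw [h3]
  have h4 : r ≤ S * r := Nat.le_mul_of_pos_left _ hS
  omega

/-- The digit at a dominant place with a short first row is a multiplicity. -/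
theorem fdig_eq_plethMult {S N a : ℕ} {e1 e2 e3 x y z : ℕ} (h12 : e2 < e1) (h23 : e3 < e2)
    (h3x : x < e3) (hxy : y < x) (hyz : z < y) (h1 : e1 + 2 ≤ S)
    (hsum : e1 + e2 + e3 + x + y + z = dg N a) :
    fdig S N a (e2 + S * e3) x y z =
      (plethMult N a 6 ![e1 - 5, e2 - 4, e3 - 3, x - 2, y - 1, z] : ℤ) := by
  rw [fdig_eq_cf h12 h1 hsum]
  exact cf_eq_plethMult N a h12 h23 h3x hxy hyz hsum

/-- **Reading a multiplicity from a row**, small stride. -/
theorem row_valueF {w S R N a B' : ℕ} {Rg : ℕ → ℕ → ℕ → Prop} {F : Tb}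
    (hF : SOn w S R N a Rg F) (hB : BF S (S * R) N a Rg B') (hw : 0 < w)
    (hB' : B' < 2 ^ (w - 1)) {e1 e2 e3 x y z : ℕ} (h12 : e2 < e1) (h23 : e3 < e2)
    (h3x : x < e3) (hxy : y < x) (hyz : z < y) (h1 : e1 + 2 ≤ S)
    (hsum : e1 + e2 + e3 + x + y + z = dg N a) (hR : Rg x y z) (h3 : e3 < R) :
    ((F x y z + off w (S * R)) % 2 ^ (w * (S * R))) >>> (w * (e2 + S * e3)) % 2 ^ w =
      plethMult N a 6 ![e1 - 5, e2 - 4, e3 - 3, x - 2, y - 1, z] + 2 ^ (w - 1) := by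
  have hS : 0 < S := by omega
  have h4 : (B' : ℤ) < 2 ^ (w - 1) := by exact_mod_cast hB'
  have h2w : (2 : ℤ) ^ w = 2 * 2 ^ (w - 1) := by
    rw [← pow_succ']; congr 1; omega
  have hp : e2 + S * e3 < S * R := lt_index (by omega) h3
  have hd : ∀ i < S * R, -2 ^ (w - 1) ≤ fdig S N a i x y z ∧
      fdig S N a i x y z + 2 ^ (w - 1) < 2 ^ w := by
    intro i hi
    have h5 := abs_lt.1 (lt_of_le_of_lt (hB x y z hyz hxy hR i hi) h4)
    constructor <;> linarith [h5.1, h5.2]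
  rw [off_eq, shift_eq_nev hw hd (row_cong hS hF hyz hxy hR), Nat.shiftRight_eq_div_pow,
    nev_digit w (S * R) _ ?_ _ hp, fdig_eq_plethMult h12 h23 h3x hxy hyz h1 hsum]
  · have h6 : ((plethMult N a 6 ![e1 - 5, e2 - 4, e3 - 3, x - 2, y - 1, z] : ℕ) : ℤ) +
        2 ^ (w - 1) = ((plethMult N a 6 ![e1 - 5, e2 - 4, e3 - 3, x - 2, y - 1, z] +
          2 ^ (w - 1) : ℕ) : ℤ) := by push_cast; rfl
    rw [h6, Int.toNat_natCast]
  · intro i hi
    have h5 : (((fdig S N a i x y z + 2 ^ (w - 1)).toNat : ℕ) : ℤ) =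
        fdig S N a i x y z + 2 ^ (w - 1) := Int.toNat_of_nonneg (by linarith [(hd i hi).1])
    have h6 := (hd i hi).2
    rw [← h5] at h6
    exact_mod_cast h6

end Vale.Agent.P181.H788.FL
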