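import Vale.Agent.P181.H788.ProgZ

set_option autoImplicit false

noncomputable section

namespace Vale.Agent.P181.H788.K7

def A0 : Tb := fun x y z => row0 64 58 66816 x y z
def A1 : Tb := fun x y z => Nat.mod (pie 64 58 66816 6 A0 x y z)
    (Nat.pow 2 66816)
def A2 : Tb := fun x y z => Nat.mod (Nat.add (pie 64 58 66816 6 A1 x y z)
    (ctr 64 58 66816 2 6 A0 x y z))
    (Nat.pow 2 66816)
def A3 : Tb := fun x y z => Nat.mod (Nat.add (Nat.add (pie 64 58 66816 6 A2 x y z)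
    (Nat.mul 2 (ctr 64 58 66816 2 6 A1 x y z)))
    (Nat.mul 2 (ctr 64 58 66816 3 6 A0 x y z)))
    (Nat.pow 2 66816)
def A4 : Tb := fun x y z => Nat.mod (Nat.add (Nat.add (Nat.add (pie 64 58 66816 6 A3 x y z)
    (Nat.mul 3 (ctr 64 58 66816 2 6 A2 x y z)))
    (Nat.mul 6 (ctr 64 58 66816 3 6 A1 x y z)))
    (Nat.mul 6 (ctr 64 58 66816 4 6 A0 x y z)))
    (Nat.pow 2 66816)
def A5 : Tb := fun x y z => Nat.mod (Nat.add (Nat.add (Nat.add (Nat.add (pie 64 58 66816 6 A4 x y z)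
    (Nat.mul 4 (ctr 64 58 66816 2 6 A3 x y z)))
    (Nat.mul 12 (ctr 64 58 66816 3 6 A2 x y z)))
    (Nat.mul 24 (ctr 64 58 66816 4 6 A1 x y z)))
    (Nat.mul 24 (ctr 64 58 66816 5 6 A0 x y z)))
    (Nat.pow 2 66816)
def A6 : Tb := fun x y z => Nat.mod (Nat.add (Nat.add (Nat.add (Nat.add (Nat.add (pie 64 58 66816 6 A5 x y z)
    (Nat.mul 5 (ctr 64 58 66816 2 6 A4 x y z)))
    (Nat.mul 20 (ctr 64 58 66816 3 6 A3 x y z)))
    (Nat.mul 60 (ctr 64 58 66816 4 6 A2 x y z)))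
    (Nat.mul 120 (ctr 64 58 66816 5 6 A1 x y z)))
    (Nat.mul 120 (ctr 64 58 66816 6 6 A0 x y z)))
    (Nat.pow 2 66816)
def A7 : Tb := fun x y z => Nat.mod (Nat.add (Nat.add (Nat.add (Nat.add (Nat.add (Nat.add (pie 64 58 66816 6 A6 x y z)
    (Nat.mul 6 (ctr 64 58 66816 2 6 A5 x y z)))
    (Nat.mul 30 (ctr 64 58 66816 3 6 A4 x y z)))
    (Nat.mul 120 (ctr 64 58 66816 4 6 A3 x y z)))
    (Nat.mul 360 (ctr 64 58 66816 5 6 A2 x y z)))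
    (Nat.mul 720 (ctr 64 58 66816 6 6 A1 x y z)))
    (Nat.mul 720 (ctr 64 58 66816 7 6 A0 x y z)))
    (Nat.pow 2 66816)
def B0 : Tb := fun x y z => row0 64 58 66816 x y z
def B1 : Tb := fun x y z => Nat.mod (pie 64 58 66816 7 B0 x y z)
    (Nat.pow 2 66816)
def B2 : Tb := fun x y z => Nat.mod (Nat.add (pie 64 58 66816 7 B1 x y z)
    (ctr 64 58 66816 2 7 B0 x y z))
    (Nat.pow 2 66816)
def B3 : Tb := fun x y z => Nat.mod (Nat.add (Nat.add (pie 64 58 66816 7 B2 x y z)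
    (Nat.mul 2 (ctr 64 58 66816 2 7 B1 x y z)))
    (Nat.mul 2 (ctr 64 58 66816 3 7 B0 x y z)))
    (Nat.pow 2 66816)
def B4 : Tb := fun x y z => Nat.mod (Nat.add (Nat.add (Nat.add (pie 64 58 66816 7 B3 x y z)
    (Nat.mul 3 (ctr 64 58 66816 2 7 B2 x y z)))
    (Nat.mul 6 (ctr 64 58 66816 3 7 B1 x y z)))
    (Nat.mul 6 (ctr 64 58 66816 4 7 B0 x y z)))
    (Nat.pow 2 66816)
def B5 : Tb := fun x y z => Nat.mod (Nat.add (Nat.add (Nat.add (Nat.add (pie 64 58 66816 7 B4 x y z)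
    (Nat.mul 4 (ctr 64 58 66816 2 7 B3 x y z)))
    (Nat.mul 12 (ctr 64 58 66816 3 7 B2 x y z)))
    (Nat.mul 24 (ctr 64 58 66816 4 7 B1 x y z)))
    (Nat.mul 24 (ctr 64 58 66816 5 7 B0 x y z)))
    (Nat.pow 2 66816)
def B6 : Tb := fun x y z => Nat.mod (Nat.add (Nat.add (Nat.add (Nat.add (Nat.add (pie 64 58 66816 7 B5 x y z)
    (Nat.mul 5 (ctr 64 58 66816 2 7 B4 x y z)))
    (Nat.mul 20 (ctr 64 58 66816 3 7 B3 x y z)))
    (Nat.mul 60 (ctr 64 58 66816 4 7 B2 x y z)))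
    (Nat.mul 120 (ctr 64 58 66816 5 7 B1 x y z)))
    (Nat.mul 120 (ctr 64 58 66816 6 7 B0 x y z)))
    (Nat.pow 2 66816)

theorem check : chkZ 64 58 18 57 1 7 A7 B6 13 2 = true := by
  decide +kernel

end Vale.Agent.P181.H788.K7
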