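import Vale.Agent.P181.H788.ProgE
import Vale.Agent.P181.H900.Grow

/-!
# P181, `a = 6`: comparison of a literal table with the rows of a level
-/

set_option autoImplicit false

noncomputable section

namespace Vale.Agent.P181.H788

open Vale.Agent.P181.H900 (dgE bo)

/-- The digits (24 bits, at `e2 + (3 N + 6) e3`) of `E` at the places `e1 > e2 > e3 > x`,
`e1 + e2 + e3 = T`, are `0`, or `e1 + 2 ≤ S`, `e3 < R` and they are at most the digits of `u`
(`w` bits, offset `2 ^ (w - 1)`, at `e2 + S e3`). -/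
def leE (w S R N T E u x : Nat) : Bool :=
  bc (Nat.ble (Nat.succ E) (Nat.pow 2 (Nat.mul 24 (Nat.mul (Nat.add (Nat.mul 3 N) 6) R))))
    (allB (fun j3 => fb (Nat.add (Nat.succ x) j3) fun e3 =>
      allB (fun j2 => fb (Nat.add (Nat.succ e3) j2) fun e2 =>
        fb (dgE E N e2 e3) fun d =>
          bo (Nat.beq d 0)
            (bc (Nat.ble (Nat.add (Nat.sub (Nat.sub T e3) e2) 2) S)
              (Nat.ble (Nat.add d (Nat.pow 2 (Nat.sub w 1)))
                (Nat.mod (Nat.shiftRight u (Nat.mul w (Nat.add e2 (Nat.mul S e3))))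
                  (Nat.pow 2 w)))))
        (Nat.sub (Nat.div (Nat.sub (Nat.sub T e3) 1) 2) e3)) (Nat.sub R (Nat.succ x)))

/-- one row of the table `t` against the row of the level `A` -/
def rowE (w S R N C : Nat) (t A : Tb) (x y z : Nat) : Bool :=
  bo (Nat.beq (t x y z) 0)
    (bc (Nat.ble (Nat.add (Nat.add (Nat.mul 4 x) y) z) C)
      (leE w S R N (Nat.sub (Nat.add 15 (Nat.mul 6 N)) (Nat.add (Nat.add x y) z)) (t x y z)
        (Nat.mod (Nat.add (A x y z) (off w (Nat.mul S R))) (Nat.pow 2 (Nat.mul w (Nat.mul S R))))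
        x))

/-- all rows `z < y < x < X1`, `z < Z1` -/
def tabE (w S R N C X1 Z1 : Nat) (t A : Tb) : Bool :=
  allB (fun x => allB (fun y => allB (fun z => fb x fun x => fb y fun y => fb z fun z =>
    rowE w S R N C t A x y z) (mn y Z1)) x) X1

/-- the table `l`, cut to the rows `Z0 ≤ z < Z1`, `x < X1` -/
def cutT (l : List (List Nat)) (X1 Z0 Z1 : Nat) : Tb := fun x y z =>
  bt (Nat.ble Z0 z) (bt (Nat.ble (Nat.succ z) Z1) (bt (Nat.ble (Nat.succ x) X1)
    (H900.rowL l x y z) 0) 0) 0

end Vale.Agent.P181.H788
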