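import Vale.Agent.P181.H788.ProgT

/-!
# P181, `a = 6`: loops over the rows with `y < Y1`
-/

set_option autoImplicit false

noncomputable section

namespace Vale.Agent.P181.H788

/-- all rows `z < y < x < X1`, `y < Y1`, `z < Z1`, `4 x + y + z ≤ C` -/
def allY (X1 Y1 Z1 C : Nat) (f : Nat → Nat → Nat → Bool) : Bool :=
  allB (fun x => allB (fun y => allB (fun z => fb x fun x => fb y fun y => fb z fun z =>
    @Bool.rec (fun _ => Bool) true (f x y z)
      (Nat.ble (Nat.add (Nat.add (Nat.mul 4 x) y) z) C)) (mn y Z1)) (mn x Y1)) X1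

/-- the table `t` against the rows of the level `A`: all rows `z < y < x < X1`, `y < Y1`,
`z < Z1` -/
def tabY (w S R N C X1 Y1 Z1 : Nat) (t A : Tb) : Bool :=
  allB (fun x => allB (fun y => allB (fun z => fb x fun x => fb y fun y => fb z fun z =>
    rowE w S R N C t A x y z) (mn y Z1)) (mn x Y1)) X1

/-- the table `l`, cut to the rows `Y0 ≤ y < Y1`, `z < Z1`, `x < X1` -/
def cutY (l : List (List Nat)) (X1 Y0 Y1 Z1 : Nat) : Tb := fun x y z =>
  bt (Nat.ble Y0 y) (bt (Nat.ble (Nat.succ y) Y1) (bt (Nat.ble (Nat.succ z) Z1)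
    (bt (Nat.ble (Nat.succ x) X1) (H900.rowL l x y z) 0) 0) 0) 0

end Vale.Agent.P181.H788
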