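import Vale.Agent.P181.H788.ProgT
import Vale.Agent.P181.H788.E6

/-!
# P181, `a = 6`: the levels `1, ..., 10` of the right side, kernel part
-/

set_option autoImplicit false

noncomputable section

namespace Vale.Agent.P181.H788.R10

def A0 : Tb := fun x y z => row0 29 37 25752 x y z
def A1 : Tb := fun x y z => dvz 29 888 1 9 (pie 29 37 25752 6 A0 x y z)
def A2 : Tb := fun x y z => dvz 29 888 2 10 (Nat.add (pie 29 37 25752 6 A1 x y z) (ctr 29 37 25752 2 6 A0 x y z))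
def A3 : Tb := fun x y z => dvz 29 888 3 10 (Nat.add (pie 29 37 25752 6 A2 x y z) (Nat.add (ctr 29 37 25752 2 6 A1 x y z) (ctr 29 37 25752 3 6 A0 x y z)))
def A4 : Tb := fun x y z => dvz 29 888 4 11 (Nat.add (pie 29 37 25752 6 A3 x y z) (Nat.add (Nat.add (ctr 29 37 25752 2 6 A2 x y z) (ctr 29 37 25752 3 6 A1 x y z)) (ctr 29 37 25752 4 6 A0 x y z)))
def A5 : Tb := fun x y z => dvz 29 888 5 11 (Nat.add (pie 29 37 25752 6 A4 x y z) (Nat.add (Nat.add (Nat.add (ctr 29 37 25752 2 6 A3 x y z) (ctr 29 37 25752 3 6 A2 x y z)) (ctr 29 37 25752 4 6 A1 x y z)) (ctr 29 37 25752 5 6 A0 x y z)))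
def A6 : Tb := fun x y z => dvz 29 888 6 12 (Nat.add (pie 29 37 25752 6 A5 x y z) (Nat.add (Nat.add (Nat.add (Nat.add (ctr 29 37 25752 2 6 A4 x y z) (ctr 29 37 25752 3 6 A3 x y z)) (ctr 29 37 25752 4 6 A2 x y z)) (ctr 29 37 25752 5 6 A1 x y z)) (ctr 29 37 25752 6 6 A0 x y z)))
def A7 : Tb := fun x y z => dvz 29 888 7 14 (Nat.add (pie 29 37 25752 6 A6 x y z) (Nat.add (Nat.add (Nat.add (Nat.add (Nat.add (ctr 29 37 25752 2 6 A5 x y z) (ctr 29 37 25752 3 6 A4 x y z)) (ctr 29 37 25752 4 6 A3 x y z)) (ctr 29 37 25752 5 6 A2 x y z)) (ctr 29 37 25752 6 6 A1 x y z)) (ctr 29 37 25752 7 6 A0 x y z)))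
def A8 : Tb := fun x y z => dvz 29 888 8 17 (Nat.add (pie 29 37 25752 6 A7 x y z) (Nat.add (Nat.add (Nat.add (Nat.add (Nat.add (Nat.add (ctr 29 37 25752 2 6 A6 x y z) (ctr 29 37 25752 3 6 A5 x y z)) (ctr 29 37 25752 4 6 A4 x y z)) (ctr 29 37 25752 5 6 A3 x y z)) (ctr 29 37 25752 6 6 A2 x y z)) (ctr 29 37 25752 7 6 A1 x y z)) (ctr 29 37 25752 8 6 A0 x y z)))
def A9 : Tb := fun x y z => dvz 29 888 9 20 (Nat.add (pie 29 37 25752 6 A8 x y z) (Nat.add (Nat.add (Nat.add (Nat.add (Nat.add (Nat.add (Nat.add (ctr 29 37 25752 2 6 A7 x y z) (ctr 29 37 25752 3 6 A6 x y z)) (ctr 29 37 25752 4 6 A5 x y z)) (ctr 29 37 25752 5 6 A4 x y z)) (ctr 29 37 25752 6 6 A3 x y z)) (ctr 29 37 25752 7 6 A2 x y z)) (ctr 29 37 25752 8 6 A1 x y z)) (ctr 29 37 25752 9 6 A0 x y z)))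
def A10 : Tb := fun x y z => dvz 29 888 10 24 (Nat.add (pie 29 37 25752 6 A9 x y z) (Nat.add (Nat.add (Nat.add (Nat.add (Nat.add (Nat.add (Nat.add (Nat.add (ctr 29 37 25752 2 6 A8 x y z) (ctr 29 37 25752 3 6 A7 x y z)) (ctr 29 37 25752 4 6 A6 x y z)) (ctr 29 37 25752 5 6 A5 x y z)) (ctr 29 37 25752 6 6 A4 x y z)) (ctr 29 37 25752 7 6 A3 x y z)) (ctr 29 37 25752 8 6 A2 x y z)) (ctr 29 37 25752 9 6 A1 x y z)) (ctr 29 37 25752 10 6 A0 x y z)))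

def t5 : Tb := cutT E6.e5 18 0 6

def t6 : Tb := cutT E6.e6 18 0 6

def t7 : Tb := cutT E6.e7 18 0 6

def t8 : Tb := cutT E6.e8 18 0 6

def t9 : Tb := cutT E6.e9 18 0 6

def t10 : Tb := cutT E6.e10 18 0 6

def d1 : Bool := allR 18 69 6 fun x y z => dtz 29 888 1 (A1 x y z)

def d2 : Bool := allR 18 69 6 fun x y z => dtz 29 888 1 (A2 x y z)

def d3 : Bool := allR 18 69 6 fun x y z => dtz 29 888 2 (A3 x y z)

def d4 : Bool := allR 18 69 6 fun x y z => dtz 29 888 3 (A4 x y z)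

def d5 : Bool := allR 18 69 6 fun x y z => dtz 29 888 5 (A5 x y z)

def d6 : Bool := allR 18 69 6 fun x y z => dtz 29 888 7 (A6 x y z)

def d7 : Bool := allR 18 69 6 fun x y z => dtz 29 888 11 (A7 x y z)

def d8 : Bool := allR 18 69 6 fun x y z => dtz 29 888 14 (A8 x y z)

def d9 : Bool := allR 18 69 6 fun x y z => dtz 29 888 18 (A9 x y z)

def e5 : Bool := tabE 29 37 24 5 69 18 6 t5 A5

def e6 : Bool := tabE 29 37 24 6 69 18 6 t6 A6

def e7 : Bool := tabE 29 37 24 7 69 18 6 t7 A7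

def e8 : Bool := tabE 29 37 24 8 69 18 6 t8 A8

def e9 : Bool := tabE 29 37 24 9 69 18 6 t9 A9

def e10 : Bool := tabE 29 37 24 10 69 18 6 t10 A10

def tests : Bool := (bc d1 (bc d2 (bc d3 (bc d4 (bc d5 (bc d6 (bc d7 (bc d8 (bc d9 (bc e5 (bc e6 (bc e7 (bc e8 (bc e9 e10))))))))))))))

theorem tests_true : tests = true := by decide +kernel

end Vale.Agent.P181.H788.R10
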