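import Vale.Agent.P181.H788.ProgT
import Vale.Agent.P181.H788.E11
import Vale.Agent.P181.H788.R10

/-!
# P181, `a = 6`: the levels `1, ..., 11` of the right side, kernel part
-/

set_option autoImplicit false

noncomputable section

namespace Vale.Agent.P181.H788.R11

def A0 : Tb := fun x y z => row0 33 29 19140 x y z
def A1 : Tb := fun x y z => dvz 33 580 1 9 (pie 33 29 19140 6 A0 x y z)
def A2 : Tb := fun x y z => dvz 33 580 2 10 (Nat.add (pie 33 29 19140 6 A1 x y z) (ctr 33 29 19140 2 6 A0 x y z))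
def A3 : Tb := fun x y z => dvz 33 580 3 10 (Nat.add (pie 33 29 19140 6 A2 x y z) (Nat.add (ctr 33 29 19140 2 6 A1 x y z) (ctr 33 29 19140 3 6 A0 x y z)))
def A4 : Tb := fun x y z => dvz 33 580 4 11 (Nat.add (pie 33 29 19140 6 A3 x y z) (Nat.add (Nat.add (ctr 33 29 19140 2 6 A2 x y z) (ctr 33 29 19140 3 6 A1 x y z)) (ctr 33 29 19140 4 6 A0 x y z)))
def A5 : Tb := fun x y z => dvz 33 580 5 11 (Nat.add (pie 33 29 19140 6 A4 x y z) (Nat.add (Nat.add (Nat.add (ctr 33 29 19140 2 6 A3 x y z) (ctr 33 29 19140 3 6 A2 x y z)) (ctr 33 29 19140 4 6 A1 x y z)) (ctr 33 29 19140 5 6 A0 x y z)))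
def A6 : Tb := fun x y z => dvz 33 580 6 12 (Nat.add (pie 33 29 19140 6 A5 x y z) (Nat.add (Nat.add (Nat.add (Nat.add (ctr 33 29 19140 2 6 A4 x y z) (ctr 33 29 19140 3 6 A3 x y z)) (ctr 33 29 19140 4 6 A2 x y z)) (ctr 33 29 19140 5 6 A1 x y z)) (ctr 33 29 19140 6 6 A0 x y z)))
def A7 : Tb := fun x y z => dvz 33 580 7 14 (Nat.add (pie 33 29 19140 6 A6 x y z) (Nat.add (Nat.add (Nat.add (Nat.add (Nat.add (ctr 33 29 19140 2 6 A5 x y z) (ctr 33 29 19140 3 6 A4 x y z)) (ctr 33 29 19140 4 6 A3 x y z)) (ctr 33 29 19140 5 6 A2 x y z)) (ctr 33 29 19140 6 6 A1 x y z)) (ctr 33 29 19140 7 6 A0 x y z)))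
def A8 : Tb := fun x y z => dvz 33 580 8 17 (Nat.add (pie 33 29 19140 6 A7 x y z) (Nat.add (Nat.add (Nat.add (Nat.add (Nat.add (Nat.add (ctr 33 29 19140 2 6 A6 x y z) (ctr 33 29 19140 3 6 A5 x y z)) (ctr 33 29 19140 4 6 A4 x y z)) (ctr 33 29 19140 5 6 A3 x y z)) (ctr 33 29 19140 6 6 A2 x y z)) (ctr 33 29 19140 7 6 A1 x y z)) (ctr 33 29 19140 8 6 A0 x y z)))
def A9 : Tb := fun x y z => dvz 33 580 9 20 (Nat.add (pie 33 29 19140 6 A8 x y z) (Nat.add (Nat.add (Nat.add (Nat.add (Nat.add (Nat.add (Nat.add (ctr 33 29 19140 2 6 A7 x y z) (ctr 33 29 19140 3 6 A6 x y z)) (ctr 33 29 19140 4 6 A5 x y z)) (ctr 33 29 19140 5 6 A4 x y z)) (ctr 33 29 19140 6 6 A3 x y z)) (ctr 33 29 19140 7 6 A2 x y z)) (ctr 33 29 19140 8 6 A1 x y z)) (ctr 33 29 19140 9 6 A0 x y z)))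
def A10 : Tb := fun x y z => dvz 33 580 10 24 (Nat.add (pie 33 29 19140 6 A9 x y z) (Nat.add (Nat.add (Nat.add (Nat.add (Nat.add (Nat.add (Nat.add (Nat.add (ctr 33 29 19140 2 6 A8 x y z) (ctr 33 29 19140 3 6 A7 x y z)) (ctr 33 29 19140 4 6 A6 x y z)) (ctr 33 29 19140 5 6 A5 x y z)) (ctr 33 29 19140 6 6 A4 x y z)) (ctr 33 29 19140 7 6 A3 x y z)) (ctr 33 29 19140 8 6 A2 x y z)) (ctr 33 29 19140 9 6 A1 x y z)) (ctr 33 29 19140 10 6 A0 x y z)))
def A11 : Tb := fun x y z => dvz 33 580 11 28 (Nat.add (pie 33 29 19140 6 A10 x y z) (Nat.add (Nat.add (Nat.add (Nat.add (Nat.add (Nat.add (Nat.add (Nat.add (Nat.add (ctr 33 29 19140 2 6 A9 x y z) (ctr 33 29 19140 3 6 A8 x y z)) (ctr 33 29 19140 4 6 A7 x y z)) (ctr 33 29 19140 5 6 A6 x y z)) (ctr 33 29 19140 6 6 A5 x y z)) (ctr 33 29 19140 7 6 A4 x y z)) (ctr 33 29 19140 8 6 A3 x y z)) (ctr 33 29 19140 9 6 A2 x y z)) (ctr 33 29 19140 10 6 A1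 x y z)) (ctr 33 29 19140 11 6 A0 x y z)))

def t11 : Tb := cutT E11.tab 17 1 6

def d1 : Bool := allR 17 75 6 fun x y z => dtz 33 580 1 (A1 x y z)

def d2 : Bool := allR 17 75 6 fun x y z => dtz 33 580 1 (A2 x y z)

def d3 : Bool := allR 17 75 6 fun x y z => dtz 33 580 2 (A3 x y z)

def d4 : Bool := allR 17 75 6 fun x y z => dtz 33 580 3 (A4 x y z)

def d5 : Bool := allR 17 75 6 fun x y z => dtz 33 580 5 (A5 x y z)

def d6 : Bool := allR 17 75 6 fun x y z => dtz 33 580 7 (A6 x y z)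

def d7 : Bool := allR 17 75 6 fun x y z => dtz 33 580 11 (A7 x y z)

def d8 : Bool := allR 17 75 6 fun x y z => dtz 33 580 14 (A8 x y z)

def d9 : Bool := allR 17 75 6 fun x y z => dtz 33 580 18 (A9 x y z)

def d10 : Bool := allR 17 75 6 fun x y z => dtz 33 580 22 (A10 x y z)

def e11 : Bool := tabE 33 29 20 11 75 17 6 t11 A11

def tests : Bool := (bc d1 (bc d2 (bc d3 (bc d4 (bc d5 (bc d6 (bc d7 (bc d8 (bc d9 (bc d10 e11))))))))))

theorem tests_true : tests = true := by decide +kernel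

end Vale.Agent.P181.H788.R11
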