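import Vale.Agent.P181.H788.ProgT
import Vale.Agent.P181.H788.E5
import Vale.Agent.P181.H788.R11

/-!
# P181, `a = 6`: the levels `1, ..., 12` of the right side, kernel part
-/

set_option autoImplicit false

noncomputable section

namespace Vale.Agent.P181.H788.R12

def A0 : Tb := fun x y z => row0 35 88 86240 x y z
def A1 : Tb := fun x y z => dvz 35 2464 1 9 (pie 35 88 86240 6 A0 x y z)
def A2 : Tb := fun x y z => dvz 35 2464 2 10 (Nat.add (pie 35 88 86240 6 A1 x y z) (ctr 35 88 86240 2 6 A0 x y z))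
def A3 : Tb := fun x y z => dvz 35 2464 3 10 (Nat.add (pie 35 88 86240 6 A2 x y z) (Nat.add (ctr 35 88 86240 2 6 A1 x y z) (ctr 35 88 86240 3 6 A0 x y z)))
def A4 : Tb := fun x y z => dvz 35 2464 4 11 (Nat.add (pie 35 88 86240 6 A3 x y z) (Nat.add (Nat.add (ctr 35 88 86240 2 6 A2 x y z) (ctr 35 88 86240 3 6 A1 x y z)) (ctr 35 88 86240 4 6 A0 x y z)))
def A5 : Tb := fun x y z => dvz 35 2464 5 11 (Nat.add (pie 35 88 86240 6 A4 x y z) (Nat.add (Nat.add (Nat.add (ctr 35 88 86240 2 6 A3 x y z) (ctr 35 88 86240 3 6 A2 x y z)) (ctr 35 88 86240 4 6 A1 x y z)) (ctr 35 88 86240 5 6 A0 x y z)))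
def A6 : Tb := fun x y z => dvz 35 2464 6 12 (Nat.add (pie 35 88 86240 6 A5 x y z) (Nat.add (Nat.add (Nat.add (Nat.add (ctr 35 88 86240 2 6 A4 x y z) (ctr 35 88 86240 3 6 A3 x y z)) (ctr 35 88 86240 4 6 A2 x y z)) (ctr 35 88 86240 5 6 A1 x y z)) (ctr 35 88 86240 6 6 A0 x y z)))
def A7 : Tb := fun x y z => dvz 35 2464 7 14 (Nat.add (pie 35 88 86240 6 A6 x y z) (Nat.add (Nat.add (Nat.add (Nat.add (Nat.add (ctr 35 88 86240 2 6 A5 x y z) (ctr 35 88 86240 3 6 A4 x y z)) (ctr 35 88 86240 4 6 A3 x y z)) (ctr 35 88 86240 5 6 A2 x y z)) (ctr 35 88 86240 6 6 A1 x y z)) (ctr 35 88 86240 7 6 A0 x y z)))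
def A8 : Tb := fun x y z => dvz 35 2464 8 17 (Nat.add (pie 35 88 86240 6 A7 x y z) (Nat.add (Nat.add (Nat.add (Nat.add (Nat.add (Nat.add (ctr 35 88 86240 2 6 A6 x y z) (ctr 35 88 86240 3 6 A5 x y z)) (ctr 35 88 86240 4 6 A4 x y z)) (ctr 35 88 86240 5 6 A3 x y z)) (ctr 35 88 86240 6 6 A2 x y z)) (ctr 35 88 86240 7 6 A1 x y z)) (ctr 35 88 86240 8 6 A0 x y z)))
def A9 : Tb := fun x y z => dvz 35 2464 9 20 (Nat.add (pie 35 88 86240 6 A8 x y z) (Nat.add (Nat.add (Nat.add (Nat.add (Nat.add (Nat.add (Nat.add (ctr 35 88 86240 2 6 A7 x y z) (ctr 35 88 86240 3 6 A6 x y z)) (ctr 35 88 86240 4 6 A5 x y z)) (ctr 35 88 86240 5 6 A4 x y z)) (ctr 35 88 86240 6 6 A3 x y z)) (ctr 35 88 86240 7 6 A2 x y z)) (ctr 35 88 86240 8 6 A1 x y z)) (ctr 35 88 86240 9 6 A0 x y z)))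
def A10 : Tb := fun x y z => dvz 35 2464 10 23 (Nat.add (pie 35 88 86240 6 A9 x y z) (Nat.add (Nat.add (Nat.add (Nat.add (Nat.add (Nat.add (Nat.add (Nat.add (ctr 35 88 86240 2 6 A8 x y z) (ctr 35 88 86240 3 6 A7 x y z)) (ctr 35 88 86240 4 6 A6 x y z)) (ctr 35 88 86240 5 6 A5 x y z)) (ctr 35 88 86240 6 6 A4 x y z)) (ctr 35 88 86240 7 6 A3 x y z)) (ctr 35 88 86240 8 6 A2 x y z)) (ctr 35 88 86240 9 6 A1 x y z)) (ctr 35 88 86240 10 6 A0 x y z)))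
def A11 : Tb := fun x y z => dvz 35 2464 11 27 (Nat.add (pie 35 88 86240 6 A10 x y z) (Nat.add (Nat.add (Nat.add (Nat.add (Nat.add (Nat.add (Nat.add (Nat.add (Nat.add (ctr 35 88 86240 2 6 A9 x y z) (ctr 35 88 86240 3 6 A8 x y z)) (ctr 35 88 86240 4 6 A7 x y z)) (ctr 35 88 86240 5 6 A6 x y z)) (ctr 35 88 86240 6 6 A5 x y z)) (ctr 35 88 86240 7 6 A4 x y z)) (ctr 35 88 86240 8 6 A3 x y z)) (ctr 35 88 86240 9 6 A2 x y z)) (ctr 35 88 86240 10 6 A1 x y z)) (ctr 35 88 86240 11 6 A0 x y z)))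
def A12 : Tb := fun x y z => dvz 35 2464 12 30 (Nat.add (pie 35 88 86240 6 A11 x y z) (Nat.add (Nat.add (Nat.add (Nat.add (Nat.add (Nat.add (Nat.add (Nat.add (Nat.add (Nat.add (ctr 35 88 86240 2 6 A10 x y z) (ctr 35 88 86240 3 6 A9 x y z)) (ctr 35 88 86240 4 6 A8 x y z)) (ctr 35 88 86240 5 6 A7 x y z)) (ctr 35 88 86240 6 6 A6 x y z)) (ctr 35 88 86240 7 6 A5 x y z)) (ctr 35 88 86240 8 6 A4 x y z)) (ctr 35 88 86240 9 6 A3 x y z)) (ctr 35 88 86240 10 6 A2 x y z)) (ctr 35 88 86240 11 6 A1 x y z)) (ctr 35 88 86240 12 6 A0 x y z)))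

def t11 : Tb := cutT E5.e11 21 0 1

def t12 : Tb := cutT E5.e12 21 0 1

def d1 : Bool := allR 21 81 1 fun x y z => dtz 35 2464 1 (A1 x y z)

def d2 : Bool := allR 21 81 1 fun x y z => dtz 35 2464 1 (A2 x y z)

def d3 : Bool := allR 21 81 1 fun x y z => dtz 35 2464 2 (A3 x y z)

def d4 : Bool := allR 21 81 1 fun x y z => dtz 35 2464 3 (A4 x y z)

def d5 : Bool := allR 21 81 1 fun x y z => dtz 35 2464 5 (A5 x y z)

def d6 : Bool := allR 21 81 1 fun x y z => dtz 35 2464 7 (A6 x y z)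

def d7 : Bool := allR 21 81 1 fun x y z => dtz 35 2464 11 (A7 x y z)

def d8 : Bool := allR 21 81 1 fun x y z => dtz 35 2464 14 (A8 x y z)

def d9 : Bool := allR 21 81 1 fun x y z => dtz 35 2464 17 (A9 x y z)

def d10 : Bool := allR 21 81 1 fun x y z => dtz 35 2464 21 (A10 x y z)

def d11 : Bool := allR 21 81 1 fun x y z => dtz 35 2464 24 (A11 x y z)

def e11 : Bool := tabE 35 88 28 11 81 21 1 t11 A11

def e12 : Bool := tabE 35 88 28 12 81 21 1 t12 A12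

def tests : Bool := (bc d1 (bc d2 (bc d3 (bc d4 (bc d5 (bc d6 (bc d7 (bc d8 (bc d9 (bc d10 (bc d11 (bc e11 e12))))))))))))

theorem tests_true : tests = true := by decide +kernel

end Vale.Agent.P181.H788.R12
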