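import Vale.Agent.P181.H788.ProgY
import Vale.Agent.P181.H788.E4
import Vale.Agent.P181.H788.R12

/-!
# P181, `a = 6`: the levels `1, ..., 19` of the right side, kernel part
-/

set_option autoImplicit false

noncomputable section

namespace Vale.Agent.P181.H788.R19

def A0 : Tb := fun x y z => row0 47 130 256620 x y z
def A1 : Tb := fun x y z => dvz 47 5460 1 9 (pie 47 130 256620 6 A0 x y z)
def A2 : Tb := fun x y z => dvz 47 5460 2 10 (Nat.add (pie 47 130 256620 6 A1 x y z) (ctr 47 130 256620 2 6 A0 x y z))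
def A3 : Tb := fun x y z => dvz 47 5460 3 10 (Nat.add (pie 47 130 256620 6 A2 x y z) (Nat.add (ctr 47 130 256620 2 6 A1 x y z) (ctr 47 130 256620 3 6 A0 x y z)))
def A4 : Tb := fun x y z => dvz 47 5460 4 11 (Nat.add (pie 47 130 256620 6 A3 x y z) (Nat.add (Nat.add (ctr 47 130 256620 2 6 A2 x y z) (ctr 47 130 256620 3 6 A1 x y z)) (ctr 47 130 256620 4 6 A0 x y z)))
def A5 : Tb := fun x y z => dvz 47 5460 5 11 (Nat.add (pie 47 130 256620 6 A4 x y z) (Nat.add (Nat.add (Nat.add (ctr 47 130 256620 2 6 A3 x y z) (ctr 47 130 256620 3 6 A2 x y z)) (ctr 47 130 256620 4 6 A1 x y z)) (ctr 47 130 256620 5 6 A0 x y z)))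
def A6 : Tb := fun x y z => dvz 47 5460 6 12 (Nat.add (pie 47 130 256620 6 A5 x y z) (Nat.add (Nat.add (Nat.add (Nat.add (ctr 47 130 256620 2 6 A4 x y z) (ctr 47 130 256620 3 6 A3 x y z)) (ctr 47 130 256620 4 6 A2 x y z)) (ctr 47 130 256620 5 6 A1 x y z)) (ctr 47 130 256620 6 6 A0 x y z)))
def A7 : Tb := fun x y z => dvz 47 5460 7 14 (Nat.add (pie 47 130 256620 6 A6 x y z) (Nat.add (Nat.add (Nat.add (Nat.add (Nat.add (ctr 47 130 256620 2 6 A5 x y z) (ctr 47 130 256620 3 6 A4 x y z)) (ctr 47 130 256620 4 6 A3 x y z)) (ctr 47 130 256620 5 6 A2 x y z)) (ctr 47 130 256620 6 6 A1 x y z)) (ctr 47 130 256620 7 6 A0 x y z)))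
def A8 : Tb := fun x y z => dvz 47 5460 8 17 (Nat.add (pie 47 130 256620 6 A7 x y z) (Nat.add (Nat.add (Nat.add (Nat.add (Nat.add (Nat.add (ctr 47 130 256620 2 6 A6 x y z) (ctr 47 130 256620 3 6 A5 x y z)) (ctr 47 130 256620 4 6 A4 x y z)) (ctr 47 130 256620 5 6 A3 x y z)) (ctr 47 130 256620 6 6 A2 x y z)) (ctr 47 130 256620 7 6 A1 x y z)) (ctr 47 130 256620 8 6 A0 x y z)))
def A9 : Tb := fun x y z => dvz 47 5460 9 19 (Nat.add (pie 47 130 256620 6 A8 x y z) (Nat.add (Nat.add (Nat.add (Nat.add (Nat.add (Nat.add (Nat.add (ctr 47 130 256620 2 6 A7 x y z) (ctr 47 130 256620 3 6 A6 x y z)) (ctr 47 130 256620 4 6 A5 x y z)) (ctr 47 130 256620 5 6 A4 x y z)) (ctr 47 130 256620 6 6 A3 x y z)) (ctr 47 130 256620 7 6 A2 x y z)) (ctr 47 130 256620 8 6 A1 x y z)) (ctr 47 130 256620 9 6 A0 x y z)))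
def A10 : Tb := fun x y z => dvz 47 5460 10 21 (Nat.add (pie 47 130 256620 6 A9 x y z) (Nat.add (Nat.add (Nat.add (Nat.add (Nat.add (Nat.add (Nat.add (Nat.add (ctr 47 130 256620 2 6 A8 x y z) (ctr 47 130 256620 3 6 A7 x y z)) (ctr 47 130 256620 4 6 A6 x y z)) (ctr 47 130 256620 5 6 A5 x y z)) (ctr 47 130 256620 6 6 A4 x y z)) (ctr 47 130 256620 7 6 A3 x y z)) (ctr 47 130 256620 8 6 A2 x y z)) (ctr 47 130 256620 9 6 A1 x y z)) (ctr 47 130 256620 10 6 A0 x y z)))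
def A11 : Tb := fun x y z => dvz 47 5460 11 24 (Nat.add (pie 47 130 256620 6 A10 x y z) (Nat.add (Nat.add (Nat.add (Nat.add (Nat.add (Nat.add (Nat.add (Nat.add (Nat.add (ctr 47 130 256620 2 6 A9 x y z) (ctr 47 130 256620 3 6 A8 x y z)) (ctr 47 130 256620 4 6 A7 x y z)) (ctr 47 130 256620 5 6 A6 x y z)) (ctr 47 130 256620 6 6 A5 x y z)) (ctr 47 130 256620 7 6 A4 x y z)) (ctr 47 130 256620 8 6 A3 x y z)) (ctr 47 130 256620 9 6 A2 x y z)) (ctr 47 130 256620 10 6 A1 x y z)) (ctr 47 130 256620 11 6 A0 x y z)))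
def A12 : Tb := fun x y z => dvz 47 5460 12 26 (Nat.add (pie 47 130 256620 6 A11 x y z) (Nat.add (Nat.add (Nat.add (Nat.add (Nat.add (Nat.add (Nat.add (Nat.add (Nat.add (Nat.add (ctr 47 130 256620 2 6 A10 x y z) (ctr 47 130 256620 3 6 A9 x y z)) (ctr 47 130 256620 4 6 A8 x y z)) (ctr 47 130 256620 5 6 A7 x y z)) (ctr 47 130 256620 6 6 A6 x y z)) (ctr 47 130 256620 7 6 A5 x y z)) (ctr 47 130 256620 8 6 A4 x y z)) (ctr 47 130 256620 9 6 A3 x y z)) (ctr 47 130 256620 10 6 A2 x y z)) (ctr 47 130 256620 11 6 A1 x y z)) (ctr 47 130 256620 12 6 A0 x y z)))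
def A13 : Tb := fun x y z => dvz 47 5460 13 28 (Nat.add (pie 47 130 256620 6 A12 x y z) (Nat.add (Nat.add (Nat.add (Nat.add (Nat.add (Nat.add (Nat.add (Nat.add (Nat.add (Nat.add (Nat.add (ctr 47 130 256620 2 6 A11 x y z) (ctr 47 130 256620 3 6 A10 x y z)) (ctr 47 130 256620 4 6 A9 x y z)) (ctr 47 130 256620 5 6 A8 x y z)) (ctr 47 130 256620 6 6 A7 x y z)) (ctr 47 130 256620 7 6 A6 x y z)) (ctr 47 130 256620 8 6 A5 x y z)) (ctr 47 130 256620 9 6 A4 x y z)) (ctr 47 130 256620 10 6 A3 x y z)) (ctr 47 130 256620 11 6 A2 x y z)) (ctr 47 130 256620 12 6 A1 x y z)) (ctr 47 130 256620 13 6 A0 x y z)))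
def A14 : Tb := fun x y z => dvz 47 5460 14 31 (Nat.add (pie 47 130 256620 6 A13 x y z) (Nat.add (Nat.add (Nat.add (Nat.add (Nat.add (Nat.add (Nat.add (Nat.add (Nat.add (Nat.add (Nat.add (Nat.add (ctr 47 130 256620 2 6 A12 x y z) (ctr 47 130 256620 3 6 A11 x y z)) (ctr 47 130 256620 4 6 A10 x y z)) (ctr 47 130 256620 5 6 A9 x y z)) (ctr 47 130 256620 6 6 A8 x y z)) (ctr 47 130 256620 7 6 A7 x y z)) (ctr 47 130 256620 8 6 A6 x y z)) (ctr 47 130 256620 9 6 A5 x y z)) (ctr 47 130 256620 10 6 A4 x y z)) (ctr 47 130 256620 11 6 A3 x y z)) (ctr 47 130 256620 12 6 A2 x y z)) (ctr 47 130 256620 13 6 A1 x y z)) (ctr 47 130 256620 14 6 A0 x y z)))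
def A15 : Tb := fun x y z => dvz 47 5460 15 33 (Nat.add (pie 47 130 256620 6 A14 x y z) (Nat.add (Nat.add (Nat.add (Nat.add (Nat.add (Nat.add (Nat.add (Nat.add (Nat.add (Nat.add (Nat.add (Nat.add (Nat.add (ctr 47 130 256620 2 6 A13 x y z) (ctr 47 130 256620 3 6 A12 x y z)) (ctr 47 130 256620 4 6 A11 x y z)) (ctr 47 130 256620 5 6 A10 x y z)) (ctr 47 130 256620 6 6 A9 x y z)) (ctr 47 130 256620 7 6 A8 x y z)) (ctr 47 130 256620 8 6 A7 x y z)) (ctr 47 130 256620 9 6 A6 x y z)) (ctr 47 130 256620 10 6 A5 x y z)) (ctr 47 130 256620 11 6 A4 x y z)) (ctr 47 130 256620 12 6 A3 x y z)) (ctr 47 130 256620 13 6 A2 x y z)) (ctr 47 130 256620 14 6 A1 x y z)) (ctr 47 130 256620 15 6 A0 x y z)))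
def A16 : Tb := fun x y z => dvz 47 5460 16 35 (Nat.add (pie 47 130 256620 6 A15 x y z) (Nat.add (Nat.add (Nat.add (Nat.add (Nat.add (Nat.add (Nat.add (Nat.add (Nat.add (Nat.add (Nat.add (Nat.add (Nat.add (Nat.add (ctr 47 130 256620 2 6 A14 x y z) (ctr 47 130 256620 3 6 A13 x y z)) (ctr 47 130 256620 4 6 A12 x y z)) (ctr 47 130 256620 5 6 A11 x y z)) (ctr 47 130 256620 6 6 A10 x y z)) (ctr 47 130 256620 7 6 A9 x y z)) (ctr 47 130 256620 8 6 A8 x y z)) (ctr 47 130 256620 9 6 A7 x y z)) (ctr 47 130 256620 10 6 A6 x y z)) (ctr 47 130 256620 11 6 A5 x y z)) (ctr 47 130 256620 12 6 A4 x y z)) (ctr 47 130 256620 13 6 A3 x y z)) (ctr 47 130 256620 14 6 A2 x y z)) (ctr 47 130 256620 15 6 A1 x y z)) (ctr 47 130 256620 16 6 A0 x y z)))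
def A17 : Tb := fun x y z => dvz 47 5460 17 37 (Nat.add (pie 47 130 256620 6 A16 x y z) (Nat.add (Nat.add (Nat.add (Nat.add (Nat.add (Nat.add (Nat.add (Nat.add (Nat.add (Nat.add (Nat.add (Nat.add (Nat.add (Nat.add (Nat.add (ctr 47 130 256620 2 6 A15 x y z) (ctr 47 130 256620 3 6 A14 x y z)) (ctr 47 130 256620 4 6 A13 x y z)) (ctr 47 130 256620 5 6 A12 x y z)) (ctr 47 130 256620 6 6 A11 x y z)) (ctr 47 130 256620 7 6 A10 x y z)) (ctr 47 130 256620 8 6 A9 x y z)) (ctr 47 130 256620 9 6 A8 x y z)) (ctr 47 130 256620 10 6 A7 x y z)) (ctr 47 130 256620 11 6 A6 x y z)) (ctr 47 130 256620 12 6 A5 x y z)) (ctr 47 130 256620 13 6 A4 x y z)) (ctr 47 130 256620 14 6 A3 x y z)) (ctr 47 130 256620 15 6 A2 x y z)) (ctr 47 130 256620 16 6 A1 x y z)) (ctr 47 130 256620 17 6 A0 x y z)))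
def A18 : Tb := fun x y z => dvz 47 5460 18 39 (Nat.add (pie 47 130 256620 6 A17 x y z) (Nat.add (Nat.add (Nat.add (Nat.add (Nat.add (Nat.add (Nat.add (Nat.add (Nat.add (Nat.add (Nat.add (Nat.add (Nat.add (Nat.add (Nat.add (Nat.add (ctr 47 130 256620 2 6 A16 x y z) (ctr 47 130 256620 3 6 A15 x y z)) (ctr 47 130 256620 4 6 A14 x y z)) (ctr 47 130 256620 5 6 A13 x y z)) (ctr 47 130 256620 6 6 A12 x y z)) (ctr 47 130 256620 7 6 A11 x y z)) (ctr 47 130 256620 8 6 A10 x y z)) (ctr 47 130 256620 9 6 A9 x y z)) (ctr 47 130 256620 10 6 A8 x y z)) (ctr 47 130 256620 11 6 A7 x y z)) (ctr 47 130 256620 12 6 A6 x y z)) (ctr 47 130 256620 13 6 A5 x y z)) (ctr 47 130 256620 14 6 A4 x y z)) (ctr 47 130 256620 15 6 A3 x y z)) (ctr 47 130 256620 16 6 A2 x y z)) (ctr 47 130 256620 17 6 A1 x y z)) (ctr 47 130 256620 18 6 A0 x y z)))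
def A19 : Tb := fun x y z => dvz 47 5460 19 41 (Nat.add (pie 47 130 256620 6 A18 x y z) (Nat.add (Nat.add (Nat.add (Nat.add (Nat.add (Nat.add (Nat.add (Nat.add (Nat.add (Nat.add (Nat.add (Nat.add (Nat.add (Nat.add (Nat.add (Nat.add (Nat.add (ctr 47 130 256620 2 6 A17 x y z) (ctr 47 130 256620 3 6 A16 x y z)) (ctr 47 130 256620 4 6 A15 x y z)) (ctr 47 130 256620 5 6 A14 x y z)) (ctr 47 130 256620 6 6 A13 x y z)) (ctr 47 130 256620 7 6 A12 x y z)) (ctr 47 130 256620 8 6 A11 x y z)) (ctr 47 130 256620 9 6 A10 x y z)) (ctr 47 130 256620 10 6 A9 x y z)) (ctr 47 130 256620 11 6 A8 x y z)) (ctr 47 130 256620 12 6 A7 x y z)) (ctr 47 130 256620 13 6 A6 x y z)) (ctr 47 130 256620 14 6 A5 x y z)) (ctr 47 130 256620 15 6 A4 x y z)) (ctr 47 130 256620 16 6 A3 x y z)) (ctr 47 130 256620 17 6 A2 x y z)) (ctr 47 130 256620 18 6 A1 x y z)) (ctr 47 130 256620 19 6 A0 x y z)))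

def t0 : Tb := cutY E4.e0 31 0 2 1

def t1 : Tb := cutY E4.e1 31 0 2 1

def t2 : Tb := cutY E4.e2 31 0 2 1

def t3 : Tb := cutY E4.e3 31 0 2 1

def t4 : Tb := cutY E4.e4 31 0 2 1

def t5 : Tb := cutY E4.e5 31 0 2 1

def t6 : Tb := cutY E4.e6 31 0 2 1

def t7 : Tb := cutY E4.e7 31 0 2 1

def t8 : Tb := cutY E4.e8 31 0 2 1

def t9 : Tb := cutY E4.e9 31 0 2 1

def t10 : Tb := cutY E4.e10 31 0 2 1

def t11 : Tb := cutY E4.e11 31 0 2 1

def t12 : Tb := cutY E4.e12 31 0 2 1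

def t13 : Tb := cutY E4.e13 31 0 2 1

def t14 : Tb := cutY E4.e14 31 0 2 1

def t15 : Tb := cutY E4.e15 31 0 2 1

def t16 : Tb := cutY E4.e16 31 0 2 1

def t17 : Tb := cutY E4.e17 31 0 2 1

def t18 : Tb := cutY E4.e18 31 0 2 1

def t19 : Tb := cutY E4.e19 31 0 2 1

def d1 : Bool := allY 31 2 1 123 fun x y z => dtz 47 5460 1 (A1 x y z)

def d2 : Bool := allY 31 2 1 123 fun x y z => dtz 47 5460 1 (A2 x y z)

def d3 : Bool := allY 31 2 1 123 fun x y z => dtz 47 5460 2 (A3 x y z)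

def d4 : Bool := allY 31 2 1 123 fun x y z => dtz 47 5460 3 (A4 x y z)

def d5 : Bool := allY 31 2 1 123 fun x y z => dtz 47 5460 5 (A5 x y z)

def d6 : Bool := allY 31 2 1 123 fun x y z => dtz 47 5460 7 (A6 x y z)

def d7 : Bool := allY 31 2 1 123 fun x y z => dtz 47 5460 10 (A7 x y z)

def d8 : Bool := allY 31 2 1 123 fun x y z => dtz 47 5460 12 (A8 x y z)

def d9 : Bool := allY 31 2 1 123 fun x y z => dtz 47 5460 15 (A9 x y z)

def d10 : Bool := allY 31 2 1 123 fun x y z => dtz 47 5460 18 (A10 x y z)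

def d11 : Bool := allY 31 2 1 123 fun x y z => dtz 47 5460 20 (A11 x y z)

def d12 : Bool := allY 31 2 1 123 fun x y z => dtz 47 5460 22 (A12 x y z)

def d13 : Bool := allY 31 2 1 123 fun x y z => dtz 47 5460 25 (A13 x y z)

def d14 : Bool := allY 31 2 1 123 fun x y z => dtz 47 5460 27 (A14 x y z)

def d15 : Bool := allY 31 2 1 123 fun x y z => dtz 47 5460 29 (A15 x y z)

def d16 : Bool := allY 31 2 1 123 fun x y z => dtz 47 5460 31 (A16 x y z)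

def d17 : Bool := allY 31 2 1 123 fun x y z => dtz 47 5460 33 (A17 x y z)

def d18 : Bool := allY 31 2 1 123 fun x y z => dtz 47 5460 35 (A18 x y z)

def e0 : Bool := tabY 47 130 42 0 123 31 2 1 t0 A0

def e1 : Bool := tabY 47 130 42 1 123 31 2 1 t1 A1

def e2 : Bool := tabY 47 130 42 2 123 31 2 1 t2 A2

def e3 : Bool := tabY 47 130 42 3 123 31 2 1 t3 A3

def e4 : Bool := tabY 47 130 42 4 123 31 2 1 t4 A4

def e5 : Bool := tabY 47 130 42 5 123 31 2 1 t5 A5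

def e6 : Bool := tabY 47 130 42 6 123 31 2 1 t6 A6

def e7 : Bool := tabY 47 130 42 7 123 31 2 1 t7 A7

def e8 : Bool := tabY 47 130 42 8 123 31 2 1 t8 A8

def e9 : Bool := tabY 47 130 42 9 123 31 2 1 t9 A9

def e10 : Bool := tabY 47 130 42 10 123 31 2 1 t10 A10

def e11 : Bool := tabY 47 130 42 11 123 31 2 1 t11 A11

def e12 : Bool := tabY 47 130 42 12 123 31 2 1 t12 A12

def e13 : Bool := tabY 47 130 42 13 123 31 2 1 t13 A13

def e14 : Bool := tabY 47 130 42 14 123 31 2 1 t14 A14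

def e15 : Bool := tabY 47 130 42 15 123 31 2 1 t15 A15

def e16 : Bool := tabY 47 130 42 16 123 31 2 1 t16 A16

def e17 : Bool := tabY 47 130 42 17 123 31 2 1 t17 A17

def e18 : Bool := tabY 47 130 42 18 123 31 2 1 t18 A18

def e19 : Bool := tabY 47 130 42 19 123 31 2 1 t19 A19

def tests : Bool := (bc d1 (bc d2 (bc d3 (bc d4 (bc d5 (bc d6 (bc d7 (bc d8 (bc d9 (bc d10 (bc d11 (bc d12 (bc d13 (bc d14 (bc d15 (bc d16 (bc d17 (bc d18 (bc e0 (bc e1 (bc e2 (bc e3 (bc e4 (bc e5 (bc e6 (bc e7 (bc e8 (bc e9 (bc e10 (bc e11 (bc e12 (bc e13 (bc e14 (bc e15 (bc e16 (bc e17 (bc e18 e19)))))))))))))))))))))))))))))))))))))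

theorem tests_true : tests = true := by decide +kernel

end Vale.Agent.P181.H788.R19
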