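import Vale.Agent.P181.H530.Inj
import Vale.Agent.P181.H605.AllTall
import Vale.Agent.P181.H983.TallGap

set_option autoImplicit false

/-!
# P181, `a = 6`: from the shapes with a short last row to all shapes
-/

universe u

namespace Vale.Agent.P181.H788

open Vale.Agent.P181 Vale.Agent.P181.H280 Vale.Agent.P181.H530

/-- For even `b` the last row may be taken at most `b - 5`. -/
theorem foulkes_of_short {b : ℕ} (hb : 6 ≤ b)
    (h : ∀ lam : Fin 6 → ℕ, Antitone lam → ∑ i, lam i = 6 * b → lam 5 < b - 4 →
      plethMult 6 b 6 lam ≤ plethMult b 6 6 lam) : FoulkesInjection.{u} 6 b := by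
  refine foulkesInjection fun lam hlam hsum => ?_
  by_cases h5 : lam 5 < b - 4
  · exact h lam hlam hsum h5
  · refine H605.tall 6 b 6 (by decide) hb le_rfl lam fun i _ => ?_
    have h6 : lam 5 ≤ lam i := hlam (Fin.le_last i)
    omega

/-- For odd `b` the last row may be taken at most `b - 6`. -/
theorem foulkes_of_short_odd {b : ℕ} (hb : 6 ≤ b) (hodd : Odd b)
    (h : ∀ lam : Fin 6 → ℕ, Antitone lam → ∑ i, lam i = 6 * b → lam 5 < b - 5 →
      plethMult 6 b 6 lam ≤ plethMult b 6 6 lam) : FoulkesInjection.{u} 6 b := by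
  refine foulkesInjection fun lam hlam hsum => ?_
  by_cases h5 : lam 5 < b - 5
  · exact h lam hlam hsum h5
  · refine H983.tall_oneE 6 b 6 (by decide) hb le_rfl (Even.add_odd (by decide) hodd)
      (Or.inl (by decide)) lam fun i _ => ?_
    have h6 : lam 5 ≤ lam i := hlam (Fin.le_last i)
    omega

end Vale.Agent.P181.H788
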